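import Crest.Agent.Lib.DetCrit.Bezout
import Crest.Prelude.Def_DetComplexity

/-!
# Corank one points of determinantal hypersurfaces

Jacobi's formula, dual numbers, rank one adjugates.
-/

set_option autoImplicit false

namespace Crest.Agent.DetCrit

open MvPolynomial Matrix
open Crest.LogicCS.DetComplexity

/-! ### Jacobi's formula for derivations -/

section Jacobi

variable {A : Type} [CommRing A] [Algebra ℂ A] {n : ℕ}

lemma derivation_prod (D : Derivation ℂ A A) {T : Type} [DecidableEq T] (s : Finset T) (f : T → A) :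
    D (∏ i ∈ s, f i) = ∑ k ∈ s, D (f k) * ∏ i ∈ s.erase k, f i := by
  classical
  induction s using Finset.induction_on with
  | empty => simp
  | insert a s ha ih =>
    rw [Finset.prod_insert ha, Derivation.leibniz, ih, Finset.sum_insert ha, Finset.erase_insert ha]
    simp only [smul_eq_mul, Finset.mul_sum]
    rw [add_comm]
    congr 1
    · ring
    · apply Finset.sum_congr rfl
      intro k hk
      have hka : k ≠ a := fun h => ha (h ▸ hk)
      rw [Finset.erase_insert_of_ne hka.symm, Finset.prod_insert (fun h => ha (Finset.mem_of_mem_erase h))]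
      ring

/-- Jacobi's formula. -/
theorem derivation_det (D : Derivation ℂ A A) (M : Matrix (Fin n) (Fin n) A) :
    D M.det = ∑ k, ∑ r, M.adjugate k r * D (M r k) := by
  classical
  have h1 : ∀ k, ∑ r, M.adjugate k r * D (M r k) = (M.updateCol k (fun r => D (M r k))).det := by
    intro k
    rw [← Matrix.cramer_apply, Matrix.cramer_eq_adjugate_mulVec]
    rfl
  simp only [h1]
  simp only [Matrix.det_apply, Finset.sum_comm (s := Finset.univ (α := Fin n))]
  rw [map_sum]
  apply Finset.sum_congr rfl
  intro σ _
  have key : D (∏ i, M (σ i) i) = ∑ k, ∏ i, M.updateCol k (fun r => D (M r k)) (σ i) i := by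
    rw [derivation_prod]
    apply Finset.sum_congr rfl
    intro k _
    rw [← Finset.mul_prod_erase Finset.univ _ (Finset.mem_univ k)]
    simp only [Matrix.updateCol_self]
    congr 1
    apply Finset.prod_congr rfl
    intro i hi
    rw [Matrix.updateCol_ne (Finset.ne_of_mem_erase hi)]
  rcases Int.units_eq_one_or (Equiv.Perm.sign σ) with hs | hs
  · simp [hs, key]
  · simp [hs, key, Finset.sum_neg_distrib]

end Jacobi

/-! ### Rank one adjugates over a commutative ring -/

section RankOne

variable {K : Type} [CommRing K] {n : ℕ}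

/-- If the kernels are generated by `w` and `v`, and `w` has a unit coordinate, the determinant
vanishes and the adjugate is a multiple of `w vᵀ`. -/
theorem rank_one_adj (M : Matrix (Fin n) (Fin n) K) (w v : Fin n → K) (r₀ : Fin n)
    (hw : M *ᵥ w = 0) (hr₀ : w r₀ = 1)
    (hkerR : ∀ y, M *ᵥ y = 0 → ∃ α : K, y = α • w)
    (hkerL : ∀ y, Mᵀ *ᵥ y = 0 → ∃ β : K, y = β • v) :
    M.det = 0 ∧ ∃ C : K, ∀ r k, M.adjugate r k = C * w r * v k := by
  have hdet : M.det = 0 := by
    have h1 : (M.adjugate * M) *ᵥ w = M.det • w := by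
      rw [Matrix.adjugate_mul, Matrix.smul_mulVec, Matrix.one_mulVec]
    rw [← Matrix.mulVec_mulVec, hw, Matrix.mulVec_zero] at h1
    have h2 := congrFun h1 r₀
    simpa [hr₀] using h2.symm
  refine ⟨hdet, ?_⟩
  have hcol : ∀ k, ∃ α : K, (fun r => M.adjugate r k) = α • w := by
    intro k
    apply hkerR
    funext r
    have h1 := congrFun (congrFun (Matrix.mul_adjugate M) r) k
    simp only [hdet, zero_smul, Matrix.zero_apply, Matrix.mul_apply] at h1
    simpa [Matrix.mulVec, dotProduct] using h1
  have hrow : ∀ r, ∃ β : K, (fun k => M.adjugate r k) = β • v := by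
    intro r
    apply hkerL
    funext k
    have h1 := congrFun (congrFun (Matrix.adjugate_mul M) r) k
    simp only [hdet, zero_smul, Matrix.zero_apply, Matrix.mul_apply] at h1
    simp only [Matrix.mulVec, dotProduct, Matrix.transpose_apply, Pi.zero_apply]
    rw [← h1]
    exact Finset.sum_congr rfl fun i _ => mul_comm _ _
  choose α hα using hcol
  choose β hβ using hrow
  refine ⟨β r₀, fun r k => ?_⟩
  have h1 : M.adjugate r k = α k * w r := by
    have := congrFun (hα k) r
    simpa using this
  have h2 : M.adjugate r₀ k = β r₀ * v k := by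
    have := congrFun (hβ r₀) k
    simpa using this
  have h3 : M.adjugate r₀ k = α k := by
    have := congrFun (hα k) r₀
    simpa [hr₀] using this
  rw [h1, ← h3, h2]
  ring

end RankOne

/-! ### Kernels of a corank one complex matrix -/

section KerC

variable {n : ℕ}

/-- If an entry of the adjugate is non zero, the kernel has dimension at most one. -/
theorem ker_one (M : Matrix (Fin n) (Fin n) ℂ) (a b : Fin n) (hab : M.adjugate a b ≠ 0)
    (w : Fin n → ℂ) (hw : M *ᵥ w = 0) (hw0 : w ≠ 0) (y : Fin n → ℂ) (hy : M *ᵥ y = 0) :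
    ∃ c : ℂ, y = c • w := by
  classical
  have hinj : ∀ u : Fin n → ℂ, M *ᵥ u = 0 → u a = 0 → u = 0 := by
    intro u hu hua
    have hdet : (M.updateRow b (Pi.single a 1)).det ≠ 0 := by
      rw [← Matrix.adjugate_apply]
      exact hab
    apply Matrix.eq_zero_of_mulVec_eq_zero hdet
    funext r
    by_cases hr : r = b
    · subst hr
      simp [Matrix.mulVec, dotProduct, Matrix.updateRow_self, Pi.single_apply, hua]
    · have := congrFun hu r
      simpa [Matrix.mulVec, dotProduct, Matrix.updateRow_ne hr] using this
  have hwa : w a ≠ 0 := fun h => hw0 (hinj w hw h)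
  refine ⟨y a / w a, ?_⟩
  have hdiff : y - (y a / w a) • w = 0 := by
    apply hinj
    · rw [Matrix.mulVec_sub, Matrix.mulVec_smul, hw, hy]
      simp
    · simp [hwa]
  exact sub_eq_zero.mp hdiff

theorem ker_one_transpose (M : Matrix (Fin n) (Fin n) ℂ) (a b : Fin n) (hab : M.adjugate a b ≠ 0)
    (v : Fin n → ℂ) (hv : Mᵀ *ᵥ v = 0) (hv0 : v ≠ 0) (y : Fin n → ℂ) (hy : Mᵀ *ᵥ y = 0) :
    ∃ c : ℂ, y = c • v := by
  apply ker_one Mᵀ b a _ v hv hv0 y hy
  rw [← Matrix.adjugate_transpose]
  exact hab

end KerC

/-! ### Dual numbers -/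

section Dual

open TrivSqZeroExt

variable {σ : Type} [Fintype σ] [DecidableEq σ]

/-- The dual point `p + ε δ`. -/
noncomputable def dualPt (p δ : σ → ℂ) : σ → DualNumber ℂ := fun i => inl (p i) + inr (δ i)

lemma fst_dualPt (p δ : σ → ℂ) (i : σ) : fst (dualPt p δ i) = p i := by simp [dualPt]

lemma snd_dualPt (p δ : σ → ℂ) (i : σ) : snd (dualPt p δ i) = δ i := by simp [dualPt]

/-- Evaluation at a dual point. -/
theorem aeval_dualPt (p δ : σ → ℂ) (q : MvPolynomial σ ℂ) :
    fst (aeval (dualPt p δ) q) = eval p q ∧
      snd (aeval (dualPt p δ) q) = ∑ i, δ i * eval p (pderiv i q) := by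
  classical
  induction q using MvPolynomial.induction_on with
  | C a =>
    simp [MvPolynomial.algebraMap_eq, TrivSqZeroExt.algebraMap_eq_inl]
  | add p' q hp hq =>
    constructor
    · simp [hp.1, hq.1]
    · simp [hp.2, hq.2, mul_add, Finset.sum_add_distrib]
  | mul_X p' i hp =>
    constructor
    · simp [hp.1, fst_dualPt]
    · rw [map_mul, aeval_X, DualNumber.snd_mul, hp.2, hp.1, snd_dualPt, fst_dualPt]
      have e1 : ∀ k, eval p (pderiv k (p' * X i))
          = eval p p' * ((Pi.single k (1 : ℂ) : σ → ℂ) i) + p i * eval p (pderiv k p') := by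
        intro k
        rw [Derivation.leibniz, pderiv_X]
        simp only [smul_eq_mul, map_add, map_mul, eval_X]
        congr 2
        simp only [Pi.single_apply]
        split_ifs <;> simp
      simp only [e1, mul_add, Finset.sum_add_distrib]
      congr 1
      · rw [Finset.sum_eq_single i]
        · simp
          ring
        · intro b _ hb
          simp [Pi.single_apply, hb, Ne.symm hb]
        · simp
      · rw [Finset.sum_mul]
        apply Finset.sum_congr rfl
        intro k _
        ring

end Dual

end Crest.Agent.DetCrit
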