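import Crest.Agent.Lib.DetCrit.Trilinear

/-!
# Counting the balanced assignments of the trilinear system
-/

open Finset

set_option linter.unusedSectionVars false

namespace Crest.Agent.DetCrit

variable {N n : ℕ}

/-- Equation embeddings. -/
def emb1 : Fin n ↪ Eqn N n := ⟨Sum.inl, Sum.inl_injective⟩
/-- Equation embeddings. -/
def emb2 : Fin (n - 1) ↪ Eqn N n := ⟨fun r => Sum.inr (Sum.inl r), fun _ _ h => by simpa using h⟩
/-- Equation embeddings. -/
def emb3 : Fin (N - 1) ↪ Eqn N n := ⟨fun r => Sum.inr (Sum.inr r), fun _ _ h => by simpa using h⟩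

theorem emb1_apply (r : Fin n) : (emb1 r : Eqn N n) = Sum.inl r := rfl
theorem emb2_apply (r : Fin (n - 1)) : (emb2 r : Eqn N n) = Sum.inr (Sum.inl r) := rfl
theorem emb3_apply (r : Fin (N - 1)) : (emb3 r : Eqn N n) = Sum.inr (Sum.inr r) := rfl

/-- False-sets of an assignment. -/
def S1 (α : Eqn N n → Bool) : Finset (Fin n) := univ.filter fun r => α (emb1 r) = false
/-- False-sets of an assignment. -/
def S2 (α : Eqn N n → Bool) : Finset (Fin (n - 1)) := univ.filter fun r => α (emb2 r) = false
/-- False-sets of an assignment. -/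
def S3 (α : Eqn N n → Bool) : Finset (Fin (N - 1)) := univ.filter fun r => α (emb3 r) = false

theorem card_y (α : Eqn N n → Bool) :
    (univ.filter fun e => (ea e = Grp.y ∧ α e = false) ∨ (eb e = Grp.y ∧ α e = true)).card =
      (S1 α).card + (S2 α).card := by
  classical
  have h : (univ.filter fun e : Eqn N n => (ea e = Grp.y ∧ α e = false) ∨
      (eb e = Grp.y ∧ α e = true)) = (S1 α).map emb1 ∪ (S2 α).map emb2 := by
    ext e
    simp only [Finset.mem_filter, Finset.mem_union, Finset.mem_map, Finset.mem_univ, true_and, S1, S2]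
    rcases e with r | r | r <;> simp [ea, eb, emb1_apply, emb2_apply]
  rw [h, Finset.card_union_of_disjoint, Finset.card_map, Finset.card_map]
  rw [Finset.disjoint_left]
  intro e h1 h2
  obtain ⟨r, -, rfl⟩ := Finset.mem_map.1 h1
  obtain ⟨r', -, h3⟩ := Finset.mem_map.1 h2
  simp [emb1_apply, emb2_apply] at h3

theorem card_v (α : Eqn N n → Bool) :
    (univ.filter fun e => (ea e = Grp.v ∧ α e = false) ∨ (eb e = Grp.v ∧ α e = true)).card =
      (S3 α).card + (n - 1 - (S2 α).card) := by
  classical
  have h : (univ.filter fun e : Eqn N n => (ea e = Grp.v ∧ α e = false) ∨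
      (eb e = Grp.v ∧ α e = true)) = (S3 α).map emb3 ∪ (S2 α)ᶜ.map emb2 := by
    ext e
    simp only [Finset.mem_filter, Finset.mem_union, Finset.mem_map, Finset.mem_univ, true_and, S3,
      Finset.mem_compl, S2]
    rcases e with r | r | r <;> simp [ea, eb, emb3_apply, emb2_apply]
  rw [h, Finset.card_union_of_disjoint, Finset.card_map, Finset.card_map, Finset.card_compl,
    Fintype.card_fin]
  rw [Finset.disjoint_left]
  intro e h1 h2
  obtain ⟨r, -, rfl⟩ := Finset.mem_map.1 h1
  obtain ⟨r', -, h3⟩ := Finset.mem_map.1 h2
  simp [emb3_apply, emb2_apply] at h3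

theorem S_injective : Function.Injective
    (fun α : Eqn N n → Bool => ((S1 α, S2 α, S3 α) : _ × _ × _)) := by
  intro α β h
  simp only [Prod.mk.injEq] at h
  obtain ⟨h1, h2, h3⟩ := h
  funext e
  have key : ∀ (x y : Bool), (x = false ↔ y = false) → x = y := by decide
  rcases e with r | r | r
  · refine key _ _ ?_
    have := Finset.ext_iff.1 h1 r
    simp only [S1, Finset.mem_filter, Finset.mem_univ, true_and] at this
    exact this
  · refine key _ _ ?_
    have := Finset.ext_iff.1 h2 r
    simp only [S2, Finset.mem_filter, Finset.mem_univ, true_and] at this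
    exact this
  · refine key _ _ ?_
    have := Finset.ext_iff.1 h3 r
    simp only [S3, Finset.mem_filter, Finset.mem_univ, true_and] at this
    exact this

/-- The sum formula for the number of balanced assignments. -/
theorem card_Bal_le (n N : ℕ) : (Bal (ea (N := N) (n := n)) eb (dd N n)).card ≤
    ∑ l ∈ range (N + 1), n.choose (N - l) * (n - 1).choose l * (N - 1).choose l := by
  classical
  let U : ℕ → Finset (Finset (Fin n) × Finset (Fin (n - 1)) × Finset (Fin (N - 1))) := fun l =>
    (powersetCard (N - l) univ) ×ˢ (powersetCard l univ) ×ˢ (powersetCard l univ)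
  have hU : ∀ l, (U l).card = n.choose (N - l) * (n - 1).choose l * (N - 1).choose l := by
    intro l
    simp only [U, Finset.card_product, Finset.card_powersetCard, Finset.card_univ, Fintype.card_fin]
    ring
  have hsub : (Bal (ea (N := N) (n := n)) eb (dd N n)).card ≤
      ((range (N + 1)).biUnion U).card := by
    refine Finset.card_le_card_of_injOn (fun α => (S1 α, S2 α, S3 α)) ?_ (S_injective.injOn)
    intro α hα
    have hα' := (Finset.mem_filter.1 hα).2
    have hy := hα' Grp.y
    have hv := hα' Grp.v
    rw [card_y] at hy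
    rw [card_v] at hv
    simp only [dd, Nat.add_sub_cancel] at hy hv
    have hle : (S2 α).card ≤ n - 1 := by
      have := Finset.card_le_univ (S2 α)
      simpa using this
    have h3 : (S3 α).card = (S2 α).card := by omega
    have h1 : (S1 α).card = N - (S2 α).card := by omega
    refine Finset.mem_coe.2 (Finset.mem_biUnion.2 ⟨(S2 α).card, ?_, ?_⟩)
    · rw [Finset.mem_range]; omega
    · simp only [U, Finset.mem_product, Finset.mem_powersetCard, Finset.subset_univ, true_and]
      exact ⟨h1, h3⟩
  refine hsub.trans (Finset.card_biUnion_le.trans (le_of_eq ?_))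
  exact Finset.sum_congr rfl fun l _ => hU l

/-- The numerical bound. -/
theorem sum_choose_mul_factorial_le (n N : ℕ) (hN : 1 ≤ N) :
    (∑ l ∈ range (N + 1), n.choose (N - l) * (n - 1).choose l * (N - 1).choose l) * N.factorial ≤
      (2 * N - 1).choose N * n ^ N := by
  have hV : (2 * N - 1).choose N = ∑ l ∈ range (N + 1), (N - 1).choose l * N.choose l := by
    have h1 : 2 * N - 1 = (N - 1) + N := by omega
    rw [h1, Nat.add_choose_eq, Finset.Nat.sum_antidiagonal_eq_sum_range_succ_mk]
    refine Finset.sum_congr rfl fun l hl => ?_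
    have hl' : l ≤ N := by
      have := Finset.mem_range.1 hl
      omega
    simp only [Nat.choose_symm hl']
  rw [hV, Finset.sum_mul, Finset.sum_mul]
  refine Finset.sum_le_sum fun l hl => ?_
  have hl' : l ≤ N := by
    have := Finset.mem_range.1 hl
    omega
  have h1 : n.choose (N - l) * (N - l).factorial ≤ n ^ (N - l) := by
    rw [mul_comm, ← Nat.descFactorial_eq_factorial_mul_choose]
    exact Nat.descFactorial_le_pow _ _
  have h2 : (n - 1).choose l * l.factorial ≤ n ^ l := by
    rw [mul_comm, ← Nat.descFactorial_eq_factorial_mul_choose]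
    exact (Nat.descFactorial_le_pow _ _).trans (Nat.pow_le_pow_left (Nat.sub_le _ _) _)
  have h3 : N.factorial = N.choose l * (l.factorial * (N - l).factorial) := by
    rw [← Nat.choose_mul_factorial_mul_factorial hl']
    ring
  rw [h3]
  calc n.choose (N - l) * (n - 1).choose l * (N - 1).choose l *
        (N.choose l * (l.factorial * (N - l).factorial))
      = ((N - 1).choose l * N.choose l) *
        ((n.choose (N - l) * (N - l).factorial) * ((n - 1).choose l * l.factorial)) := by ring
    _ ≤ ((N - 1).choose l * N.choose l) * (n ^ (N - l) * n ^ l) := by gcongr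
    _ = (N - 1).choose l * N.choose l * n ^ N := by
        rw [← pow_add, Nat.sub_add_cancel hl']

/-- The bound in the form used. -/
theorem card_Bal_mul_factorial_le (n N : ℕ) (hN : 1 ≤ N) :
    (Bal (ea (N := N) (n := n)) eb (dd N n)).card * N.factorial ≤ (2 * N - 1).choose N * n ^ N :=
  (Nat.mul_le_mul_right _ (card_Bal_le n N)).trans (sum_choose_mul_factorial_le n N hN)

end Crest.Agent.DetCrit
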