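import Crest.Agent.Lib.DetCrit.Graded

/-!
# The multihomogeneous Bezout inequality for simple roots

Semicontinuity of rank, independence of points, persistence of simple roots.
-/

set_option autoImplicit false

namespace Crest.Agent.DetCrit

open MvPolynomial
open scoped Topology

/-! ### Rank semicontinuity -/

/-- For a finite family of vectors depending affinely on `τ`, the rank at any given parameter is a
lower bound for the rank at all but finitely many parameters. -/
theorem exists_bad_finset {V A : Type} [AddCommGroup V] [Module ℂ V] [Fintype A]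
    (a b : A → V) (τ₀ : ℂ) :
    ∃ Bad : Finset ℂ, ∀ τ, τ ∉ Bad →
      Module.finrank ℂ (Submodule.span ℂ (Set.range fun α => a α + τ₀ • b α))
        ≤ Module.finrank ℂ (Submodule.span ℂ (Set.range fun α => a α + τ • b α)) := by
  classical
  obtain ⟨B, hB, hspan, hli⟩ :=
    exists_linearIndependent ℂ (Set.range fun α => a α + τ₀ • b α)
  have hBfin : B.Finite := (Set.finite_range _).subset hB
  haveI : Fintype B := hBfin.fintype
  -- selection of indices
  have hsel : ∀ x : B, ∃ α, a α + τ₀ • b α = x.1 := fun x => hB x.2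
  choose σ hσ using hsel
  -- functionals
  let p : Submodule ℂ V := Submodule.span ℂ (Set.range (Subtype.val : B → V))
  have hli' : LinearIndependent ℂ (Subtype.val : B → V) := hli
  obtain ⟨μ, hμ⟩ := LinearMap.exists_extend
    (p := p) ((Finsupp.linearEquivFunOnFinite ℂ ℂ B).toLinearMap ∘ₗ
      (hli'.repr : p →ₗ[ℂ] (B →₀ ℂ)))
  have hμ1 : ∀ x y : B, μ x.1 y = if x = y then 1 else 0 := by
    intro x y
    have hx : x.1 ∈ p := Submodule.subset_span ⟨x, rfl⟩
    have h1 := congrArg (fun f => f ⟨x.1, hx⟩) hμ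
    simp only [LinearMap.comp_apply, Submodule.subtype_apply] at h1
    rw [h1]
    have : hli'.repr ⟨x.1, hx⟩ = Finsupp.single x 1 := hli'.repr_eq_single x _ rfl
    simp only [this, LinearEquiv.coe_coe, Finsupp.linearEquivFunOnFinite_apply]
    simp [Finsupp.single_apply]
  -- the polynomial determinant
  let N : Matrix B B (Polynomial ℂ) := Matrix.of fun y x =>
    Polynomial.C (μ (a (σ x)) y) + Polynomial.X * Polynomial.C (μ (b (σ x)) y)
  have hN : ∀ τ : ℂ, Polynomial.eval τ N.det
      = (Matrix.of fun y x => μ (a (σ x) + τ • b (σ x)) y : Matrix B B ℂ).det := by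
    intro τ
    have := RingHom.map_det (Polynomial.evalRingHom τ) N
    simp only [Polynomial.coe_evalRingHom] at this
    rw [this]
    congr 1
    ext y x
    simp [N, Matrix.map_apply]
    ring_nf
  have hN0 : Polynomial.eval τ₀ N.det = 1 := by
    rw [hN]
    have : (Matrix.of fun y x => μ (a (σ x) + τ₀ • b (σ x)) y : Matrix B B ℂ) = 1 := by
      ext y x
      simp only [Matrix.of_apply, hσ, hμ1, Matrix.one_apply]
      simp [eq_comm]
    rw [this, Matrix.det_one]
  have hNne : N.det ≠ 0 := by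
    intro h
    rw [h] at hN0
    simp at hN0
  refine ⟨N.det.roots.toFinset, fun τ hτ => ?_⟩
  have hdet : (Matrix.of fun y x => μ (a (σ x) + τ • b (σ x)) y : Matrix B B ℂ).det ≠ 0 := by
    rw [← hN]
    intro h
    apply hτ
    simp [hNne, h]
  -- linear independence at `τ`
  have hli2 : LinearIndependent ℂ (fun x : B => a (σ x) + τ • b (σ x)) := by
    rw [Fintype.linearIndependent_iff]
    intro c hc x
    have hmul : (Matrix.of fun y x => μ (a (σ x) + τ • b (σ x)) y : Matrix B B ℂ).mulVec c = 0 := by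
      ext y
      have := congrArg (fun v => μ v y) hc
      simp only [map_sum, map_smul, Finset.sum_apply, Pi.smul_apply, map_zero, Pi.zero_apply,
        smul_eq_mul] at this
      simp only [Matrix.mulVec, dotProduct, Matrix.of_apply, Pi.zero_apply]
      rw [← this]
      exact Finset.sum_congr rfl fun i _ => mul_comm _ _
    have := Matrix.eq_zero_of_mulVec_eq_zero hdet hmul
    simpa using congrFun this x
  have h1 : Module.finrank ℂ (Submodule.span ℂ (Set.range fun α => a α + τ₀ • b α))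
      = Fintype.card B := by
    rw [← hspan]
    have h3 := finrank_span_eq_card hli'
    rwa [Subtype.range_coe] at h3
  have h2 := finrank_span_eq_card hli2
  rw [h1, ← h2]
  haveI : FiniteDimensional ℂ (Submodule.span ℂ (Set.range fun α => a α + τ • b α)) :=
    FiniteDimensional.span_of_finite ℂ (Set.finite_range _)
  apply Submodule.finrank_mono
  apply Submodule.span_mono
  rintro _ ⟨x, rfl⟩
  exact ⟨σ x, rfl⟩

variable {ι G : Type} [Fintype ι] [DecidableEq ι] [Fintype G] [DecidableEq G]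

section Family

variable {E : Type} [Fintype E] [DecidableEq E]

/-- The set of forms of a system. -/
def sys (F : E → MvPolynomial ι ℂ) (deg : E → G → ℕ) : Set (MvPolynomial ι ℂ × (G → ℕ)) :=
  Set.range fun j => (F j, deg j)

lemma J_sys_eq_span (gr : ι → G) (F : E → MvPolynomial ι ℂ) (deg : E → G → ℕ) (d : G → ℕ)
    (hd : ∀ j, deg j ≤ d) (gens : E → Finset (MvPolynomial ι ℂ))
    (hgens : ∀ j, Submodule.span ℂ (gens j : Set (MvPolynomial ι ℂ)) = M gr (d - deg j)) :
    J gr (sys F deg) d
      = Submodule.span ℂ (Set.range fun x : (Σ j, gens j) => F x.1 * x.2.1) := by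
  classical
  apply le_antisymm
  · unfold J sys
    simp only [iSup_le_iff, Set.mem_range, forall_exists_index]
    rintro _ j rfl
    simp only [term, hd j, if_true]
    rw [← hgens j, Submodule.span_mul_span]
    apply Submodule.span_mono
    rintro _ ⟨_, rfl, y, hy, rfl⟩
    exact ⟨⟨j, y, hy⟩, rfl⟩
  · rw [Submodule.span_le]
    rintro _ ⟨⟨j, y, hy⟩, rfl⟩
    apply term_le_J (q := (F j, deg j)) (show (F j, deg j) ∈ sys F deg from ⟨j, rfl⟩) d
    apply mul_mem_term (hd j)
    rw [← hgens j]
    exact Submodule.subset_span hy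

theorem exists_bad_sys (gr : ι → G) (F H : E → MvPolynomial ι ℂ) (deg : E → G → ℕ) (d : G → ℕ)
    (hd : ∀ j, deg j ≤ d) (τ₀ : ℂ) :
    ∃ Bad : Finset ℂ, ∀ τ, τ ∉ Bad →
      Module.finrank ℂ (J gr (sys (fun j => F j + τ₀ • H j) deg) d)
        ≤ Module.finrank ℂ (J gr (sys (fun j => F j + τ • H j) deg) d) := by
  classical
  have hfg : ∀ j, ∃ s : Finset (MvPolynomial ι ℂ), Submodule.span ℂ (s : Set _) = M gr (d - deg j) :=
    fun j => M_fg gr (d - deg j)
  choose gens hgens using hfg
  obtain ⟨Bad, hBad⟩ := exists_bad_finset (V := MvPolynomial ι ℂ) (A := Σ j, gens j)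
    (fun x => F x.1 * x.2.1) (fun x => H x.1 * x.2.1) τ₀
  refine ⟨Bad, fun τ hτ => ?_⟩
  rw [J_sys_eq_span gr _ deg d hd gens hgens, J_sys_eq_span gr _ deg d hd gens hgens]
  have e : ∀ τ : ℂ, (fun x : (Σ j, gens j) => (F x.1 + τ • H x.1) * x.2.1)
      = fun x => F x.1 * x.2.1 + τ • (H x.1 * x.2.1) := by
    intro τ
    funext x
    rw [add_mul, smul_mul_assoc]
  rw [e, e]
  exact hBad τ hτ

end Family

/-! ### Independence of points -/

lemma prod_mem_M {gr : ι → G} {T : Type} (s : Finset T) (f : T → MvPolynomial ι ℂ) (h : T → G)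
    (hf : ∀ t ∈ s, f t ∈ L gr (h t)) :
    ∏ t ∈ s, f t ∈ M gr (∑ t ∈ s, Pi.single (h t) 1) := by
  classical
  induction s using Finset.induction_on with
  | empty =>
    simp only [Finset.prod_empty, Finset.sum_empty, M_zero]
    exact Submodule.one_le.mp (le_refl (1 : Submodule ℂ (MvPolynomial ι ℂ)))
  | insert a s ha ih =>
    rw [Finset.prod_insert ha, Finset.sum_insert ha]
    apply mul_mem_M
    · rw [M_single]; exact hf a (Finset.mem_insert_self _ _)
    · exact ih fun t ht => hf t (Finset.mem_insert_of_mem ht)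

lemma prod_pow_mem_M {gr : ι → G} (y : G → MvPolynomial ι ℂ) (hy : ∀ g, y g ∈ L gr g)
    (k : G → ℕ) : ∏ g, y g ^ k g ∈ M gr k := by
  classical
  unfold M
  refine Finset.induction_on (Finset.univ : Finset G) ?_ ?_
  · simp only [Finset.prod_empty]
    exact Submodule.one_le.mp (le_refl (1 : Submodule ℂ (MvPolynomial ι ℂ)))
  · intro a s ha ih
    rw [Finset.prod_insert ha, Finset.prod_insert ha]
    exact Submodule.mul_mem_mul (Submodule.pow_mem_pow _ (hy a) _) ih

/-- Points in a chart of a product of projective spaces impose independent conditions. -/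
theorem exists_sep (gr : ι → G) (i₀ : G → ι) (hi₀ : ∀ g, gr (i₀ g) = g)
    (Z : Finset (ι → ℂ)) (hZ : ∀ z ∈ Z, ∀ g, z (i₀ g) = 1) (d : G → ℕ) (hd : ∀ g, Z.card ≤ d g)
    (s : ι → ℂ) (hs : s ∈ Z) :
    ∃ Q ∈ M gr d, eval s Q ≠ 0 ∧ ∀ t ∈ Z, t ≠ s → eval t Q = 0 := by
  classical
  let T := Z.erase s
  have hsep : ∀ t : T, ∃ i, t.1 i ≠ s i := fun t => by
    by_contra hcon
    push_neg at hcon
    exact (Finset.mem_erase.mp t.2).1 (funext hcon)
  choose idx hidx using hsep
  let σ : T → MvPolynomial ι ℂ := fun t =>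
    X (idx t) - C (t.1 (idx t)) * X (i₀ (gr (idx t)))
  have hσ : ∀ t, σ t ∈ L gr (gr (idx t)) := fun t => by
    refine Submodule.sub_mem _ (Submodule.subset_span ⟨_, rfl, rfl⟩) ?_
    rw [← MvPolynomial.smul_eq_C_mul]
    exact Submodule.smul_mem _ _ (Submodule.subset_span ⟨_, hi₀ _, rfl⟩)
  let c : G → ℕ := ∑ t : T, Pi.single (gr (idx t)) 1
  have hc : c ≤ d := by
    intro g
    have h1 : c g ≤ Fintype.card T := by
      simp only [c, Finset.sum_apply]
      calc ∑ t : T, (Pi.single (gr (idx t)) 1 : G → ℕ) g ≤ ∑ _t : T, 1 := by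
            apply Finset.sum_le_sum
            intro t _
            simp only [Pi.single_apply]
            split_ifs <;> omega
        _ = Fintype.card T := by simp
    have h2 : Fintype.card T ≤ Z.card := by
      rw [Fintype.card_coe]
      exact Finset.card_le_card (Finset.erase_subset _ _)
    exact h1.trans (h2.trans (hd g))
  let y : G → MvPolynomial ι ℂ := fun g => X (i₀ g)
  have hy : ∀ g, y g ∈ L gr g := fun g => Submodule.subset_span ⟨_, hi₀ g, rfl⟩
  refine ⟨(∏ t : T, σ t) * ∏ g, y g ^ (d - c) g, ?_, ?_, ?_⟩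
  · have h1 := prod_mem_M (gr := gr) Finset.univ σ (fun t => gr (idx t)) (fun t _ => hσ t)
    have h2 := prod_pow_mem_M y hy (d - c)
    have h3 := mul_mem_M h1 h2
    have h4 : (∑ t : T, Pi.single (gr (idx t)) 1) + (d - c) = d := by
      change c + (d - c) = d
      exact add_tsub_cancel_of_le hc
    rwa [h4] at h3
  · rw [map_mul, map_prod, map_prod]
    apply mul_ne_zero
    · rw [Finset.prod_ne_zero_iff]
      intro t _
      simp only [σ, map_sub, map_mul, eval_X, eval_C, hZ s hs]
      have := hidx t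
      rw [mul_one]
      exact fun h => this (sub_eq_zero.mp h).symm
    · rw [Finset.prod_ne_zero_iff]
      intro g _
      simp [y, hZ s hs]
  · intro t ht hts
    rw [map_mul, map_prod]
    have htT : t ∈ T := Finset.mem_erase.mpr ⟨hts, ht⟩
    rw [Finset.prod_eq_zero (Finset.mem_univ (⟨t, htT⟩ : T)), zero_mul]
    simp only [σ, map_sub, map_mul, eval_X, eval_C, hZ t ht]
    simp

/-- Evaluation at the points of `Z` as a linear map. -/
noncomputable def evalMap (Z : Finset (ι → ℂ)) : MvPolynomial ι ℂ →ₗ[ℂ] (Z → ℂ) where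
  toFun r z := eval z.1 r
  map_add' _ _ := by
    funext z
    simp
  map_smul' c r := by
    funext z
    simp [MvPolynomial.smul_eval]

/-- The number of common roots in the chart is bounded by the codimension. -/
theorem card_le_of_codim (gr : ι → G) (i₀ : G → ι) (hi₀ : ∀ g, gr (i₀ g) = g)
    {A : Set (MvPolynomial ι ℂ × (G → ℕ))} (hA : Valid gr A)
    (Z : Finset (ι → ℂ)) (hZ : ∀ z ∈ Z, ∀ g, z (i₀ g) = 1)
    (hvan : ∀ q ∈ A, ∀ z ∈ Z, eval z q.1 = 0) (d : G → ℕ) (hd : ∀ g, Z.card ≤ d g) {B : ℕ}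
    (h : CodimLe gr A d B) : Z.card ≤ B := by
  classical
  haveI : FiniteDimensional ℂ (J gr A d) := Submodule.finiteDimensional_of_le (J_le_M hA d)
  let e := evalMap Z
  let ψ := e.domRestrict (M gr d)
  have hsep := fun (s : Z) => exists_sep gr i₀ hi₀ Z hZ d hd s.1 s.2
  choose Q hQ1 hQ2 hQ3 using hsep
  have hsurj : LinearMap.range ψ = ⊤ := by
    rw [LinearMap.range_eq_top]
    intro φ
    refine ⟨⟨∑ s : Z, (φ s / eval s.1 (Q s)) • Q s,
      Submodule.sum_mem _ fun s _ => Submodule.smul_mem _ _ (hQ1 s)⟩, ?_⟩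
    funext z
    change eval z.1 (∑ s : Z, (φ s / eval s.1 (Q s)) • Q s) = φ z
    rw [map_sum, Finset.sum_eq_single z]
    · rw [MvPolynomial.smul_eval]
      exact div_mul_cancel₀ _ (hQ2 z)
    · intro b _ hb
      rw [MvPolynomial.smul_eval, hQ3 b z.1 z.2 (fun h => hb (Subtype.ext h).symm), mul_zero]
    · simp
  have hrn := LinearMap.finrank_range_add_finrank_ker ψ
  rw [hsurj, finrank_top, Module.finrank_fintype_fun_eq_card, Fintype.card_coe] at hrn
  have hJ : Module.finrank ℂ (J gr A d) ≤ Module.finrank ℂ (LinearMap.ker ψ) := by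
    have h1 : Module.finrank ℂ (Submodule.map (M gr d).subtype (LinearMap.ker ψ))
        = Module.finrank ℂ (LinearMap.ker ψ) :=
      (LinearEquiv.finrank_eq (Submodule.equivMapOfInjective (M gr d).subtype
        (Submodule.subtype_injective _) (LinearMap.ker ψ))).symm
    rw [← h1]
    haveI : FiniteDimensional ℂ (Submodule.map (M gr d).subtype (LinearMap.ker ψ)) := inferInstance
    apply Submodule.finrank_mono
    intro x hx
    refine ⟨⟨x, J_le_M hA d hx⟩, ?_, rfl⟩
    rw [SetLike.mem_coe, LinearMap.mem_ker]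
    funext z
    change eval z.1 x = 0
    -- evaluation vanishes on `J`
    have hx' : x ∈ J gr A d := hx
    unfold J at hx'
    have hle : (⨆ q ∈ A, term gr q d) ≤ LinearMap.ker e := by
      refine iSup₂_le fun q hq => ?_
      unfold term
      split_ifs with hqd
      · rw [Submodule.mul_le]
        intro a ha b _
        obtain ⟨c, rfl⟩ := Submodule.mem_span_singleton.mp ha
        rw [LinearMap.mem_ker]
        funext w
        change eval w.1 (c • q.1 * b) = 0
        rw [smul_mul_assoc, MvPolynomial.smul_eval, map_mul, hvan q hq w.1 w.2]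
        simp
      · exact bot_le
    have := hle hx'
    rw [LinearMap.mem_ker] at this
    exact congrFun this z
  unfold CodimLe at h
  omega

/-! ### Derivatives of polynomial evaluation -/

/-- The derivative of polynomial evaluation. -/
noncomputable def dEval (q : MvPolynomial ι ℂ) (z : ι → ℂ) : (ι → ℂ) →L[ℂ] ℂ :=
  ∑ i, (eval z (pderiv i q)) • ContinuousLinearMap.proj (R := ℂ) (φ := fun _ : ι => ℂ) i

lemma dEval_apply (q : MvPolynomial ι ℂ) (z δ : ι → ℂ) :
    dEval q z δ = ∑ i, δ i * eval z (pderiv i q) := by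
  simp [dEval, mul_comm]

theorem hasStrictFDerivAt_eval (q : MvPolynomial ι ℂ) (z : ι → ℂ) :
    HasStrictFDerivAt (fun z => eval z q) (dEval q z) z := by
  classical
  induction q using MvPolynomial.induction_on with
  | C a =>
    have e : dEval (C a) z = 0 := by
      ext δ
      simp [dEval]
    simp only [eval_C]
    rw [e]
    exact hasStrictFDerivAt_const a z
  | add p q hp hq =>
    have e : dEval (p + q) z = dEval p z + dEval q z := by
      ext δ
      simp [dEval, Finset.sum_add_distrib, add_mul]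
    simp only [map_add]
    rw [e]
    exact hp.add hq
  | mul_X p i hp =>
    have hX : HasStrictFDerivAt (fun z : ι → ℂ => z i)
        (ContinuousLinearMap.proj (R := ℂ) (φ := fun _ : ι => ℂ) i) z :=
      (ContinuousLinearMap.proj (R := ℂ) (φ := fun _ : ι => ℂ) i).hasStrictFDerivAt
    have e : dEval (p * X i) z = (eval z p) • ContinuousLinearMap.proj (R := ℂ) (φ := fun _ : ι => ℂ) i
        + (z i) • dEval p z := by
      ext δ
      have e1 : ∀ k, eval z (pderiv k (p * X i))
          = eval z p * ((Pi.single k (1 : ℂ) : ι → ℂ) i) + z i * eval z (pderiv k p) := by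
        intro k
        rw [Derivation.leibniz, pderiv_X]
        simp only [smul_eq_mul, map_add, map_mul, eval_X]
        congr 2
        simp only [Pi.single_apply]
        split_ifs <;> simp
      simp only [dEval, ContinuousLinearMap.add_apply, ContinuousLinearMap.smul_apply,
        ContinuousLinearMap.sum_apply, ContinuousLinearMap.proj_apply, smul_eq_mul, e1, add_mul,
        Finset.sum_add_distrib, Finset.mul_sum]
      congr 1
      · rw [Finset.sum_eq_single i]
        · simp
        · intro b _ hb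
          simp [Pi.single_apply, hb, Ne.symm hb]
        · simp
      · apply Finset.sum_congr rfl
        intro k _
        ring
    simp only [map_mul, eval_X]
    rw [e]
    exact hp.mul hX

/-! ### Persistence of simple roots -/

section Persist

variable {E : Type} [Fintype E] [DecidableEq E]

/-- The free variables of a chart. -/
abbrev Free (i₀ : G → ι) : Type := {i // i ∉ Set.range i₀}

/-- The extension by zero from the free variables to all variables. -/
noncomputable def extCLM (i₀ : G → ι) : (Free i₀ → ℂ) →L[ℂ] (ι → ℂ) :=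
  open Classical in
  ContinuousLinearMap.pi fun i =>
    if h : i ∉ Set.range i₀ then
      ContinuousLinearMap.proj (R := ℂ) (φ := fun _ : Free i₀ => ℂ) ⟨i, h⟩
    else 0

lemma extCLM_apply_chart (i₀ : G → ι) (t : Free i₀ → ℂ) (g : G) : extCLM i₀ t (i₀ g) = 0 := by
  classical
  have h : ¬ (i₀ g ∉ Set.range i₀) := by simp
  simp only [extCLM, ContinuousLinearMap.pi_apply]
  rw [dif_neg h]
  rfl

lemma extCLM_apply_free (i₀ : G → ι) (t : Free i₀ → ℂ) (i : Free i₀) : extCLM i₀ t i.1 = t i := by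
  classical
  simp only [extCLM, ContinuousLinearMap.pi_apply]
  rw [dif_pos i.2]
  rfl

lemma card_free (gr : ι → G) (i₀ : G → ι) (hi₀ : ∀ g, gr (i₀ g) = g) :
    Fintype.card (Free i₀) + Fintype.card G = Fintype.card ι := by
  classical
  have hinj : Function.Injective i₀ := fun a b hab => by
    have := congrArg gr hab
    simpa [hi₀] using this
  have h1 : Fintype.card {x // x ∈ Set.range i₀} = Fintype.card G :=
    Fintype.card_congr (Equiv.ofInjective i₀ hinj).symm
  have h2 := Fintype.card_subtype_compl (fun x => x ∈ Set.range i₀)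
  have h3 : Fintype.card {x // x ∈ Set.range i₀} ≤ Fintype.card ι := Fintype.card_subtype_le _
  have h4 : Fintype.card (Free i₀) = Fintype.card ι - Fintype.card {x // x ∈ Set.range i₀} := by
    convert h2
  omega

lemma sum_cg (gr : ι → G) : ∑ g, cg gr g = Fintype.card ι := by
  classical
  unfold cg
  have := Fintype.card_congr (Equiv.sigmaFiberEquiv gr)
  rw [Fintype.card_sigma] at this
  exact this

theorem persist_root (gr : ι → G) (i₀ : G → ι) (hi₀ : ∀ g, gr (i₀ g) = g)
    (hcard : Fintype.card E + Fintype.card G = Fintype.card ι)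
    (F H : E → MvPolynomial ι ℂ) (z : ι → ℂ)
    (hroot : ∀ j, eval z (F j) = 0)
    (hinj : ∀ δ : ι → ℂ, (∀ g, δ (i₀ g) = 0) → (∀ j, ∑ i, δ i * eval z (pderiv i (F j)) = 0) →
      δ = 0) :
    ∃ ψ : ℂ → (ι → ℂ), Filter.Tendsto ψ (𝓝 0) (𝓝 z) ∧
      (∀ᶠ τ in 𝓝 (0 : ℂ), ∀ j, eval (ψ τ) (F j + τ • H j) = 0) ∧
      ∀ τ g, ψ τ (i₀ g) = z (i₀ g) := by
  classical
  let ext := extCLM i₀
  let Θ : ℂ × (Free i₀ → ℂ) → (E → ℂ) := fun p j =>
    eval (z + ext p.2) (F j) + p.1 * eval (z + ext p.2) (H j)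
  have haff : HasStrictFDerivAt (fun p : ℂ × (Free i₀ → ℂ) => z + ext p.2)
      (ext.comp (ContinuousLinearMap.snd ℂ ℂ (Free i₀ → ℂ))) ((0 : ℂ), (0 : Free i₀ → ℂ)) :=
    (ext.comp (ContinuousLinearMap.snd ℂ ℂ (Free i₀ → ℂ))).hasStrictFDerivAt.const_add z
  have hz0 : z + ext ((0 : ℂ), (0 : Free i₀ → ℂ)).2 = z := by simp
  have hcomp : ∀ q : MvPolynomial ι ℂ, HasStrictFDerivAt
      (fun p : ℂ × (Free i₀ → ℂ) => eval (z + ext p.2) q)
      ((dEval q z).comp (ext.comp (ContinuousLinearMap.snd ℂ ℂ (Free i₀ → ℂ))))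
      ((0 : ℂ), (0 : Free i₀ → ℂ)) := by
    intro q
    have h := hasStrictFDerivAt_eval q z
    rw [← hz0] at h
    have := h.comp ((0 : ℂ), (0 : Free i₀ → ℂ)) haff
    simpa [hz0] using this
  have hj : ∀ j, ∃ D : (ℂ × (Free i₀ → ℂ)) →L[ℂ] ℂ,
      HasStrictFDerivAt (fun p => Θ p j) D ((0 : ℂ), (0 : Free i₀ → ℂ)) ∧
      ∀ t, D (0, t) = dEval (F j) z (ext t) := by
    intro j
    have hfst : HasStrictFDerivAt (fun p : ℂ × (Free i₀ → ℂ) => p.1)
        (ContinuousLinearMap.fst ℂ ℂ (Free i₀ → ℂ)) ((0 : ℂ), (0 : Free i₀ → ℂ)) :=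
      hasStrictFDerivAt_fst
    have h2 := hfst.mul (hcomp (H j))
    have h3 := (hcomp (F j)).add h2
    refine ⟨_, h3, fun t => ?_⟩
    simp
  choose D hD1 hD2 using hj
  let Θ' : (ℂ × (Free i₀ → ℂ)) →L[ℂ] (E → ℂ) := ContinuousLinearMap.pi D
  have hΘ : HasStrictFDerivAt Θ Θ' ((0 : ℂ), (0 : Free i₀ → ℂ)) :=
    hasStrictFDerivAt_pi.mpr fun j => hD1 j
  -- invertibility of the partial derivative
  have hT : Θ'.comp (ContinuousLinearMap.inr ℂ ℂ (Free i₀ → ℂ)) =
      ContinuousLinearMap.pi fun j => (dEval (F j) z).comp ext := by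
    ext t j
    simp [Θ', hD2]
  have hcardfree : Fintype.card (Free i₀) = Fintype.card E := by
    have := card_free gr i₀ hi₀
    omega
  have hinv : (Θ'.comp (ContinuousLinearMap.inr ℂ ℂ (Free i₀ → ℂ))).IsInvertible := by
    rw [hT]
    set T : (Free i₀ → ℂ) →L[ℂ] (E → ℂ) := ContinuousLinearMap.pi fun j => (dEval (F j) z).comp ext
      with hTdef
    have hinjT : Function.Injective T := by
      rw [injective_iff_map_eq_zero]
      intro t ht
      have h1 : ext t = 0 := by
        apply hinj (ext t) (fun g => extCLM_apply_chart i₀ t g)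
        intro j
        have := congrFun ht j
        simp only [hTdef, ContinuousLinearMap.pi_apply, ContinuousLinearMap.comp_apply,
          Pi.zero_apply, dEval_apply] at this
        exact this
      funext i
      have := congrFun h1 i.1
      rw [extCLM_apply_free] at this
      simpa using this
    have hfr : Module.finrank ℂ (Free i₀ → ℂ) = Module.finrank ℂ (E → ℂ) := by
      simp [hcardfree]
    let L' := LinearMap.linearEquivOfInjective (T : (Free i₀ → ℂ) →ₗ[ℂ] (E → ℂ)) hinjT hfr
    refine ⟨L'.toContinuousLinearEquiv, ?_⟩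
    ext t j
    rfl
  have hroot0 : Θ ((0 : ℂ), (0 : Free i₀ → ℂ)) = 0 := by
    funext j
    simp [Θ, hroot]
  let ψ₀ := hΘ.implicitFunctionOfProdDomain hinv
  have h1 := hΘ.tendsto_implicitFunctionOfProdDomain hinv
  have h2 := hΘ.eventually_apply_implicitFunctionOfProdDomain hinv
  rw [hroot0] at h2
  refine ⟨fun τ => z + ext (ψ₀ τ), ?_, ?_, ?_⟩
  · have h3 : Filter.Tendsto (fun τ => z + ext (ψ₀ τ)) (𝓝 0) (𝓝 (z + ext 0)) :=
      (continuous_const.add ext.continuous).continuousAt.tendsto.comp h1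
    simpa using h3
  · filter_upwards [h2] with τ hτ j
    have := congrFun hτ j
    simpa [Θ, ψ₀, MvPolynomial.smul_eval] using this
  · intro τ g
    simp [ext, extCLM_apply_chart]

/-- **Multihomogeneous Bezout inequality for simple roots** (bilinear-type forms). -/
theorem bezout_main (gr : ι → G) (g₁ g₂ : E → G) (F : E → MvPolynomial ι ℂ)
    (hF : ∀ j, F j ∈ M gr (Pi.single (g₁ j) 1 + Pi.single (g₂ j) 1))
    (i₀ : G → ι) (hi₀ : ∀ g, gr (i₀ g) = g)
    (hcard : Fintype.card E + Fintype.card G = Fintype.card ι)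
    (Z : Finset (ι → ℂ)) (hZ₁ : ∀ z ∈ Z, ∀ g, z (i₀ g) = 1)
    (hZ₂ : ∀ z ∈ Z, ∀ j, eval z (F j) = 0)
    (hZ₃ : ∀ z ∈ Z, ∀ δ : ι → ℂ, (∀ g, δ (i₀ g) = 0) →
      (∀ j, ∑ i, δ i * eval z (pderiv i (F j)) = 0) → δ = 0) :
    Z.card ≤ ((Finset.univ : Finset E).powerset.filter
      (fun V => Good gr g₁ g₂ V (Finset.univ \ V))).card := by
  classical
  -- nodes
  let t : E → ℂ := fun j => ((Fintype.equivFin E j : ℕ) : ℂ)
  have ht : Function.Injective t := by
    intro a b hab
    have h1 : ((Fintype.equivFin E a : ℕ)) = (Fintype.equivFin E b : ℕ) :=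
      Nat.cast_injective (R := ℂ) hab
    exact (Fintype.equivFin E).injective (Fin.ext h1)
  let tstar : ℂ := ((Fintype.card E : ℕ) : ℂ)
  have hstar : ∀ j, t j ≠ tstar := by
    intro j h
    have h1 : ((Fintype.equivFin E j : ℕ)) = Fintype.card E :=
      Nat.cast_injective (R := ℂ) h
    exact absurd h1 (Nat.ne_of_lt (Fintype.equivFin E j).2)
  have hpos : ∀ g, 1 ≤ cg gr g := fun g =>
    Fintype.card_pos_iff.mpr ⟨⟨i₀ g, hi₀ g⟩⟩
  have hcard' : Fintype.card E = ∑ g, (cg gr g - 1) := by
    have h1 := sum_cg gr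
    have h2 : ∑ g, (cg gr g - 1) + Fintype.card G = ∑ g, cg gr g := by
      have : Fintype.card G = ∑ _g : G, 1 := by simp
      rw [this, ← Finset.sum_add_distrib]
      exact Finset.sum_congr rfl fun g _ => Nat.sub_add_cancel (hpos g)
    omega
  let Gf : E → MvPolynomial ι ℂ := fun j => vand gr (g₁ j) (t j) * vand gr (g₂ j) (t j)
  let deg : E → G → ℕ := fun j => Pi.single (g₁ j) 1 + Pi.single (g₂ j) 1
  have hGf : ∀ j, Gf j ∈ M gr (deg j) := fun j => by
    apply mul_mem_M <;> · rw [M_single]; exact vand_mem _ _ _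
  let H : E → MvPolynomial ι ℂ := fun j => Gf j - F j
  let d : G → ℕ := fun _ => Z.card + Fintype.card E + 1
  have hdeg : ∀ j, deg j ≤ d := by
    intro j k
    have h0 : 1 ≤ Fintype.card E := Fintype.card_pos_iff.mpr ⟨j⟩
    have h1 : (Pi.single (g₁ j) 1 : G → ℕ) k ≤ 1 := by
      simp only [Pi.single_apply]; split_ifs <;> omega
    have h2 : (Pi.single (g₂ j) 1 : G → ℕ) k ≤ 1 := by
      simp only [Pi.single_apply]; split_ifs <;> omega
    simp only [deg, d, Pi.add_apply]
    omega
  -- the special system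
  have hspecial := special_codim gr g₁ g₂ t ht tstar hstar hcard' hpos Finset.univ ∅ ∅ d
    (by simp) (by simp) (by simp) (fun g => by
      simp only [d, Finset.card_univ]
      omega)
  simp only [Finset.empty_union] at hspecial
  have hchosen : chosen gr g₁ g₂ t ∅ ∅ Finset.univ = sys (fun j => F j + (1 : ℂ) • H j) deg := by
    ext q
    simp only [chosen, sys, H, Gf, deg, one_smul, add_sub_cancel, Set.mem_union, Set.mem_setOf_eq,
      Finset.notMem_empty, false_and, exists_false, or_false, false_or, Finset.mem_univ,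
      true_and, Set.mem_range]
    constructor
    · rintro ⟨j, rfl⟩
      exact ⟨j, rfl⟩
    · rintro ⟨j, rfl⟩
      exact ⟨j, rfl⟩
  rw [hchosen] at hspecial
  obtain ⟨Bad, hBad⟩ := exists_bad_sys gr F H deg d hdeg 1
  -- persistence
  have hpers := fun z : Z => persist_root gr i₀ hi₀ hcard F H z.1 (hZ₂ z.1 z.2) (hZ₃ z.1 z.2)
  choose ψ hψ1 hψ2 hψ3 using hpers
  have hev1 : ∀ᶠ τ in 𝓝 (0 : ℂ), ∀ z : Z, ∀ j, eval (ψ z τ) (F j + τ • H j) = 0 :=
    Filter.eventually_all.mpr hψ2
  have hev2 : ∀ᶠ τ in 𝓝 (0 : ℂ), ∀ z w : Z, z ≠ w → ψ z τ ≠ ψ w τ := by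
    refine Filter.eventually_all.mpr fun z => Filter.eventually_all.mpr fun w => ?_
    by_cases hzw : z = w
    · exact Filter.Eventually.of_forall fun τ h => absurd hzw h
    · have hne : z.1 ≠ w.1 := fun h => hzw (Subtype.ext h)
      have hopen : {p : (ι → ℂ) × (ι → ℂ) | p.1 ≠ p.2} ∈ 𝓝 (z.1, w.1) :=
        (isOpen_ne_fun continuous_fst continuous_snd).mem_nhds hne
      filter_upwards [((hψ1 z).prodMk_nhds (hψ1 w)) hopen] with τ hτ _
      exact hτ
  have hev3 : ∀ᶠ τ in 𝓝[≠] (0 : ℂ), τ ∉ Bad := by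
    have h1 : IsClosed ((Bad.erase 0 : Finset ℂ) : Set ℂ) := (Finset.finite_toSet _).isClosed
    have h2 : ((Bad.erase 0 : Finset ℂ) : Set ℂ)ᶜ ∈ 𝓝 (0 : ℂ) :=
      h1.isOpen_compl.mem_nhds (by simp)
    filter_upwards [nhdsWithin_le_nhds h2, self_mem_nhdsWithin] with τ hτ hτ0 hbad
    apply hτ
    exact Finset.mem_erase.mpr ⟨hτ0, hbad⟩
  obtain ⟨τ, ⟨hτ1, hτ2⟩, hτ3⟩ :=
    (((hev1.and hev2).filter_mono nhdsWithin_le_nhds).and hev3).exists
  -- the roots
  let Z' : Finset (ι → ℂ) := Finset.univ.image fun z : Z => ψ z τ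
  have hZ'card : Z'.card = Z.card := by
    rw [Finset.card_image_of_injective]
    · simp
    · intro a b hab
      by_contra hne
      exact hτ2 a b hne hab
  have hvalid : Valid gr (sys (fun j => F j + τ • H j) deg) := by
    rintro _ ⟨j, rfl⟩
    refine Submodule.add_mem _ (hF j) (Submodule.smul_mem _ _ (Submodule.sub_mem _ (hGf j) (hF j)))
  have hvalid1 : Valid gr (sys (fun j => F j + (1 : ℂ) • H j) deg) := by
    rintro _ ⟨j, rfl⟩
    refine Submodule.add_mem _ (hF j) (Submodule.smul_mem _ _ (Submodule.sub_mem _ (hGf j) (hF j)))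
  have hcod : CodimLe gr (sys (fun j => F j + τ • H j) deg) d
      ((Finset.univ : Finset E).powerset.filter
      (fun V => Good gr g₁ g₂ V (Finset.univ \ V))).card := by
    unfold CodimLe at *
    have := hBad τ hτ3
    omega
  rw [← hZ'card]
  refine card_le_of_codim gr i₀ hi₀ hvalid Z' ?_ ?_ d ?_ hcod
  · intro z hz g
    obtain ⟨w, _, rfl⟩ := Finset.mem_image.mp hz
    rw [hψ3]
    exact hZ₁ w.1 w.2 g
  · rintro _ ⟨j, rfl⟩ z hz
    obtain ⟨w, _, rfl⟩ := Finset.mem_image.mp hz
    exact hτ1 w j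
  · intro g
    simp only [d, hZ'card]
    omega

end Persist

end Crest.Agent.DetCrit
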