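import Crest.Agent.Lib.DetCrit.DetCalc

/-!
# Matrices of corank one: kernel vectors from the adjugate
-/

open Matrix

namespace Crest.Agent.DetCrit

variable {n : ℕ}

/-- If the `(q,p)` entry of the adjugate is nonzero, a kernel vector vanishing at `q` is zero. -/
theorem ker_chart {A : Matrix (Fin n) (Fin n) ℂ} {q p : Fin n} (h : adjugate A q p ≠ 0)
    {u : Fin n → ℂ} (hu : A *ᵥ u = 0) (huq : u q = 0) : u = 0 := by
  classical
  rw [Matrix.adjugate_apply] at h
  refine Matrix.eq_zero_of_mulVec_eq_zero h ?_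
  ext r
  by_cases hr : r = p
  · subst hr
    simp [Matrix.mulVec, dotProduct, Matrix.updateRow_self, Pi.single_apply, huq]
  · have := congrFun hu r
    simpa [Matrix.mulVec, dotProduct, Matrix.updateRow_ne hr] using this

/-- Left kernel version. -/
theorem ker_chart_left {A : Matrix (Fin n) (Fin n) ℂ} {q p : Fin n} (h : adjugate A q p ≠ 0)
    {u : Fin n → ℂ} (hu : u ᵥ* A = 0) (hup : u p = 0) : u = 0 := by
  classical
  have h1 : adjugate Aᵀ p q ≠ 0 := by
    rw [← Matrix.adjugate_transpose]; simpa using h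
  refine ker_chart h1 ?_ hup
  rw [Matrix.mulVec_transpose]; exact hu

/-- The corank one package. -/
structure Corank1 (A : Matrix (Fin n) (Fin n) ℂ) (w v : Fin n → ℂ) (q p : Fin n) : Prop where
  adj : adjugate A = vecMulVec w v
  hw : A *ᵥ w = 0
  hv : v ᵥ* A = 0
  wq : w q ≠ 0
  vp : v p ≠ 0
  kr : ∀ u : Fin n → ℂ, A *ᵥ u = 0 → u q = 0 → u = 0
  kl : ∀ u : Fin n → ℂ, u ᵥ* A = 0 → u p = 0 → u = 0

theorem exists_corank1 {A : Matrix (Fin n) (Fin n) ℂ} (hdet : A.det = 0) (hadj : adjugate A ≠ 0) :
    ∃ w v q p, Corank1 A w v q p := by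
  classical
  obtain ⟨q, p, hqp⟩ : ∃ q p, adjugate A q p ≠ 0 := by
    by_contra hcon
    push Not at hcon
    exact hadj (Matrix.ext hcon)
  have hAadj : A * adjugate A = 0 := by rw [Matrix.mul_adjugate, hdet]; simp
  have hadjA : adjugate A * A = 0 := by rw [Matrix.adjugate_mul, hdet]; simp
  set κ := adjugate A q p with hκ
  let w : Fin n → ℂ := fun r => adjugate A r p
  let v : Fin n → ℂ := fun c => adjugate A q c / κ
  have hw : A *ᵥ w = 0 := by
    ext r
    have := congrFun (congrFun hAadj r) p
    simpa [Matrix.mul_apply, Matrix.mulVec, dotProduct, w] using this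
  have hv : v ᵥ* A = 0 := by
    ext c
    have := congrFun (congrFun hadjA q) c
    rw [Matrix.mul_apply] at this
    simp only [Matrix.vecMul, dotProduct, v, Pi.zero_apply]
    simp only [div_mul_eq_mul_div]
    rw [← Finset.sum_div, this]
    simp
  have hcol : ∀ c, A *ᵥ (fun r => adjugate A r c) = 0 := by
    intro c
    ext r
    have := congrFun (congrFun hAadj r) c
    simpa [Matrix.mul_apply, Matrix.mulVec, dotProduct] using this
  refine ⟨w, v, q, p, ⟨?_, hw, hv, hqp, ?_, fun u hu huq => ker_chart hqp hu huq,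
    fun u hu hup => ker_chart_left hqp hu hup⟩⟩
  · ext r c
    simp only [vecMulVec_apply, w, v]
    have h1 : (fun r => adjugate A r c - (adjugate A q c / κ) * adjugate A r p) = 0 := by
      refine ker_chart hqp ?_ ?_
      · have h2 := hcol c
        have h3 := hcol p
        have h4 : (fun r => adjugate A r c - (adjugate A q c / κ) * adjugate A r p) =
            (fun r => adjugate A r c) - (adjugate A q c / κ) • (fun r => adjugate A r p) := by
          ext r; simp
        rw [h4, Matrix.mulVec_sub, Matrix.mulVec_smul, h2, h3]; simp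
      · change adjugate A q c - (adjugate A q c / κ) * adjugate A q p = 0
        rw [← hκ]
        field_simp
        ring
    have h5 := congrFun h1 r
    simp only [Pi.zero_apply] at h5
    rw [sub_eq_zero] at h5
    rw [h5]; ring
  · change adjugate A q p / κ ≠ 0
    rw [← hκ]
    exact div_ne_zero hqp hqp

/-- The trace of a rank one matrix times a matrix. -/
theorem trace_vecMulVec_mul (x y : Fin n → ℂ) (M : Matrix (Fin n) (Fin n) ℂ) :
    (vecMulVec x y * M).trace = y ⬝ᵥ (M *ᵥ x) := by
  rw [Matrix.vecMulVec_mul, Matrix.trace_vecMulVec, dotProduct_comm, Matrix.dotProduct_mulVec]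

/-- The derivative of the adjugate in the kernel of the trilinear Jacobian. -/
theorem adjD_eq {A C : Matrix (Fin n) (Fin n) ℂ} {w v : Fin n → ℂ} {q p : Fin n}
    (h : Corank1 A w v q p) {dw dv : Fin n → ℂ} (h1 : C *ᵥ w + A *ᵥ dw = 0)
    (h2 : dv ᵥ* A + v ᵥ* C = 0) (htr : (adjugate A * C).trace = 0) :
    ∃ c : ℂ, adjD A C = vecMulVec dw v + vecMulVec w dv + c • vecMulVec w v := by
  classical
  set D := adjD A C with hD
  have hI1 : A * D + C * adjugate A = 0 := by
    rw [hD, mul_adjD_add, htr]; simp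
  have hI2 : D * A + adjugate A * C = 0 := by
    rw [hD, adjD_mul_add, htr]; simp
  rw [h.adj] at hI1 hI2
  rw [Matrix.mul_vecMulVec] at hI1
  rw [Matrix.vecMulVec_mul] at hI2
  have hCw : C *ᵥ w = - (A *ᵥ dw) := eq_neg_of_add_eq_zero_left h1
  have hvC : v ᵥ* C = - (dv ᵥ* A) := eq_neg_of_add_eq_zero_right h2
  rw [hCw] at hI1
  rw [hvC] at hI2
  have hAD : A * D = A * vecMulVec dw v := by
    rw [Matrix.mul_vecMulVec]
    have h3 : vecMulVec (-(A *ᵥ dw)) v = - vecMulVec (A *ᵥ dw) v := by
      ext r s; simp [vecMulVec_apply]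
    rw [h3] at hI1
    exact eq_of_add_neg_eq_zero hI1 |>.trans rfl
  have hDA : D * A = vecMulVec w dv * A := by
    rw [Matrix.vecMulVec_mul]
    have h3 : vecMulVec w (-(dv ᵥ* A)) = - vecMulVec w (dv ᵥ* A) := by
      ext r s; simp [vecMulVec_apply]
    rw [h3] at hI2
    exact eq_of_add_neg_eq_zero hI2
  let M : Matrix (Fin n) (Fin n) ℂ := D - vecMulVec dw v - vecMulVec w dv
  have hAM : A * M = 0 := by
    simp only [M, Matrix.mul_sub]
    rw [hAD, Matrix.mul_vecMulVec A w, h.hw]
    simp
  have hMA : M * A = 0 := by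
    simp only [M, Matrix.sub_mul]
    rw [hDA, Matrix.vecMulVec_mul dw v, h.hv]
    simp
  have hcol : ∀ s, A *ᵥ (fun r => M r s) = 0 := by
    intro s
    ext r
    have := congrFun (congrFun hAM r) s
    simpa [Matrix.mul_apply, Matrix.mulVec, dotProduct] using this
  have hrow : (fun s => M q s) ᵥ* A = 0 := by
    ext s
    have := congrFun (congrFun hMA q) s
    simpa [Matrix.mul_apply, Matrix.vecMul, dotProduct] using this
  have hwq := h.wq
  have hvp := h.vp
  have hentry1 : ∀ r s, M r s = (M q s / w q) * w r := by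
    intro r s
    have h5 : (fun r => M r s) - (M q s / w q) • w = 0 := by
      refine h.kr _ ?_ ?_
      · rw [Matrix.mulVec_sub, Matrix.mulVec_smul, hcol s, h.hw]; simp
      · simp only [Pi.sub_apply, Pi.smul_apply, smul_eq_mul]
        field_simp
        ring
    have h6 := congrFun h5 r
    simp only [Pi.sub_apply, Pi.smul_apply, smul_eq_mul, Pi.zero_apply] at h6
    exact sub_eq_zero.1 h6
  have hentry2 : ∀ s, M q s = (M q p / v p) * v s := by
    intro s
    have h5 : (fun s => M q s) - (M q p / v p) • v = 0 := by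
      refine h.kl _ ?_ ?_
      · rw [Matrix.sub_vecMul, Matrix.smul_vecMul, hrow, h.hv]; simp
      · simp only [Pi.sub_apply, Pi.smul_apply, smul_eq_mul]
        field_simp
        ring
    have h6 := congrFun h5 s
    simp only [Pi.sub_apply, Pi.smul_apply, smul_eq_mul, Pi.zero_apply] at h6
    exact sub_eq_zero.1 h6
  refine ⟨M q p / (w q * v p), ?_⟩
  have hM : M = (M q p / (w q * v p)) • vecMulVec w v := by
    ext r s
    rw [hentry1 r s, hentry2 s]
    simp only [Matrix.smul_apply, vecMulVec_apply, smul_eq_mul]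
    field_simp
  have hDM : D = M + vecMulVec dw v + vecMulVec w dv := by
    simp only [M]; abel
  rw [hDM]
  nth_rewrite 1 [hM]
  abel

end Crest.Agent.DetCrit
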