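import Mathlib

/-!
# Automorphisms of ℂ moving one transcendental to another

Countable coefficient sets can be fixed while a transcendental `t₁` is sent to a transcendental
`t₂`. Used in the homotopy argument for the multihomogeneous Bézout bound.
-/

open Cardinal

namespace Crest.Agent.DetCrit

/-- Two uncountable algebraically closed algebras of equal cardinality over a countable domain,
with injective structure maps, are isomorphic over the base. -/
theorem exists_equiv_over {R K L : Type} [CommRing R] [IsDomain R] [Field K] [Field L]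
    [Algebra R K] [Algebra R L] [IsAlgClosed K] [IsAlgClosed L]
    (hRK : Function.Injective (algebraMap R K)) (hRL : Function.Injective (algebraMap R L))
    (hR : #R ≤ ℵ₀) (hK : ℵ₀ < #K) (hKL : #K = #L) :
    ∃ τ : K ≃+* L, ∀ r : R, τ (algebraMap R K r) = algebraMap R L r := by
  have : FaithfulSMul R K := (faithfulSMul_iff_algebraMap_injective R K).2 hRK
  have : FaithfulSMul R L := (faithfulSMul_iff_algebraMap_injective R L).2 hRL
  obtain ⟨s, hs⟩ := exists_isTranscendenceBasis R K
  obtain ⟨t, ht⟩ := exists_isTranscendenceBasis R L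
  have hcs : #K = #s := IsAlgClosed.cardinal_eq_cardinal_transcendence_basis_of_aleph0_lt' _ hs hR hK
  have hct : #L = #t := IsAlgClosed.cardinal_eq_cardinal_transcendence_basis_of_aleph0_lt' _ ht hR
    (hKL ▸ hK)
  obtain ⟨e⟩ : Nonempty (s ≃ t) := Cardinal.eq.1 (by rw [← hcs, ← hct, hKL])
  have := IsAlgClosed.isAlgClosure_of_transcendence_basis _ hs
  have := IsAlgClosed.isAlgClosure_of_transcendence_basis _ ht
  let φ : Algebra.adjoin R (Set.range ((↑) : s → K)) ≃ₐ[R] Algebra.adjoin R (Set.range ((↑) : t → L)) :=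
    hs.1.aevalEquiv.symm.trans
      ((AlgEquiv.ofAlgHom (MvPolynomial.rename e) (MvPolynomial.rename e.symm)
        (by ext; simp) (by ext; simp)).trans ht.1.aevalEquiv)
  refine ⟨IsAlgClosure.equivOfEquiv K L φ.toRingEquiv, fun r => ?_⟩
  have h := IsAlgClosure.equivOfEquiv_algebraMap K L φ.toRingEquiv (algebraMap R _ r)
  have h1 : algebraMap (Algebra.adjoin R (Set.range ((↑) : s → K))) K (algebraMap R _ r)
      = algebraMap R K r := by
    rw [← IsScalarTower.algebraMap_apply]
  rw [h1] at h
  rw [h]
  simp only [AlgEquiv.coe_ringEquiv, AlgEquiv.commutes]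
  rw [← IsScalarTower.algebraMap_apply]

/-- The main use: fix a countable subring and move one transcendental to another. -/
theorem exists_ringEquiv_fix (R₀ : Subring ℂ) (hR₀ : Countable R₀) (t₁ t₂ : ℂ)
    (h₁ : Transcendental R₀ t₁) (h₂ : Transcendental R₀ t₂) :
    ∃ σ : ℂ ≃+* ℂ, σ t₁ = t₂ ∧ ∀ s : R₀, σ (s : ℂ) = s := by
  classical
  let f₁ : Polynomial R₀ →+* ℂ := (Polynomial.aeval t₁ : Polynomial R₀ →ₐ[R₀] ℂ).toRingHom
  let f₂ : Polynomial R₀ →+* ℂ := (Polynomial.aeval t₂ : Polynomial R₀ →ₐ[R₀] ℂ).toRingHom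
  have i₁ : Function.Injective f₁ := transcendental_iff_injective.1 h₁
  have i₂ : Function.Injective f₂ := transcendental_iff_injective.1 h₂
  have : #(Polynomial R₀) ≤ ℵ₀ :=
    Polynomial.cardinalMk_le_max.trans (max_le Cardinal.mk_le_aleph0 le_rfl)
  have key := @exists_equiv_over (Polynomial R₀) ℂ ℂ _ _ _ _ f₁.toAlgebra f₂.toAlgebra _ _ i₁ i₂
    this (by rw [Cardinal.mk_complex]; exact Cardinal.aleph0_lt_continuum) rfl
  obtain ⟨τ, hτ⟩ := key
  refine ⟨τ, ?_, fun s => ?_⟩
  · have := hτ Polynomial.X
    simpa [RingHom.algebraMap_toAlgebra, f₁, f₂] using this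
  · have := hτ (Polynomial.C s)
    have h2 : τ (algebraMap R₀ ℂ s) = algebraMap R₀ ℂ s := by
      simpa [RingHom.algebraMap_toAlgebra, f₁, f₂] using this
    exact h2

/-- Countability of the subring generated by a countable set. -/
theorem countable_closure (S : Set ℂ) (hS : S.Countable) : Countable (Subring.closure S) := by
  have : Countable S := hS.to_subtype
  let φ : MvPolynomial S ℤ →+* ℂ := MvPolynomial.eval₂Hom (Int.castRingHom ℂ) (fun s => (s : ℂ))
  have hsub : ((Subring.closure S : Subring ℂ) : Set ℂ) ⊆ Set.range φ := by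
    intro x hx
    have hle : Subring.closure S ≤ φ.range := by
      refine Subring.closure_le.2 ?_
      intro s hs
      exact ⟨MvPolynomial.X ⟨s, hs⟩, by simp [φ]⟩
    exact hle hx
  have hc : Countable (MvPolynomial S ℤ) := by
    rw [← Cardinal.mk_le_aleph0_iff]
    exact MvPolynomial.cardinalMk_le_max.trans
      (max_le (max_le Cardinal.mk_le_aleph0 Cardinal.mk_le_aleph0) le_rfl)
  exact ((Set.countable_range φ).mono hsub).to_subtype

/-- Algebraic elements over a countable subring form a countable set, so transcendentals exist in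
every uncountable set. -/
theorem exists_transcendental_mem (R₀ : Subring ℂ) (hR₀ : Countable R₀) (U : Set ℂ)
    (hU : ¬ U.Countable) : ∃ t ∈ U, Transcendental R₀ t := by
  have hc : Set.Countable {x : ℂ | IsAlgebraic R₀ x} := Algebraic.countable R₀ ℂ
  by_contra hcon
  push Not at hcon
  apply hU
  refine hc.mono (fun t ht => ?_)
  have := hcon t ht
  simpa [Transcendental] using this

/-- A transcendental in every nonempty open set. -/
theorem exists_transcendental_open (R₀ : Subring ℂ) (hR₀ : Countable R₀) (U : Set ℂ)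
    (hU : IsOpen U) (hne : U.Nonempty) : ∃ t ∈ U, Transcendental R₀ t := by
  have hc : Set.Countable {x : ℂ | IsAlgebraic R₀ x} := Algebraic.countable R₀ ℂ
  have hd : Dense ({x : ℂ | IsAlgebraic R₀ x}ᶜ) := hc.dense_compl ℂ
  obtain ⟨t, ht1, ht2⟩ := hd.inter_open_nonempty U hU hne
  exact ⟨t, ht1, ht2⟩

end Crest.Agent.DetCrit
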