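import Crest.Agent.Lib.DetCrit.HSys
import Crest.Agent.Lib.DetCrit.FieldHom

/-!
# Simple solutions of a multihomogeneous bilinear system are at most the balanced assignments
-/

open Filter Topology Module

set_option linter.unusedSectionVars false

namespace Crest.Agent.DetCrit

variable {G : Type} [Fintype G] [DecidableEq G] {d : G → ℕ}
variable {E : Type} [Fintype E] [DecidableEq E]

theorem continuous_sys (T : E → Idx d → Idx d → ℂ) (e : E) :
    Continuous fun z : Idx d → ℂ => sys T z e := by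
  unfold sys
  fun_prop

theorem dist_scale_of_ne {c c' : G → ℂ} (hc : ∀ g, c g ≠ 0) (hc' : ∀ g, c' g ≠ 0)
    {z z' : Idx d → ℂ} (h : Dist z z') : Dist (scale c z) (scale c' z') := by
  obtain ⟨g, i, j, h⟩ := h
  refine ⟨g, i, j, fun h2 => h ?_⟩
  simp only [scale] at h2
  have h3 : c g * c' g ≠ 0 := mul_ne_zero (hc g) (hc' g)
  apply mul_left_cancel₀ h3
  linear_combination h2

theorem not_dist_self (z : Idx d → ℂ) : ¬ Dist z z := by
  rintro ⟨g, i, j, h⟩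
  exact h (mul_comm _ _)

/-- The compact set of normalised points. -/
def NormSet (d : G → ℕ) : Set (Idx d → ℂ) :=
  {w | (∀ i, ‖w i‖ ≤ 1) ∧ ∀ g, ∃ i, w ⟨g, i⟩ = 1}

theorem isCompact_normSet : IsCompact (NormSet d) := by
  have h1 : NormSet d = Metric.closedBall (0 : Idx d → ℂ) 1 ∩
      ⋂ g, ⋃ i : Fin (d g), {w : Idx d → ℂ | w ⟨g, i⟩ = 1} := by
    ext w
    simp only [NormSet, Set.mem_ofPred_eq, Set.mem_inter_iff, Metric.mem_closedBall, dist_zero_right,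
      Set.mem_iInter, Set.mem_iUnion]
    rw [pi_norm_le_iff_of_nonneg zero_le_one]
  rw [h1]
  refine (isCompact_closedBall _ _).inter_right ?_
  refine isClosed_iInter fun g => isClosed_iUnion_of_finite fun i => ?_
  exact isClosed_eq (continuous_apply _) continuous_const

/-- Every point with nonzero groups can be scaled into `NormSet`. -/
theorem exists_scale_norm {z : Idx d → ℂ} (h : ∀ g, ∃ i, z ⟨g, i⟩ ≠ 0) :
    ∃ c : G → ℂ, (∀ g, c g ≠ 0) ∧ scale c z ∈ NormSet d := by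
  have h1 : ∀ g, ∃ i : Fin (d g), z ⟨g, i⟩ ≠ 0 ∧ ∀ k, ‖z ⟨g, k⟩‖ ≤ ‖z ⟨g, i⟩‖ := by
    intro g
    obtain ⟨i₀, hi₀⟩ := h g
    obtain ⟨i, -, hi⟩ := Finset.exists_max_image (Finset.univ : Finset (Fin (d g)))
      (fun k => ‖z ⟨g, k⟩‖) ⟨i₀, Finset.mem_univ _⟩
    refine ⟨i, ?_, fun k => hi k (Finset.mem_univ _)⟩
    intro h0
    have := hi i₀ (Finset.mem_univ _)
    rw [h0, norm_zero] at this
    exact hi₀ (norm_le_zero_iff.1 this)
  choose m hm0 hm using h1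
  refine ⟨fun g => (z ⟨g, m g⟩)⁻¹, fun g => inv_ne_zero (hm0 g), ?_, fun g => ⟨m g, ?_⟩⟩
  · rintro ⟨g, k⟩
    simp only [scale, norm_mul, norm_inv]
    have hpos : 0 < ‖z ⟨g, m g⟩‖ := norm_pos_iff.2 (hm0 g)
    rw [inv_mul_le_iff₀ hpos, mul_one]
    exact hm g k
  · simp only [scale]
    exact inv_mul_cancel₀ (hm0 g)

variable {a b : E → G} {ν : E → ℕ}

/-- All solutions of a small perturbation of the start system: at most the balanced assignments. -/
theorem count_perturb (hab : ∀ e, a e ≠ b e) (hν : Function.Injective ν)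
    (hdim : ∑ g, d g = Fintype.card E + Fintype.card G) {T : E → Idx d → Idx d → ℂ}
    (hT : Supp a b T) :
    ∃ δ > 0, ∀ ε : ℂ, ‖ε‖ < δ → ∀ Z : Fin ((Bal a b d).card + 1) → Idx d → ℂ,
      ¬ ((∀ s e, sys (TH a b ν) (Z s) e + ε * sys T (Z s) e = 0) ∧
        (∀ s g, ∃ i, Z s ⟨g, i⟩ ≠ 0) ∧ ∀ s s', s ≠ s' → Dist (Z s) (Z s')) := by
  classical
  by_contra hcon
  push Not at hcon
  -- sequences
  have hseq : ∀ n : ℕ, ∃ ε : ℂ, ‖ε‖ < 1 / ((n : ℝ) + 1) ∧
      ∃ Z : Fin ((Bal a b d).card + 1) → Idx d → ℂ,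
      (∀ s e, sys (TH a b ν) (Z s) e + ε * sys T (Z s) e = 0) ∧
        (∀ s g, ∃ i, Z s ⟨g, i⟩ ≠ 0) ∧ ∀ s s', s ≠ s' → Dist (Z s) (Z s') := by
    intro n
    exact hcon (1 / ((n : ℝ) + 1)) (by positivity)
  choose ε hε Z hZ1 hZ2 hZ3 using hseq
  -- normalise
  have hnorm : ∀ n s, ∃ c : G → ℂ, (∀ g, c g ≠ 0) ∧ scale c (Z n s) ∈ NormSet d :=
    fun n s => exists_scale_norm (hZ2 n s)
  choose c hc0 hcK using hnorm
  let W : ℕ → Fin ((Bal a b d).card + 1) → Idx d → ℂ := fun n s => scale (c n s) (Z n s)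
  have hsolW : ∀ n s e, sys (TH a b ν) (W n s) e + ε n * sys T (W n s) e = 0 := by
    intro n s e
    simp only [W]
    rw [sys_scale (supp_TH a b ν), sys_scale hT]
    linear_combination (c n s (a e) * c n s (b e)) * hZ1 n s e
  have hdistW : ∀ n s s', s ≠ s' → Dist (W n s) (W n s') := fun n s s' h =>
    dist_scale_of_ne (hc0 n s) (hc0 n s') (hZ3 n s s' h)
  have hK' : IsCompact (Set.pi Set.univ fun _ : Fin ((Bal a b d).card + 1) => NormSet d) :=
    isCompact_univ_pi fun _ => isCompact_normSet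
  obtain ⟨A, hA, φ, hφ, hlim⟩ := hK'.tendsto_subseq (x := W) (fun n s _ => hcK n s)
  have hlimS : ∀ s, Tendsto (fun n => W (φ n) s) atTop (𝓝 (A s)) := fun s =>
    (continuous_apply s).tendsto _ |>.comp hlim
  have hε0 : Tendsto (fun n => ε (φ n)) atTop (𝓝 0) := by
    have h1 : Tendsto (fun n : ℕ => 1 / ((n : ℝ) + 1)) atTop (𝓝 0) :=
      tendsto_one_div_add_atTop_nhds_zero_nat
    have h2 : Tendsto ε atTop (𝓝 0) := by
      refine squeeze_zero_norm (fun n => (hε n).le) h1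
    exact h2.comp hφ.tendsto_atTop
  have hAK : ∀ s, A s ∈ NormSet d := fun s => hA s (Set.mem_univ s)
  have hAsol : ∀ s e, sys (TH a b ν) (A s) e = 0 := by
    intro s e
    have h1 : Tendsto (fun n => sys (TH a b ν) (W (φ n) s) e + ε (φ n) * sys T (W (φ n) s) e) atTop
        (𝓝 (sys (TH a b ν) (A s) e + 0 * sys T (A s) e)) :=
      (((continuous_sys _ e).tendsto _).comp (hlimS s)).add
        (hε0.mul (((continuous_sys T e).tendsto _).comp (hlimS s)))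
    have h2 : (fun n => sys (TH a b ν) (W (φ n) s) e + ε (φ n) * sys T (W (φ n) s) e) = fun _ => 0 :=
      funext fun n => hsolW _ s e
    rw [h2, zero_mul, add_zero] at h1
    exact (tendsto_nhds_unique h1 tendsto_const_nhds)
  have hAH : ∀ s, HSol a b ν (A s) := by
    intro s
    refine ⟨fun e => ?_, fun g => ?_⟩
    · rw [← sys_TH]; exact hAsol s e
    · obtain ⟨i, hi⟩ := (hAK s).2 g
      exact ⟨i, by rw [hi]; exact one_ne_zero⟩
  -- pigeonhole
  obtain ⟨s, -, s', -, hss, heq⟩ := Finset.exists_ne_map_eq_of_card_lt_of_maps_to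
    (s := (Finset.univ : Finset (Fin ((Bal a b d).card + 1)))) (t := Bal a b d)
    (by simp) (f := fun s => assign a ν (A s))
    (fun s _ => (hAH s).mem_bal hab hν hdim)
  have hnd := (hAH s).not_dist hab hν hdim (hAH s') heq
  have hnd' : ∀ g (i j : Fin (d g)), A s ⟨g, i⟩ * A s' ⟨g, j⟩ = A s ⟨g, j⟩ * A s' ⟨g, i⟩ := by
    intro g i j
    by_contra hne
    exact hnd ⟨g, i, j, hne⟩
  -- chart
  have hp : ∀ g, ∃ i, A s ⟨g, i⟩ ≠ 0 := (hAH s).ne
  choose p hp0 using hp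
  have hp' : ∀ g, A s' ⟨g, p g⟩ ≠ 0 := by
    intro g h0
    obtain ⟨j, hj⟩ := (hAH s').ne g
    have h1 := hnd' g (p g) j
    rw [h0, mul_zero] at h1
    exact (mul_ne_zero (hp0 g) hj) h1
  have hsim := (hAH s).isSimple hab hν hdim
  obtain ⟨-, U, hU, huniq⟩ := simple_persist (T₁ := T) hsim hdim p hp0
  have hcoord : ∀ (t : Fin ((Bal a b d).card + 1)) (i : Idx d),
      Tendsto (fun n => W (φ n) t i) atTop (𝓝 (A t i)) := fun t i =>
    ((continuous_apply i).tendsto _).comp (hlimS t)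
  let c1 : ℕ → G → ℂ := fun n g => A s ⟨g, p g⟩ / W (φ n) s ⟨g, p g⟩
  let c2 : ℕ → G → ℂ := fun n g => A s ⟨g, p g⟩ / W (φ n) s' ⟨g, p g⟩
  let u1 : ℕ → Idx d → ℂ := fun n => scale (c1 n) (W (φ n) s)
  let u2 : ℕ → Idx d → ℂ := fun n => scale (c2 n) (W (φ n) s')
  have hne1 : ∀ᶠ n in atTop, ∀ g, W (φ n) s ⟨g, p g⟩ ≠ 0 :=
    eventually_all.2 fun g => (hcoord s ⟨g, p g⟩).eventually_ne (hp0 g)
  have hne2 : ∀ᶠ n in atTop, ∀ g, W (φ n) s' ⟨g, p g⟩ ≠ 0 :=
    eventually_all.2 fun g => (hcoord s' ⟨g, p g⟩).eventually_ne (hp' g)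
  have hu1 : Tendsto u1 atTop (𝓝 (A s)) := by
    refine tendsto_pi_nhds.2 ?_
    rintro ⟨g, k⟩
    have h1 : Tendsto (fun n => c1 n g * W (φ n) s ⟨g, k⟩) atTop
        (𝓝 (A s ⟨g, p g⟩ / A s ⟨g, p g⟩ * A s ⟨g, k⟩)) :=
      (tendsto_const_nhds.div (hcoord s ⟨g, p g⟩) (hp0 g)).mul (hcoord s ⟨g, k⟩)
    rw [div_self (hp0 g), one_mul] at h1
    exact h1
  have hu2 : Tendsto u2 atTop (𝓝 (A s)) := by
    refine tendsto_pi_nhds.2 ?_
    rintro ⟨g, k⟩
    have h1 : Tendsto (fun n => c2 n g * W (φ n) s' ⟨g, k⟩) atTop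
        (𝓝 (A s ⟨g, p g⟩ / A s' ⟨g, p g⟩ * A s' ⟨g, k⟩)) :=
      (tendsto_const_nhds.div (hcoord s' ⟨g, p g⟩) (hp' g)).mul (hcoord s' ⟨g, k⟩)
    have h2 : A s ⟨g, p g⟩ / A s' ⟨g, p g⟩ * A s' ⟨g, k⟩ = A s ⟨g, k⟩ := by
      field_simp [hp' g]
      linear_combination hnd' g (p g) k
    rw [h2] at h1
    exact h1
  have hx1 : ∀ᶠ n in atTop, ((ε (φ n), u1 n) : ℂ × (Idx d → ℂ)) ∈ U :=
    (hε0.prodMk_nhds hu1).eventually hU
  have hx2 : ∀ᶠ n in atTop, ((ε (φ n), u2 n) : ℂ × (Idx d → ℂ)) ∈ U :=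
    (hε0.prodMk_nhds hu2).eventually hU
  obtain ⟨n, hn1, hn2, hn3, hn4⟩ := (hne1.and (hne2.and (hx1.and hx2))).exists
  have hP : Phi (TH a b ν) T p ((ε (φ n), u1 n)) = Phi (TH a b ν) T p ((ε (φ n), u2 n)) := by
    have hsol1 : ∀ e, sys (TH a b ν) (u1 n) e + ε (φ n) * sys T (u1 n) e = 0 := by
      intro e
      simp only [u1]
      rw [sys_scale (supp_TH a b ν), sys_scale hT]
      linear_combination (c1 n (a e) * c1 n (b e)) * hsolW (φ n) s e
    have hsol2 : ∀ e, sys (TH a b ν) (u2 n) e + ε (φ n) * sys T (u2 n) e = 0 := by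
      intro e
      simp only [u2]
      rw [sys_scale (supp_TH a b ν), sys_scale hT]
      linear_combination (c2 n (a e) * c2 n (b e)) * hsolW (φ n) s' e
    unfold Phi
    refine Prod.ext (funext fun e => ?_) (funext fun g => ?_)
    · simp only
      rw [hsol1 e, hsol2 e]
    · simp only [u1, u2, scale, c1, c2]
      rw [div_mul_cancel₀ _ (hn1 g), div_mul_cancel₀ _ (hn2 g)]
  have hxy := huniq _ hn3 _ hn4 rfl hP
  have huu : u1 n = u2 n := congrArg Prod.snd hxy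
  have hd : Dist (u1 n) (u2 n) := by
    refine dist_scale_of_ne (fun g => div_ne_zero (hp0 g) (hn1 g))
      (fun g => div_ne_zero (hp0 g) (hn2 g)) (hdistW _ s s' hss)
  rw [huu] at hd
  exact not_dist_self _ hd

/-- Applying a ring hom fixing the coefficients. -/
theorem map_sys (σ : ℂ →+* ℂ) {T : E → Idx d → Idx d → ℂ} (hσ : ∀ e i j, σ (T e i j) = T e i j)
    (z : Idx d → ℂ) (e : E) : sys T (fun i => σ (z i)) e = σ (sys T z e) := by
  unfold sys
  simp only [map_sum, map_mul, hσ]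

theorem map_TH (σ : ℂ →+* ℂ) (a b : E → G) (ν : E → ℕ) (e : E) (i j : Idx d) :
    σ (TH a b ν e i j) = TH a b ν e i j := by
  unfold TH
  split_ifs
  · simp only [map_mul, map_pow, map_natCast]
  · simp

/-- **Multihomogeneous Bézout bound for simple solutions.** -/
theorem simple_card_le (hab : ∀ e, a e ≠ b e)
    (hdim : ∑ g, d g = Fintype.card E + Fintype.card G) {T : E → Idx d → Idx d → ℂ}
    (hT : Supp a b T) {S : ℕ} (Z : Fin S → Idx d → ℂ) (hZ : ∀ s, IsSimple T (Z s))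
    (hD : ∀ s s', s ≠ s' → Dist (Z s) (Z s')) : S ≤ (Bal a b d).card := by
  classical
  by_contra hlt
  push Not at hlt
  let ν : E → ℕ := fun e => (Fintype.equivFin E e : ℕ)
  have hν : Function.Injective ν := fun x y h =>
    (Fintype.equivFin E).injective (Fin.ext h)
  obtain ⟨δ₂, hδ₂, hcount⟩ := count_perturb (ν := ν) hab hν hdim hT
  -- charts
  have hp : ∀ s g, ∃ i, Z s ⟨g, i⟩ ≠ 0 := fun s => (hZ s).ne
  choose p hp0 using hp
  -- persistence
  have hper := fun s => (simple_persist (T₁ := TH a b ν) (hZ s) hdim (p s) (hp0 s)).1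
  choose f hf hfsol using hper
  -- open conditions
  have hopen1 : ∀ s (g : G), ∀ᶠ t in 𝓝 (0 : ℂ), f s t ⟨g, p s g⟩ ≠ 0 := fun s g =>
    (((continuous_apply _).tendsto _).comp (hf s)).eventually_ne (hp0 s g)
  have hopen2 : ∀ s s', s ≠ s' → ∀ᶠ t in 𝓝 (0 : ℂ), Dist (f s t) (f s' t) := by
    intro s s' hne
    obtain ⟨g, i, j, h⟩ := hD s s' hne
    have h1 : ∀ (r : Fin S) (x : Idx d), Tendsto (fun t => f r t x) (𝓝 0) (𝓝 (Z r x)) := fun r x =>
      ((continuous_apply x).tendsto _).comp (hf r)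
    have h2 : Tendsto (fun t => f s t ⟨g, i⟩ * f s' t ⟨g, j⟩ - f s t ⟨g, j⟩ * f s' t ⟨g, i⟩) (𝓝 0)
        (𝓝 (Z s ⟨g, i⟩ * Z s' ⟨g, j⟩ - Z s ⟨g, j⟩ * Z s' ⟨g, i⟩)) :=
      ((h1 s _).mul (h1 s' _)).sub ((h1 s _).mul (h1 s' _))
    filter_upwards [h2.eventually_ne (sub_ne_zero.2 h)] with t ht
    exact ⟨g, i, j, sub_ne_zero.1 ht⟩
  have hgood : ∀ᶠ t in 𝓝 (0 : ℂ), (∀ s, ∀ e, sys T (f s t) e + t * sys (TH a b ν) (f s t) e = 0) ∧
      (∀ s g, f s t ⟨g, p s g⟩ ≠ 0) ∧ ∀ s s', s ≠ s' → Dist (f s t) (f s' t) := by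
    refine (eventually_all.2 fun s => ?_).and
      ((eventually_all.2 fun s => eventually_all.2 fun g => hopen1 s g).and
        (eventually_all.2 fun s => eventually_all.2 fun s' => ?_))
    · filter_upwards [hfsol s] with t ht using ht.1
    · by_cases h : s = s'
      · exact Eventually.of_forall fun t hne => absurd h hne
      · filter_upwards [hopen2 s s' h] with t ht _ using ht
  obtain ⟨δ₁, hδ₁, hball⟩ := Metric.eventually_nhds_iff_ball.1 hgood
  -- coefficient ring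
  let R₀ : Subring ℂ := Subring.closure (Set.range fun x : E × Idx d × Idx d => T x.1 x.2.1 x.2.2)
  have hR₀ : Countable R₀ := countable_closure _ (Set.countable_range _)
  obtain ⟨t₁, ht₁, htr₁⟩ := exists_transcendental_open R₀ hR₀ (Metric.ball 0 δ₁)
    Metric.isOpen_ball ⟨0, Metric.mem_ball_self hδ₁⟩
  obtain ⟨t₂, ht₂, htr₂⟩ := exists_transcendental_open R₀ hR₀ {t : ℂ | 1 / δ₂ < ‖t‖}
    (isOpen_lt continuous_const continuous_norm)
    ⟨((1 / δ₂ + 1 : ℝ) : ℂ), by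
      have : 0 < 1 / δ₂ := by positivity
      simp only [Set.mem_ofPred_eq, Complex.norm_real, Real.norm_eq_abs]
      rw [abs_of_pos (by linarith)]
      linarith⟩
  obtain ⟨σ, hσ1, hσ2⟩ := exists_ringEquiv_fix R₀ hR₀ t₁ t₂ htr₁ htr₂
  let σ' : ℂ →+* ℂ := (σ : ℂ →+* ℂ)
  have hσT : ∀ e i j, σ' (T e i j) = T e i j := fun e i j =>
    hσ2 ⟨T e i j, Subring.subset_closure ⟨(e, i, j), rfl⟩⟩
  obtain ⟨hg1, hg2, hg3⟩ := hball t₁ ht₁
  have ht₂pos : 0 < ‖t₂‖ := lt_trans (by positivity) ht₂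
  have ht₂ne : t₂ ≠ 0 := norm_pos_iff.1 ht₂pos
  have hsmall : ‖(1 / t₂ : ℂ)‖ < δ₂ := by
    rw [norm_div, norm_one, div_lt_iff₀ ht₂pos]
    have := (div_lt_iff₀ hδ₂).1 ht₂
    linarith
  let emb : Fin ((Bal a b d).card + 1) → Fin S := Fin.castLE hlt
  refine hcount (1 / t₂) hsmall (fun s i => σ' (f (emb s) t₁ i)) ⟨?_, ?_, ?_⟩
  · intro s e
    rw [map_sys σ' (map_TH σ' a b ν), map_sys σ' hσT]
    have h1 := congrArg σ' (hg1 (emb s) e)
    rw [map_add, map_mul, map_zero] at h1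
    have h2 : σ' t₁ = t₂ := hσ1
    rw [h2] at h1
    field_simp
    linear_combination h1
  · intro s g
    exact ⟨p (emb s) g, fun h0 => hg2 (emb s) g ((map_eq_zero σ').1 h0)⟩
  · intro s s' hne
    obtain ⟨g, i, j, h⟩ := hg3 (emb s) (emb s') (fun h => hne (Fin.castLE_injective hlt h))
    refine ⟨g, i, j, fun h2 => h ?_⟩
    apply σ.injective
    have h3 : σ' (f (emb s) t₁ ⟨g, i⟩ * f (emb s') t₁ ⟨g, j⟩) =
        σ' (f (emb s) t₁ ⟨g, j⟩ * f (emb s') t₁ ⟨g, i⟩) := by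
      rw [map_mul, map_mul]; exact h2
    exact h3

end Crest.Agent.DetCrit
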