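import Mathlib

/-!
# Jacobi's formula and the derivative of the adjugate along a line of matrices
-/

open Matrix

namespace Crest.Agent.DetCrit

variable {n : ℕ}

/-- **Jacobi's formula** along a line. -/
theorem hasDerivAt_det_line (A C : Matrix (Fin n) (Fin n) ℂ) :
    HasDerivAt (fun t : ℂ => (A + t • C).det) (adjugate A * C).trace 0 := by
  classical
  have h1 : ∀ (σ : Equiv.Perm (Fin n)), HasDerivAt (fun t : ℂ => ∏ i, (A + t • C) (σ i) i)
      (∑ j, (∏ i ∈ Finset.univ.erase j, A (σ i) i) • C (σ j) j) 0 := by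
    intro σ
    have h2 := HasDerivAt.fun_finsetProd (u := Finset.univ) (x := (0 : ℂ))
      (f := fun i t => (A + t • C) (σ i) i) (f' := fun i => C (σ i) i) (fun i _ => by
        have h3 : HasDerivAt (fun t : ℂ => A (σ i) i + t * C (σ i) i) (0 + 1 * C (σ i) i) 0 :=
          (hasDerivAt_const _ _).add ((hasDerivAt_id (0 : ℂ)).mul_const _)
        simpa [Matrix.add_apply, Matrix.smul_apply] using h3)
    simpa [Matrix.add_apply, Matrix.smul_apply] using h2
  have h4 : HasDerivAt (fun t : ℂ => ∑ σ : Equiv.Perm (Fin n),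
        ((Equiv.Perm.sign σ : ℤ) : ℂ) * ∏ i, (A + t • C) (σ i) i)
      (∑ σ : Equiv.Perm (Fin n), ((Equiv.Perm.sign σ : ℤ) : ℂ) *
        ∑ j, (∏ i ∈ Finset.univ.erase j, A (σ i) i) • C (σ j) j) 0 :=
    HasDerivAt.fun_sum fun σ _ => (h1 σ).const_mul _
  have h5 : (fun t : ℂ => (A + t • C).det) = fun t : ℂ => ∑ σ : Equiv.Perm (Fin n),
        ((Equiv.Perm.sign σ : ℤ) : ℂ) * ∏ i, (A + t • C) (σ i) i := by
    funext t
    rw [Matrix.det_apply']
  rw [h5]
  convert h4 using 1
  -- the value of the derivative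
  have h6 : ∀ j : Fin n, (A.updateCol j (fun r => C r j)).det =
      ∑ σ : Equiv.Perm (Fin n), ((Equiv.Perm.sign σ : ℤ) : ℂ) *
        ((∏ i ∈ Finset.univ.erase j, A (σ i) i) • C (σ j) j) := by
    intro j
    rw [Matrix.det_apply']
    refine Finset.sum_congr rfl fun σ _ => ?_
    congr 1
    rw [← Finset.mul_prod_erase Finset.univ _ (Finset.mem_univ j)]
    simp only [Matrix.updateCol_self, smul_eq_mul]
    rw [mul_comm]
    congr 1
    refine Finset.prod_congr rfl fun i hi => ?_
    rw [Matrix.updateCol_ne (Finset.ne_of_mem_erase hi)]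
  have h7 : (adjugate A * C).trace = ∑ j, (A.updateCol j (fun r => C r j)).det := by
    rw [Matrix.trace]
    refine Finset.sum_congr rfl fun j _ => ?_
    rw [← Matrix.cramer_apply, Matrix.cramer_eq_adjugate_mulVec]
    simp [Matrix.mul_apply, Matrix.mulVec, dotProduct]
  rw [h7]
  simp_rw [h6, Finset.mul_sum]
  rw [Finset.sum_comm]

/-- The derivative of the adjugate at `0` along the line `A + t C`, entrywise. -/
noncomputable def adjD (A C : Matrix (Fin n) (Fin n) ℂ) : Matrix (Fin n) (Fin n) ℂ :=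
  Matrix.of fun i j => (adjugate (A.updateRow j (Pi.single i 1)) * C.updateRow j 0).trace

theorem hasDerivAt_adjugate_line (A C : Matrix (Fin n) (Fin n) ℂ) (i j : Fin n) :
    HasDerivAt (fun t : ℂ => adjugate (A + t • C) i j) (adjD A C i j) 0 := by
  classical
  have h1 : (fun t : ℂ => adjugate (A + t • C) i j) = fun t : ℂ =>
      (A.updateRow j (Pi.single i 1) + t • C.updateRow j 0).det := by
    funext t
    rw [Matrix.adjugate_apply]
    congr 1
    ext r s
    by_cases hr : r = j
    · subst hr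
      simp [Matrix.updateRow_self]
    · simp [Matrix.updateRow_ne hr, Matrix.add_apply, Matrix.smul_apply]
  rw [h1]
  exact hasDerivAt_det_line _ _

theorem hasDerivAt_entry_line (A C : Matrix (Fin n) (Fin n) ℂ) (i j : Fin n) :
    HasDerivAt (fun t : ℂ => (A + t • C) i j) (C i j) 0 := by
  have h3 : HasDerivAt (fun t : ℂ => A i j + t * C i j) (0 + 1 * C i j) 0 :=
    (hasDerivAt_const _ _).add ((hasDerivAt_id (0 : ℂ)).mul_const _)
  simpa [Matrix.add_apply, Matrix.smul_apply] using h3

/-- Differentiating `M adj M = det M`. -/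
theorem mul_adjD_add (A C : Matrix (Fin n) (Fin n) ℂ) :
    A * adjD A C + C * adjugate A = (adjugate A * C).trace • (1 : Matrix (Fin n) (Fin n) ℂ) := by
  classical
  ext i j
  have h1 : HasDerivAt (fun t : ℂ => ∑ k, (A + t • C) i k * adjugate (A + t • C) k j)
      (∑ k, (C i k * adjugate (A + (0 : ℂ) • C) k j + (A + (0 : ℂ) • C) i k * adjD A C k j)) 0 :=
    HasDerivAt.fun_sum fun k _ =>
      (hasDerivAt_entry_line A C i k).mul (hasDerivAt_adjugate_line A C k j)
  have h2 : (fun t : ℂ => ∑ k, (A + t • C) i k * adjugate (A + t • C) k j) =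
      fun t : ℂ => (1 : Matrix (Fin n) (Fin n) ℂ) i j * (A + t • C).det := by
    funext t
    have := congrFun (congrFun (Matrix.mul_adjugate (A + t • C)) i) j
    rw [Matrix.mul_apply] at this
    rw [this]
    simp [Matrix.smul_apply, mul_comm]
  rw [h2] at h1
  have h3 := (hasDerivAt_det_line A C).const_mul ((1 : Matrix (Fin n) (Fin n) ℂ) i j)
  have h4 := h1.unique h3
  simp only [zero_smul, add_zero] at h4
  simp only [Matrix.add_apply, Matrix.mul_apply, Matrix.smul_apply, smul_eq_mul]
  rw [mul_comm (adjugate A * C).trace, ← h4, ← Finset.sum_add_distrib]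
  exact Finset.sum_congr rfl fun k _ => by ring

/-- Differentiating `adj M M = det M`. -/
theorem adjD_mul_add (A C : Matrix (Fin n) (Fin n) ℂ) :
    adjD A C * A + adjugate A * C = (adjugate A * C).trace • (1 : Matrix (Fin n) (Fin n) ℂ) := by
  classical
  ext i j
  have h1 : HasDerivAt (fun t : ℂ => ∑ k, adjugate (A + t • C) i k * (A + t • C) k j)
      (∑ k, (adjD A C i k * (A + (0 : ℂ) • C) k j + adjugate (A + (0 : ℂ) • C) i k * C k j)) 0 :=
    HasDerivAt.fun_sum fun k _ =>
      (hasDerivAt_adjugate_line A C i k).mul (hasDerivAt_entry_line A C k j)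
  have h2 : (fun t : ℂ => ∑ k, adjugate (A + t • C) i k * (A + t • C) k j) =
      fun t : ℂ => (1 : Matrix (Fin n) (Fin n) ℂ) i j * (A + t • C).det := by
    funext t
    have := congrFun (congrFun (Matrix.adjugate_mul (A + t • C)) i) j
    rw [Matrix.mul_apply] at this
    rw [this]
    simp [Matrix.smul_apply, mul_comm]
  rw [h2] at h1
  have h3 := (hasDerivAt_det_line A C).const_mul ((1 : Matrix (Fin n) (Fin n) ℂ) i j)
  have h4 := h1.unique h3
  simp only [zero_smul, add_zero] at h4
  simp only [Matrix.add_apply, Matrix.mul_apply, Matrix.smul_apply, smul_eq_mul]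
  rw [mul_comm (adjugate A * C).trace, ← h4, ← Finset.sum_add_distrib]

end Crest.Agent.DetCrit
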