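import Crest.Agent.Lib.DetCrit.TriSimple

/-!
# Nondegenerate critical points of a determinant of an affine matrix
-/

open Matrix

set_option linter.unusedSectionVars false

namespace Crest.Agent.DetCrit

variable {N n : ℕ}

/-- A nondegenerate critical point of the linear form `ξ` on the zero set of `f`. -/
structure NondegCrit (f : (Fin N → ℂ) → ℂ) (ξ : Fin N → ℂ) (x : Fin N → ℂ) : Prop where
  zero : f x = 0
  crit : ∃ l : ℂ, l ≠ 0 ∧ ∀ θ, fderiv ℂ f x θ = l * (ξ ⬝ᵥ θ)
  nondeg : ∀ (dx : Fin N → ℂ) (dl : ℂ), fderiv ℂ f x dx = 0 →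
    (∀ θ, fderiv ℂ (fderiv ℂ f) x dx θ = dl * (ξ ⬝ᵥ θ)) → dx = 0

/-- The determinant of the affine matrix, as a function. -/
noncomputable def detf (B0 : Matrix (Fin n) (Fin n) ℂ) (B : Fin N → Matrix (Fin n) (Fin n) ℂ)
    (x : Fin N → ℂ) : ℂ := (bmat B0 B x).det

theorem bmat_line (B0 : Matrix (Fin n) (Fin n) ℂ) (B : Fin N → Matrix (Fin n) (Fin n) ℂ)
    (x θ : Fin N → ℂ) (t : ℂ) : bmat B0 B (x + t • θ) = bmat B0 B x + t • blin B θ := by
  simp only [bmat, blin_add, blin_smul, add_assoc]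

theorem contDiff_detf (B0 : Matrix (Fin n) (Fin n) ℂ) (B : Fin N → Matrix (Fin n) (Fin n) ℂ) :
    ContDiff ℂ 2 (detf B0 B) := by
  have h1 : detf B0 B = fun x => ∑ σ : Equiv.Perm (Fin n), ((Equiv.Perm.sign σ : ℤ) : ℂ) *
      ∏ i, (B0 (σ i) i + ∑ k, x k * B k (σ i) i) := by
    funext x
    simp only [detf, bmat, blin, Matrix.det_apply', Matrix.add_apply, Matrix.sum_apply,
      Matrix.smul_apply, smul_eq_mul]
  rw [h1]
  refine ContDiff.sum fun σ _ => contDiff_const.mul (contDiff_prod fun i _ => ?_)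
  fun_prop

theorem fderiv_detf (B0 : Matrix (Fin n) (Fin n) ℂ) (B : Fin N → Matrix (Fin n) (Fin n) ℂ)
    (x θ : Fin N → ℂ) :
    fderiv ℂ (detf B0 B) x θ = (adjugate (bmat B0 B x) * blin B θ).trace := by
  have hd : HasFDerivAt (detf B0 B) (fderiv ℂ (detf B0 B) x) x :=
    ((contDiff_detf B0 B).differentiable (by norm_num) x).hasFDerivAt
  have hc : HasDerivAt (fun t : ℂ => x + t • θ) θ 0 := by
    have : HasDerivAt (fun s : ℂ => s • θ) ((1 : ℂ) • θ) 0 := (hasDerivAt_id (0 : ℂ)).smul_const θ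
    simpa using this.const_add x
  have hd' : HasFDerivAt (detf B0 B) (fderiv ℂ (detf B0 B) x) ((fun t : ℂ => x + t • θ) 0) := by
    simpa using hd
  have h1 := hd'.comp_hasDerivAt (0 : ℂ) hc
  have h2 : HasDerivAt ((detf B0 B) ∘ fun t : ℂ => x + t • θ)
      (adjugate (bmat B0 B x) * blin B θ).trace 0 := by
    have h3 := hasDerivAt_det_line (bmat B0 B x) (blin B θ)
    have h4 : ((detf B0 B) ∘ fun t : ℂ => x + t • θ) =
        fun t : ℂ => (bmat B0 B x + t • blin B θ).det := by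
      funext t
      simp only [Function.comp, detf, bmat_line]
    rw [h4]; exact h3
  exact h1.unique h2

theorem fderiv_fderiv_detf (B0 : Matrix (Fin n) (Fin n) ℂ) (B : Fin N → Matrix (Fin n) (Fin n) ℂ)
    (x dx θ : Fin N → ℂ) :
    fderiv ℂ (fderiv ℂ (detf B0 B)) x dx θ =
      (adjD (bmat B0 B x) (blin B dx) * blin B θ).trace := by
  have hg : ContDiff ℂ 1 (fderiv ℂ (detf B0 B)) :=
    (contDiff_detf B0 B).fderiv_right (m := 1) (by norm_num)
  have hd : HasFDerivAt (fderiv ℂ (detf B0 B)) (fderiv ℂ (fderiv ℂ (detf B0 B)) x) x :=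
    (hg.differentiable (by norm_num) x).hasFDerivAt
  have hc : HasDerivAt (fun t : ℂ => x + t • dx) dx 0 := by
    have : HasDerivAt (fun s : ℂ => s • dx) ((1 : ℂ) • dx) 0 := (hasDerivAt_id (0 : ℂ)).smul_const dx
    simpa using this.const_add x
  have hd' : HasFDerivAt (fderiv ℂ (detf B0 B)) (fderiv ℂ (fderiv ℂ (detf B0 B)) x)
      ((fun t : ℂ => x + t • dx) 0) := by simpa using hd
  have h1 := hd'.comp_hasDerivAt (0 : ℂ) hc
  have h1' : HasDerivAt (fun t : ℂ => fderiv ℂ (detf B0 B) (x + t • dx) θ)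
      (fderiv ℂ (fderiv ℂ (detf B0 B)) x dx θ) 0 := by
    have := h1.clm_apply (hasDerivAt_const (0 : ℂ) θ)
    simpa using this
  have h2 : HasDerivAt (fun t : ℂ => fderiv ℂ (detf B0 B) (x + t • dx) θ)
      (adjD (bmat B0 B x) (blin B dx) * blin B θ).trace 0 := by
    have h3 : (fun t : ℂ => fderiv ℂ (detf B0 B) (x + t • dx) θ) = fun t : ℂ =>
        ∑ i, ∑ j, adjugate (bmat B0 B x + t • blin B dx) i j * blin B θ j i := by
      funext t
      rw [fderiv_detf, bmat_line, Matrix.trace]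
      simp only [Matrix.diag_apply, Matrix.mul_apply]
    rw [h3]
    have h4 : (adjD (bmat B0 B x) (blin B dx) * blin B θ).trace =
        ∑ i, ∑ j, adjD (bmat B0 B x) (blin B dx) i j * blin B θ j i := by
      rw [Matrix.trace]
      simp only [Matrix.diag_apply, Matrix.mul_apply]
    rw [h4]
    exact HasDerivAt.fun_sum fun i _ => HasDerivAt.fun_sum fun j _ =>
      (hasDerivAt_adjugate_line _ _ i j).mul_const _
  exact h1'.unique h2

/-- A hyperplane has a basis with the right number of elements. -/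
theorem exists_hyperplane_basis {m : ℕ} (ψ : Fin m → ℂ) (hψ : ψ ≠ 0) :
    ∃ u : Fin (m - 1) → Fin m → ℂ, (∀ r, ψ ⬝ᵥ u r = 0) ∧
      ∀ c, ψ ⬝ᵥ c = 0 → c ∈ Submodule.span ℂ (Set.range u) := by
  classical
  let L : (Fin m → ℂ) →ₗ[ℂ] ℂ :=
    { toFun := fun c => ψ ⬝ᵥ c
      map_add' := fun a b => dotProduct_add _ _ _
      map_smul' := fun a b => by simp [dotProduct_smul] }
  have hsurj : Function.Surjective L := by
    obtain ⟨i, hi⟩ : ∃ i, ψ i ≠ 0 := by
      by_contra hcon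
      push Not at hcon
      exact hψ (funext hcon)
    intro y
    refine ⟨Pi.single i (y / ψ i), ?_⟩
    simp only [L, LinearMap.coe_mk, AddHom.coe_mk, dotProduct_single]
    field_simp
  have hrn := LinearMap.finrank_range_add_finrank_ker L
  rw [LinearMap.range_eq_top.2 hsurj] at hrn
  simp only [finrank_top, Module.finrank_self, Module.finrank_fintype_fun_eq_card,
    Fintype.card_fin] at hrn
  have hker : Module.finrank ℂ (LinearMap.ker L) = m - 1 := by omega
  let b := Module.finBasisOfFinrankEq ℂ (LinearMap.ker L) hker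
  refine ⟨fun r => (b r : Fin m → ℂ), fun r => (b r).2, fun c hc => ?_⟩
  have h1 : (⟨c, hc⟩ : LinearMap.ker L) = ∑ r, b.repr ⟨c, hc⟩ r • b r := (b.sum_repr _).symm
  have h2 : c = ∑ r, b.repr ⟨c, hc⟩ r • (b r : Fin m → ℂ) := by
    have h3 : ((⟨c, hc⟩ : LinearMap.ker L) : Fin m → ℂ) =
        ((∑ r, b.repr ⟨c, hc⟩ r • b r : LinearMap.ker L) : Fin m → ℂ) := congrArg _ h1
    simp only [AddSubmonoidClass.coe_finsetSum, Submodule.coe_smul] at h3
    exact h3
  rw [h2]
  exact Submodule.sum_mem _ fun r _ =>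
    Submodule.smul_mem _ _ (Submodule.subset_span ⟨r, rfl⟩)

/-- A functional nonzero on finitely many nonzero vectors. -/
theorem exists_functional_ne {ι : Type} (s : Finset ι) (w : ι → Fin n → ℂ) (hw : ∀ i ∈ s, w i ≠ 0) :
    ∃ ψ : Fin n → ℂ, ∀ i ∈ s, ψ ⬝ᵥ w i ≠ 0 := by
  classical
  let L : ι → (Fin n → ℂ) →ₗ[ℂ] ℂ := fun i =>
    { toFun := fun c => c ⬝ᵥ w i
      map_add' := fun a b => add_dotProduct _ _ _
      map_smul' := fun a b => by simp [smul_dotProduct] }
  let S : Finset (Subspace ℂ (Fin n → ℂ)) := s.image fun i => LinearMap.ker (L i)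
  have htop : (⊤ : Subspace ℂ (Fin n → ℂ)) ∉ S := by
    intro h
    obtain ⟨i, hi, hk⟩ := Finset.mem_image.1 h
    have h0 : ∀ c, c ⬝ᵥ w i = 0 := by
      intro c
      have hc : c ∈ LinearMap.ker (L i) := by rw [hk]; trivial
      exact hc
    apply hw i hi
    ext q
    simpa using h0 (Pi.single q 1)
  have hne := Subspace.biUnion_ne_univ_of_top_notMem htop
  obtain ⟨ψ, hψ⟩ := (Set.ne_univ_iff_exists_notMem _).1 hne
  refine ⟨ψ, fun i hi h0 => hψ ?_⟩
  simp only [Set.mem_iUnion]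
  refine ⟨LinearMap.ker (L i), Finset.mem_image.2 ⟨i, hi, rfl⟩, ?_⟩
  exact h0

/-- **Exact case.** Nondegenerate critical points of `det (B0 + Σ x_i B_i)` inject in the balanced
assignments of the trilinear system. -/
theorem det_exact_card_le {B0 : Matrix (Fin n) (Fin n) ℂ} {B : Fin N → Matrix (Fin n) (Fin n) ℂ}
    {ξ : Fin N → ℂ} (hξ : ξ ≠ 0) (P : Finset (Fin N → ℂ))
    (hP : ∀ x ∈ P, NondegCrit (detf B0 B) ξ x) :
    P.card ≤ (Bal (ea (N := N) (n := n)) eb (dd N n)).card := by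
  classical
  rcases P.eq_empty_or_nonempty with rfl | hne
  · simp
  -- data at each point
  have hdata : ∀ x ∈ P, ∃ (w v : Fin n → ℂ) (q p : Fin n) (l : ℂ),
      Corank1 (bmat B0 B x) w v q p ∧ l ≠ 0 ∧ (∀ θ, v ⬝ᵥ (blin B θ *ᵥ w) = l * (ξ ⬝ᵥ θ)) ∧
      ∀ (dx : Fin N → ℂ) (dl : ℂ), ξ ⬝ᵥ dx = 0 →
        (∀ θ, (adjD (bmat B0 B x) (blin B dx) * blin B θ).trace = dl * (ξ ⬝ᵥ θ)) → dx = 0 := by
    intro x hx
    obtain ⟨l, hl, hgr⟩ := (hP x hx).crit
    have hgr' : ∀ θ, (adjugate (bmat B0 B x) * blin B θ).trace = l * (ξ ⬝ᵥ θ) := by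
      intro θ; rw [← fderiv_detf]; exact hgr θ
    have hadj : adjugate (bmat B0 B x) ≠ 0 := by
      intro h0
      have h1 : ∀ θ, ξ ⬝ᵥ θ = 0 := by
        intro θ
        have h2 := hgr' θ
        rw [h0, Matrix.zero_mul, Matrix.trace_zero] at h2
        exact (mul_eq_zero.1 h2.symm).resolve_left hl
      apply hξ
      ext i
      simpa using h1 (Pi.single i 1)
    obtain ⟨w, v, q, p, hc⟩ := exists_corank1 (hP x hx).zero hadj
    refine ⟨w, v, q, p, l, hc, hl, fun θ => ?_, fun dx dl h1 h2 => ?_⟩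
    · rw [← trace_vecMulVec_mul, ← hc.adj]; exact hgr' θ
    · refine (hP x hx).nondeg dx dl ?_ ?_
      · rw [hgr dx, h1, mul_zero]
      · intro θ
        rw [fderiv_fderiv_detf]
        exact h2 θ
  choose! w v q p l hc hl hgrad hnd using hdata
  -- the functional
  have hwne : ∀ x ∈ P, w x ≠ 0 := by
    intro x hx h0
    apply (hc x hx).wq
    rw [h0]; rfl
  obtain ⟨ψ, hψ⟩ := exists_functional_ne P w hwne
  have hψ0 : ψ ≠ 0 := by
    obtain ⟨x, hx⟩ := hne
    intro h0
    apply hψ x hx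
    rw [h0]; simp
  obtain ⟨u, hu0, huspan⟩ := exists_hyperplane_basis ψ hψ0
  obtain ⟨θ', hθ0, hθspan⟩ := exists_hyperplane_basis ξ hξ
  -- dimensions
  have hn : 1 ≤ n := by
    obtain ⟨x, hx⟩ := hne
    have := (q x hx).2
    omega
  have hN : 1 ≤ N := by
    by_contra hcon
    have : N = 0 := by omega
    subst this
    exact hξ (funext fun i => i.elim0)
  have hdim : ∑ g, dd N n g = Fintype.card (Eqn N n) + Fintype.card Grp := by
    have h1 : (Finset.univ : Finset Grp) = {.y, .v, .w} := rfl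
    rw [h1, Finset.sum_insert (by decide), Finset.sum_insert (by decide), Finset.sum_singleton]
    simp only [dd, Fintype.card_sum, Fintype.card_fin]
    have h2 : Fintype.card Grp = 3 := rfl
    rw [h2]
    omega
  have hab : ∀ e : Eqn N n, ea e ≠ eb e := by
    rintro (r | r | r) <;> simp [ea, eb]
  -- the family
  let e := P.equivFin
  let Z : Fin P.card → Idx (dd N n) → ℂ := fun s =>
    pt (e.symm s : Fin N → ℂ) (v (e.symm s)) (w (e.symm s))
  have hsimple : ∀ s, IsSimple (TT B0 B u fun r => blin B (θ' r)) (Z s) := by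
    intro s
    have hx := (e.symm s).2
    exact isSimple_TT hξ hθ0 hθspan hu0 huspan (hc _ hx) (hψ _ hx) (hl _ hx) (hgrad _ hx)
      (hnd _ hx)
  have hdist : ∀ s s', s ≠ s' → Dist (Z s) (Z s') := by
    intro s s' hss
    have hne' : (e.symm s : Fin N → ℂ) ≠ e.symm s' := fun h =>
      hss (e.symm.injective (Subtype.ext h))
    obtain ⟨i, hi⟩ := Function.ne_iff.1 hne'
    refine ⟨.y, (0 : Fin (N + 1)), i.succ, ?_⟩
    simp only [Z, pt, Fin.cons_zero, Fin.cons_succ, one_mul, mul_one]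
    exact fun h => hi h.symm
  exact simple_card_le hab hdim (supp_TT B0 B u _) Z hsimple hdist

end Crest.Agent.DetCrit
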