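import Crest.Agent.Lib.DetCrit.Persist
import Crest.Agent.Lib.DetCrit.BalCount
import Crest.Prelude.Def_DetComplexity

/-!
# The determinantal side of the critical point method

If a polynomial `g` is a coefficientwise limit of determinants of affine matrices of size `n`,
and a linear form `ξ ≠ 0` has a finite set `P` of nondegenerate critical points on the zero set of
`g ∘ aff` for an affine map `aff` from `ℂ^N`, then `|P| · N! ≤ C(2N-1, N) n^N`.
-/

open Filter Topology Matrix MvPolynomial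
open Crest.LogicCS.DetComplexity

set_option linter.unusedSectionVars false

namespace Crest.Agent.DetCrit

variable {ι : Type} [Fintype ι] {N : ℕ}

/-- The affine map. -/
noncomputable def aff (a₀ : ι → ℂ) (a : Fin N → ι → ℂ) (x : Fin N → ℂ) (v : ι) : ℂ :=
  a₀ v + ∑ i, x i * a i v

/-- The polynomial `g` pulled back along the affine map, as a function. -/
noncomputable def polyf (g : MvPolynomial ι ℂ) (a₀ : ι → ℂ) (a : Fin N → ι → ℂ)
    (x : Fin N → ℂ) : ℂ := eval (aff a₀ a x) g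

/-- The basic functions: monomials pulled back along the affine map. -/
noncomputable def monoFn (a₀ : ι → ℂ) (a : Fin N → ι → ℂ) (s : ι →₀ ℕ) (x : Fin N → ℂ) : ℂ :=
  ∏ v, (aff a₀ a x v) ^ s v

theorem contDiff_monoFn (a₀ : ι → ℂ) (a : Fin N → ι → ℂ) (s : ι →₀ ℕ) :
    ContDiff ℂ 2 (monoFn a₀ a s) := by
  unfold monoFn aff
  refine contDiff_prod fun v _ => ContDiff.pow ?_ _
  fun_prop

theorem totalDegree_det_affine_le (n : ℕ) (A₀ : Matrix (Fin n) (Fin n) ℂ)
    (A : ι → Matrix (Fin n) (Fin n) ℂ) : (affineMatrix n A₀ A).det.totalDegree ≤ n := by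
  classical
  rw [Matrix.det_apply']
  refine (totalDegree_finsetSum _ _).trans (Finset.sup_le fun σ _ => ?_)
  refine (totalDegree_mul _ _).trans ?_
  have h1 : (((Equiv.Perm.sign σ : ℤ) : MvPolynomial ι ℂ)).totalDegree = 0 := by
    have : ((Equiv.Perm.sign σ : ℤ) : MvPolynomial ι ℂ) = C ((Equiv.Perm.sign σ : ℤ) : ℂ) := by
      simp
    rw [this, totalDegree_C]
  rw [h1, zero_add]
  refine (totalDegree_finsetProd _ _).trans ?_
  have h2 : ∀ i : Fin n, (affineMatrix n A₀ A (σ i) i).totalDegree ≤ 1 := by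
    intro i
    simp only [affineMatrix, Matrix.of_apply]
    refine (totalDegree_add _ _).trans (max_le (by simp) ?_)
    refine (totalDegree_finsetSum _ _).trans (Finset.sup_le fun v _ => ?_)
    refine (totalDegree_mul _ _).trans ?_
    simp only [totalDegree_C, zero_add]
    rw [totalDegree_X]
  calc ∑ i, (affineMatrix n A₀ A (σ i) i).totalDegree ≤ ∑ _i : Fin n, 1 :=
        Finset.sum_le_sum fun i _ => h2 i
    _ = n := by simp

theorem eval_det_affine (n : ℕ) (A₀ : Matrix (Fin n) (Fin n) ℂ)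
    (A : ι → Matrix (Fin n) (Fin n) ℂ) (a₀ : ι → ℂ) (a : Fin N → ι → ℂ) (x : Fin N → ℂ) :
    eval (aff a₀ a x) (affineMatrix n A₀ A).det =
      detf (A₀ + ∑ v, a₀ v • A v) (fun i => ∑ v, a i v • A v) x := by
  classical
  rw [RingHom.map_det]
  unfold detf
  congr 1
  ext p q
  simp only [RingHom.mapMatrix_apply, Matrix.map_apply, affineMatrix, Matrix.of_apply, map_add,
    eval_C, map_sum, map_mul, eval_X, bmat, blin, Matrix.add_apply, Matrix.sum_apply,
    Matrix.smul_apply, smul_eq_mul, aff]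
  rw [add_assoc]
  congr 1
  have : ∀ v, A v p q * (a₀ v + ∑ i, x i * a i v) =
      a₀ v * A v p q + ∑ i, x i * (a i v * A v p q) := by
    intro v
    rw [mul_add, Finset.mul_sum, mul_comm]
    congr 1
    refine Finset.sum_congr rfl fun i _ => ?_
    ring
  rw [Finset.sum_congr rfl fun v _ => this v, Finset.sum_add_distrib]
  congr 1
  rw [Finset.sum_comm]
  refine Finset.sum_congr rfl fun i _ => ?_
  rw [Finset.mul_sum]

/-- The determinantal side for limits, in the form of a count. -/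
theorem det_side (g : MvPolynomial ι ℂ) (n : ℕ) (hN : 1 ≤ N) (hg : IsDetLimit g n)
    (a₀ : ι → ℂ) (a : Fin N → ι → ℂ) (ξ : Fin N → ℂ) (hξ : ξ ≠ 0) (P : Finset (Fin N → ℂ))
    (hP : ∀ x ∈ P, NondegCrit (polyf g a₀ a) ξ x) :
    P.card * N.factorial ≤ (2 * N - 1).choose N * n ^ N := by
  classical
  obtain ⟨A₀, A, hlim⟩ := hg
  set q : ℕ → MvPolynomial ι ℂ := fun k => (affineMatrix n (A₀ k) (A k)).det with hq
  -- the monomials
  set D : ℕ := max n g.totalDegree with hD
  set M : Finset (ι →₀ ℕ) :=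
    (Fintype.piFinset fun _ : ι => Finset.range (D + 1)).image
      (Finsupp.equivFunOnFinite.symm) with hM
  have hmem : ∀ s : ι →₀ ℕ, s.sum (fun _ e => e) ≤ D → s ∈ M := by
    intro s hs
    rw [hM, Finset.mem_image]
    refine ⟨s, ?_, ?_⟩
    · rw [Fintype.mem_piFinset]
      intro v
      rw [Finset.mem_range]
      have : s v ≤ s.sum (fun _ e => e) := by
        by_cases hv : v ∈ s.support
        · rw [Finsupp.sum]
          exact Finset.single_le_sum (f := fun i => s i) (fun _ _ => Nat.zero_le _) hv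
        · rw [Finsupp.notMem_support_iff] at hv
          simp [hv]
      omega
    · ext v; simp
  have hsupp : ∀ p : MvPolynomial ι ℂ, p.totalDegree ≤ D → p.support ⊆ M := by
    intro p hp s hs
    exact hmem s ((le_totalDegree hs).trans hp)
  have heval : ∀ (p : MvPolynomial ι ℂ), p.totalDegree ≤ D → ∀ z : ι → ℂ,
      eval z p = ∑ s : M, coeff s.1 p * ∏ v, z v ^ s.1 v := by
    intro p hp z
    rw [eval_eq', Finset.sum_coe_sort M (fun s => coeff s p * ∏ v, z v ^ s v)]
    refine Finset.sum_subset (hsupp p hp) fun s _ hs => ?_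
    rw [mem_support_iff, not_not] at hs
    simp [hs]
  -- the functions
  let h : M → (Fin N → ℂ) → ℂ := fun s => monoFn a₀ a s.1
  have hh : ∀ s, ContDiff ℂ 2 (h s) := fun s => contDiff_monoFn a₀ a s.1
  let c : ℕ → M → ℂ := fun k s => coeff s.1 (q k)
  let c₀ : M → ℂ := fun s => coeff s.1 g
  have hc : Tendsto c atTop (𝓝 c₀) := by
    rw [tendsto_pi_nhds]
    intro s
    exact hlim s.1
  have hfc₀ : fc h c₀ = polyf g a₀ a := by
    funext x
    simp only [fc, polyf, c₀, h, monoFn]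
    rw [heval g (le_max_right _ _)]
  have hfc : ∀ k, fc h (c k) = detf (A₀ k + ∑ v, a₀ v • A k v) (fun i => ∑ v, a i v • A k v) := by
    intro k
    funext x
    rw [← eval_det_affine]
    simp only [fc, c, h, monoFn]
    rw [heval (q k) ((totalDegree_det_affine_le n _ _).trans (le_max_left _ _))]
  -- persistence at each point
  have hdata : ∀ x ∈ P, ∃ G : (M → ℂ) → Fin N → ℂ, Tendsto G (𝓝 c₀) (𝓝 x) ∧
      ∀ᶠ e in 𝓝 c₀, NondegCrit (fc h e) ξ (G e) := by
    intro x hx
    refine crit_persist hh hξ ?_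
    rw [hfc₀]
    exact hP x hx
  choose! G hG1 hG2 using hdata
  have hev1 : ∀ᶠ k in atTop, ∀ x ∈ P, NondegCrit (fc h (c k)) ξ (G x (c k)) := by
    rw [Filter.eventually_all_finset]
    intro x hx
    exact hc.eventually (hG2 x hx)
  have hev2 : ∀ᶠ k in atTop, ∀ x ∈ P, ∀ y ∈ P, x ≠ y → G x (c k) ≠ G y (c k) := by
    rw [Filter.eventually_all_finset]
    intro x hx
    rw [Filter.eventually_all_finset]
    intro y hy
    by_cases hxy : x = y
    · exact Eventually.of_forall fun _ hne => absurd hxy hne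
    · obtain ⟨u, v, hu, hv, hxu, hyv, huv⟩ := t2_separation hxy
      have h1 := ((hG1 x hx).comp hc).eventually (hu.mem_nhds hxu)
      have h2 := ((hG1 y hy).comp hc).eventually (hv.mem_nhds hyv)
      filter_upwards [h1, h2] with k hk1 hk2 _ heq
      simp only [Function.comp] at hk1 hk2
      rw [heq] at hk1
      exact Set.disjoint_left.1 huv hk1 hk2
  obtain ⟨k, hk1, hk2⟩ := (hev1.and hev2).exists
  -- the image
  let Q : Finset (Fin N → ℂ) := P.image fun x => G x (c k)
  have hQ : Q.card = P.card := by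
    refine Finset.card_image_of_injOn fun x hx y hy hxy => ?_
    by_contra hne
    exact hk2 x hx y hy hne hxy
  have hQ' : ∀ y ∈ Q, NondegCrit (detf (A₀ k + ∑ v, a₀ v • A k v)
      (fun i => ∑ v, a i v • A k v)) ξ y := by
    intro y hy
    obtain ⟨x, hx, rfl⟩ := Finset.mem_image.1 hy
    rw [← hfc k]
    exact hk1 x hx
  have hfin := det_exact_card_le hξ Q hQ'
  rw [hQ] at hfin
  exact (Nat.mul_le_mul_right _ hfin).trans (card_Bal_mul_factorial_le n N hN)

/-- The determinantal side in real form. -/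
theorem det_side_real (g : MvPolynomial ι ℂ) (n : ℕ) (hN : 1 ≤ N) (hg : IsDetLimit g n)
    (a₀ : ι → ℂ) (a : Fin N → ι → ℂ) (ξ : Fin N → ℂ) (hξ : ξ ≠ 0) (P : Finset (Fin N → ℂ))
    (hP : ∀ x ∈ P, NondegCrit (polyf g a₀ a) ξ x) :
    (N : ℝ) * ((P.card : ℝ) ^ (1 / (N : ℝ))) / (4 * Real.exp 1) ≤ n := by
  have hmain := det_side g n hN hg a₀ a ξ hξ P hP
  have hNpos : (0 : ℝ) < N := by exact_mod_cast hN
  have he : (0 : ℝ) < Real.exp 1 := Real.exp_pos 1
  -- the central binomial coefficient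
  have h4 : (2 * N - 1).choose N ≤ 4 ^ N := by
    have h5 : (2 * N - 1).choose N ≤ 2 ^ (2 * N - 1) := Nat.choose_le_two_pow _ _
    have h6 : 2 ^ (2 * N - 1) ≤ 2 ^ (2 * N) := Nat.pow_le_pow_right (by norm_num) (by omega)
    have h7 : (2 : ℕ) ^ (2 * N) = 4 ^ N := by rw [pow_mul]; norm_num
    omega
  -- the factorial
  have hfac : (N : ℝ) ^ N / (N.factorial : ℝ) ≤ Real.exp N :=
    Real.pow_div_factorial_le_exp _ hNpos.le _
  have hfpos : (0 : ℝ) < N.factorial := by exact_mod_cast Nat.factorial_pos N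
  have hfac' : ((N : ℝ) / Real.exp 1) ^ N ≤ N.factorial := by
    rw [div_pow, ← Real.exp_nat_mul, mul_one, div_le_iff₀ (Real.exp_pos _)]
    rw [div_le_iff₀ hfpos] at hfac
    linarith
  have hmain' : (P.card : ℝ) * ((N : ℝ) / Real.exp 1) ^ N ≤ (4 * (n : ℝ)) ^ N := by
    have h8 : ((P.card * N.factorial : ℕ) : ℝ) ≤ (((2 * N - 1).choose N * n ^ N : ℕ) : ℝ) := by
      exact_mod_cast hmain
    push_cast at h8
    have h9 : (((2 * N - 1).choose N : ℕ) : ℝ) ≤ 4 ^ N := by exact_mod_cast h4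
    calc (P.card : ℝ) * ((N : ℝ) / Real.exp 1) ^ N ≤ P.card * N.factorial := by gcongr
      _ ≤ ((2 * N - 1).choose N : ℝ) * n ^ N := h8
      _ ≤ 4 ^ N * n ^ N := by gcongr
      _ = (4 * (n : ℝ)) ^ N := by rw [mul_pow]
  -- roots
  have hNne : (N : ℝ) ≠ 0 := hNpos.ne'
  set r : ℝ := (P.card : ℝ) ^ (1 / (N : ℝ)) with hr
  have hr0 : 0 ≤ r := Real.rpow_nonneg (Nat.cast_nonneg _) _
  have hrN : r ^ N = P.card := by
    rw [hr, ← Real.rpow_natCast, ← Real.rpow_mul (Nat.cast_nonneg _), one_div,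
      inv_mul_cancel₀ hNne, Real.rpow_one]
  have hroot : r * ((N : ℝ) / Real.exp 1) ≤ 4 * n := by
    have h10 : (r * ((N : ℝ) / Real.exp 1)) ^ N ≤ (4 * (n : ℝ)) ^ N := by
      rw [mul_pow, hrN]
      exact hmain'
    exact le_of_pow_le_pow_left₀ (by omega) (by positivity) h10
  rw [div_le_iff₀ (by positivity)]
  have h11 : r * ((N : ℝ) / Real.exp 1) = (N : ℝ) * r / Real.exp 1 := by ring
  rw [h11, div_le_iff₀ he] at hroot
  linarith

/-- The form used for the permanent. -/
theorem det_side_perm (m n : ℕ) (hN : 1 ≤ N) (hg : IsDetLimit (permPoly m) n)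
    (a₀ : Fin m × Fin m → ℂ) (a : Fin N → Fin m × Fin m → ℂ) (ξ : Fin N → ℂ) (hξ : ξ ≠ 0)
    (P : Finset (Fin N → ℂ)) (hP : ∀ x ∈ P, NondegCrit (polyf (permPoly m) a₀ a) ξ x)
    (hbig : (m : ℝ) ^ 3 / 1382400 ≤ (N : ℝ) * ((P.card : ℝ) ^ (1 / (N : ℝ)))) :
    (m : ℝ) ^ 3 / (5529600 * Real.exp 1) ≤ n := by
  have h1 := det_side_real (permPoly m) n hN hg a₀ a ξ hξ P hP
  have he : (0 : ℝ) < Real.exp 1 := Real.exp_pos 1
  refine le_trans ?_ h1
  have h2 : (m : ℝ) ^ 3 / (5529600 * Real.exp 1) = ((m : ℝ) ^ 3 / 1382400) / (4 * Real.exp 1) := by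
    field_simp
    ring
  rw [h2]
  gcongr

end Crest.Agent.DetCrit
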