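import Mathlib

/-!
# Multigraded pieces of a polynomial ring and the product recurrence

Elementary proof of the multihomogeneous Bezout inequality, part 1: the multigraded pieces `M d`
of `ℂ[X_i]` (variables partitioned in groups by `gr`), graded families of subspaces generated by a
set of forms, the codimension bound and the recurrence
`h(J, l l'; d) ≤ h(J, l; d - e') + h(J, l'; d)`.
-/

set_option autoImplicit false

namespace Crest.Agent.DetCrit

open MvPolynomial

variable {ι G : Type} [Fintype ι] [DecidableEq ι] [Fintype G] [DecidableEq G]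

local notation "R" => MvPolynomial ι ℂ

/-- The linear forms of group `g`. -/
noncomputable def L (gr : ι → G) (g : G) : Submodule ℂ (MvPolynomial ι ℂ) :=
  Submodule.span ℂ ((fun i => (X i : MvPolynomial ι ℂ)) '' {i | gr i = g})

/-- The multigraded piece of multidegree `d`. -/
noncomputable def M (gr : ι → G) (d : G → ℕ) : Submodule ℂ (MvPolynomial ι ℂ) :=
  ∏ g, L gr g ^ d g

lemma M_add (gr : ι → G) (d e : G → ℕ) : M gr (d + e) = M gr d * M gr e := by
  simp [M, pow_add, Finset.prod_mul_distrib]

lemma M_zero (gr : ι → G) : M gr 0 = 1 := by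
  simp [M]

lemma M_single (gr : ι → G) (g : G) : M gr (Pi.single g 1) = L gr g := by
  classical
  unfold M
  rw [Finset.prod_eq_single g]
  · simp
  · intro b _ hb
    simp [Pi.single_apply, hb]
  · simp

lemma L_fg (gr : ι → G) (g : G) : (L gr g).FG :=
  ⟨(Finset.univ.filter (fun i => gr i = g)).image (fun i => (X i : MvPolynomial ι ℂ)), by
    unfold L
    congr 1
    ext x
    simp⟩

lemma M_fg (gr : ι → G) (d : G → ℕ) : (M gr d).FG := by
  classical
  unfold M
  refine Finset.induction_on (Finset.univ : Finset G) ?_ ?_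
  · rw [Finset.prod_empty, Submodule.one_eq_span]
    exact Submodule.fg_span_singleton _
  · intro a s ha hs
    rw [Finset.prod_insert ha]
    exact ((L_fg gr a).pow _).mul hs

instance M_finite (gr : ι → G) (d : G → ℕ) : FiniteDimensional ℂ (M gr d) :=
  Module.Finite.iff_fg.mpr (M_fg gr d)

lemma mul_mem_M {gr : ι → G} {d e : G → ℕ} {x y : MvPolynomial ι ℂ}
    (hx : x ∈ M gr d) (hy : y ∈ M gr e) : x * y ∈ M gr (d + e) := by
  rw [M_add]; exact Submodule.mul_mem_mul hx hy

/-- The piece of multidegree `d` of the graded subspace generated by the form `q.1` of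
multidegree `q.2`. -/
noncomputable def term (gr : ι → G) (q : MvPolynomial ι ℂ × (G → ℕ)) (d : G → ℕ) :
    Submodule ℂ (MvPolynomial ι ℂ) :=
  open Classical in
  if q.2 ≤ d then Submodule.span ℂ {q.1} * M gr (d - q.2) else ⊥

/-- The piece of multidegree `d` of the graded subspace generated by a set of forms. -/
noncomputable def J (gr : ι → G) (A : Set (MvPolynomial ι ℂ × (G → ℕ))) (d : G → ℕ) :
    Submodule ℂ (MvPolynomial ι ℂ) :=
  ⨆ q ∈ A, term gr q d

lemma J_insert (gr : ι → G) (q : MvPolynomial ι ℂ × (G → ℕ))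
    (A : Set (MvPolynomial ι ℂ × (G → ℕ))) (d : G → ℕ) :
    J gr (insert q A) d = term gr q d ⊔ J gr A d := by
  unfold J
  rw [iSup_insert]

lemma term_le_J {gr : ι → G} {q : MvPolynomial ι ℂ × (G → ℕ)}
    {A : Set (MvPolynomial ι ℂ × (G → ℕ))} (hq : q ∈ A) (d : G → ℕ) :
    term gr q d ≤ J gr A d :=
  le_iSup₂_of_le q hq le_rfl

lemma mul_mem_term {gr : ι → G} {f : MvPolynomial ι ℂ} {e d : G → ℕ} (h : e ≤ d)
    {y : MvPolynomial ι ℂ} (hy : y ∈ M gr (d - e)) : f * y ∈ term gr (f, e) d := by
  classical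
  simp only [term, h, if_true]
  exact Submodule.mul_mem_mul (Submodule.mem_span_singleton_self f) hy

lemma mem_term_iff {gr : ι → G} {f : MvPolynomial ι ℂ} {e d : G → ℕ} (h : e ≤ d)
    {x : MvPolynomial ι ℂ} : x ∈ term gr (f, e) d ↔ ∃ y ∈ M gr (d - e), f * y = x := by
  classical
  simp only [term, h, if_true]
  constructor
  · intro hx
    rw [Submodule.mem_span_singleton_mul] at hx
    exact hx
  · rw [Submodule.mem_span_singleton_mul]
    exact id

lemma term_le_M {gr : ι → G} {q : MvPolynomial ι ℂ × (G → ℕ)} (hq : q.1 ∈ M gr q.2) (d : G → ℕ) :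
    term gr q d ≤ M gr d := by
  classical
  unfold term
  split_ifs with h
  · rw [Submodule.mul_le]
    intro a ha b hb
    rw [Submodule.mem_span_singleton] at ha
    obtain ⟨c, rfl⟩ := ha
    have : M gr d = M gr q.2 * M gr (d - q.2) := by
      rw [← M_add, add_tsub_cancel_of_le h]
    rw [this]
    exact Submodule.smul_mem _ c (Submodule.mul_mem_mul hq hb) |> fun h' => by
      simpa [smul_mul_assoc] using h'
  · exact bot_le

/-- Validity of a set of forms. -/
def Valid (gr : ι → G) (A : Set (MvPolynomial ι ℂ × (G → ℕ))) : Prop :=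
  ∀ q ∈ A, q.1 ∈ M gr q.2

lemma J_le_M {gr : ι → G} {A : Set (MvPolynomial ι ℂ × (G → ℕ))} (hA : Valid gr A) (d : G → ℕ) :
    J gr A d ≤ M gr d :=
  iSup₂_le fun q hq => term_le_M (hA q hq) d

instance J_finite {gr : ι → G} {A : Set (MvPolynomial ι ℂ × (G → ℕ))} [hA : Fact (Valid gr A)]
    (d : G → ℕ) : FiniteDimensional ℂ (J gr A d) :=
  Submodule.finiteDimensional_of_le (J_le_M hA.out d)

lemma mul_term_le (gr : ι → G) (q : MvPolynomial ι ℂ × (G → ℕ)) (e d : G → ℕ) :
    M gr e * term gr q d ≤ term gr q (e + d) := by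
  classical
  unfold term
  by_cases h : q.2 ≤ d
  · have h' : q.2 ≤ e + d := le_trans h le_add_self
    simp only [h, h', if_true]
    rw [Submodule.mul_le]
    intro a ha b hb
    rw [Submodule.mem_span_singleton_mul] at hb ⊢
    obtain ⟨y, hy, rfl⟩ := hb
    refine ⟨a * y, ?_, by ring⟩
    have : e + d - q.2 = e + (d - q.2) := by
      rw [add_tsub_assoc_of_le h]
    rw [this]
    exact mul_mem_M ha hy
  · simp [h]

lemma mul_J_le (gr : ι → G) (A : Set (MvPolynomial ι ℂ × (G → ℕ))) (e d : G → ℕ) :
    M gr e * J gr A d ≤ J gr A (e + d) := by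
  unfold J
  simp only [Submodule.mul_iSup]
  exact iSup₂_mono fun q _ => mul_term_le gr q e d

/-- `CodimLe gr A d B`: the graded subspace generated by `A` has codimension at most `B` in
multidegree `d`. -/
def CodimLe (gr : ι → G) (A : Set (MvPolynomial ι ℂ × (G → ℕ))) (d : G → ℕ) (B : ℕ) : Prop :=
  Module.finrank ℂ (M gr d) ≤ Module.finrank ℂ (J gr A d) + B

/-- Rank of the restriction of a linear map to a subspace. -/
lemma finrank_map_add_inf_ker {V : Type} [AddCommGroup V] [Module ℂ V] (φ : V →ₗ[ℂ] V)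
    (S : Submodule ℂ V) [FiniteDimensional ℂ S] :
    Module.finrank ℂ (S.map φ) + Module.finrank ℂ (S ⊓ LinearMap.ker φ : Submodule ℂ V)
      = Module.finrank ℂ S := by
  have h := LinearMap.finrank_range_add_finrank_ker (φ.domRestrict S)
  rw [LinearMap.range_domRestrict] at h
  have h2 : Module.finrank ℂ (LinearMap.ker (φ.domRestrict S))
      = Module.finrank ℂ (S ⊓ LinearMap.ker φ : Submodule ℂ V) := by
    rw [LinearMap.ker_domRestrict]
    exact (Submodule.comapSubtypeEquivOfLe (p := S ⊓ LinearMap.ker φ) (q := S)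
      inf_le_left).symm.finrank_eq |> fun h' => by
        have e : Submodule.comap S.subtype (LinearMap.ker φ)
            = Submodule.comap S.subtype (S ⊓ LinearMap.ker φ) := by
          ext x
          simp
        rw [e]
        exact h'.symm.symm ▸ rfl
  rw [h2] at h
  exact h

/-- The linear algebra of the recurrence. -/
lemma la1 {V : Type} [AddCommGroup V] [Module ℂ V] (φ : V →ₗ[ℂ] V)
    (N N₁ U₀ U₂ : Submodule ℂ V) [FiniteDimensional ℂ N] [FiniteDimensional ℂ U₀]
    (h₁ : N₁ ≤ N) (h₂ : N₁.map φ ≤ U₀) (h₃ : U₂ ≤ U₀ ⊔ N.map φ) :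
    Module.finrank ℂ U₂ + Module.finrank ℂ N₁ ≤ Module.finrank ℂ U₀ + Module.finrank ℂ N := by
  classical
  set W := N.map φ with hW
  haveI : FiniteDimensional ℂ W := by rw [hW]; infer_instance
  set K : Submodule ℂ V := N ⊓ U₀.comap φ with hK
  haveI : FiniteDimensional ℂ K := Submodule.finiteDimensional_of_le inf_le_left
  haveI : FiniteDimensional ℂ N₁ := Submodule.finiteDimensional_of_le h₁
  haveI : FiniteDimensional ℂ (U₀ ⊔ W : Submodule ℂ V) := inferInstance
  have hKmap : K.map φ = U₀ ⊓ W := by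
    ext x
    simp only [Submodule.mem_map, Submodule.mem_inf, hK, hW, Submodule.mem_comap]
    constructor
    · rintro ⟨y, ⟨hy1, hy2⟩, rfl⟩
      exact ⟨hy2, y, hy1, rfl⟩
    · rintro ⟨hx, y, hy, rfl⟩
      exact ⟨y, ⟨hy, hx⟩, rfl⟩
  have r1 := finrank_map_add_inf_ker φ N
  have r2 := finrank_map_add_inf_ker φ K
  have e : K ⊓ LinearMap.ker φ = N ⊓ LinearMap.ker φ := by
    ext x
    simp only [hK, Submodule.mem_inf, Submodule.mem_comap, LinearMap.mem_ker]
    constructor
    · rintro ⟨⟨h1, _⟩, h3⟩
      exact ⟨h1, h3⟩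
    · rintro ⟨h1, h3⟩
      exact ⟨⟨h1, by rw [h3]; exact U₀.zero_mem⟩, h3⟩
  rw [e, hKmap] at r2
  have h4 : Module.finrank ℂ N₁ ≤ Module.finrank ℂ K :=
    Submodule.finrank_mono (le_inf h₁ (Submodule.map_le_iff_le_comap.mp h₂))
  have h5 := Submodule.finrank_sup_add_finrank_inf_eq U₀ W
  have h6 : Module.finrank ℂ U₂ ≤ Module.finrank ℂ (U₀ ⊔ W : Submodule ℂ V) :=
    Submodule.finrank_mono h₃
  rw [← hW] at r1
  omega

/-- The product recurrence. -/
theorem codim_rec {gr : ι → G} {A : Set (MvPolynomial ι ℂ × (G → ℕ))} (hA : Valid gr A)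
    {l l' : MvPolynomial ι ℂ} {e e' d : G → ℕ} (hl : l ∈ M gr e) (hl' : l' ∈ M gr e')
    (hd : e + e' ≤ d) {B₁ B₂ : ℕ}
    (h₁ : CodimLe gr (insert (l, e) A) (d - e') B₁)
    (h₂ : CodimLe gr (insert (l', e') A) d B₂) :
    CodimLe gr (insert (l * l', e + e') A) d (B₁ + B₂) := by
  classical
  unfold CodimLe at *
  have he' : e' ≤ d := le_trans le_add_self hd
  have he : e ≤ d - e' := by
    rw [le_tsub_iff_right he']; exact hd
  have hA1 : Valid gr (insert (l, e) A) := by
    rintro q (rfl | hq)
    · exact hl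
    · exact hA q hq
  have hA2 : Valid gr (insert (l', e') A) := by
    rintro q (rfl | hq)
    · exact hl'
    · exact hA q hq
  have hA0 : Valid gr (insert (l * l', e + e') A) := by
    rintro q (rfl | hq)
    · exact mul_mem_M hl hl'
    · exact hA q hq
  let φ : MvPolynomial ι ℂ →ₗ[ℂ] MvPolynomial ι ℂ := LinearMap.mulLeft ℂ l'
  haveI h3 : FiniteDimensional ℂ (J gr (insert (l * l', e + e') A) d) :=
    Submodule.finiteDimensional_of_le (J_le_M hA0 d)
  suffices key : Module.finrank ℂ (J gr (insert (l', e') A) d)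
      + Module.finrank ℂ (J gr (insert (l, e) A) (d - e'))
      ≤ Module.finrank ℂ (J gr (insert (l * l', e + e') A) d)
        + Module.finrank ℂ (M gr (d - e')) by
    omega
  refine la1 φ (M gr (d - e')) (J gr (insert (l, e) A) (d - e'))
    (J gr (insert (l * l', e + e') A) d) (J gr (insert (l', e') A) d)
    (J_le_M hA1 _) ?_ ?_
  · -- map of N₁ lands in U₀
    rw [J_insert, Submodule.map_sup, sup_le_iff]
    constructor
    · rw [Submodule.map_le_iff_le_comap]
      intro x hx
      rw [mem_term_iff he] at hx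
      obtain ⟨y, hy, rfl⟩ := hx
      rw [Submodule.mem_comap]
      apply term_le_J (Set.mem_insert _ _)
      have e2 : d - e' - e = d - (e + e') := by
        rw [tsub_tsub, add_comm e' e]
      rw [e2] at hy
      have := mul_mem_term (gr := gr) (f := l * l') hd hy
      convert this using 1
      simp only [φ, LinearMap.mulLeft_apply]
      ring
    · rw [Submodule.map_le_iff_le_comap]
      intro x hx
      rw [Submodule.mem_comap]
      have h4 : φ x ∈ J gr A (e' + (d - e')) := by
        apply mul_J_le gr A e' (d - e')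
        exact Submodule.mul_mem_mul hl' hx
      rw [add_tsub_cancel_of_le he'] at h4
      rw [J_insert]
      exact Submodule.mem_sup_right h4
  · -- U₂ ≤ U₀ ⊔ map φ N
    rw [J_insert, sup_le_iff]
    constructor
    · intro x hx
      rw [mem_term_iff he'] at hx
      obtain ⟨y, hy, rfl⟩ := hx
      apply Submodule.mem_sup_right
      exact ⟨y, hy, rfl⟩
    · rw [J_insert]
      exact le_sup_of_le_left le_sup_right

/-! ### Base cases -/

lemma L_mul_le_J {gr : ι → G} {A : Set (MvPolynomial ι ℂ × (G → ℕ))} {g : G} {d : G → ℕ}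
    (hd : 1 ≤ d g) {s : MvPolynomial ι ℂ}
    (hs : s ∈ Submodule.span ℂ {f | (f, (Pi.single g 1 : G → ℕ)) ∈ A})
    {h : MvPolynomial ι ℂ} (hh : h ∈ M gr (d - Pi.single g 1)) : s * h ∈ J gr A d := by
  classical
  have hle : (Pi.single g 1 : G → ℕ) ≤ d := by
    intro k
    by_cases hk : k = g
    · subst hk; simpa using hd
    · simp [Pi.single_apply, hk]
  induction hs using Submodule.span_induction with
  | mem f hf => exact term_le_J hf d (mul_mem_term hle hh)
  | zero => simp
  | add a b _ _ ha hb => rw [add_mul]; exact Submodule.add_mem _ ha hb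
  | smul c a _ ha => rw [smul_mul_assoc]; exact Submodule.smul_mem _ c ha

lemma M_eq_L_mul {gr : ι → G} {g : G} {d : G → ℕ} (hd : 1 ≤ d g) :
    M gr d = L gr g * M gr (d - Pi.single g 1) := by
  classical
  have hle : (Pi.single g 1 : G → ℕ) ≤ d := by
    intro k
    by_cases hk : k = g
    · subst hk; simpa using hd
    · simp [Pi.single_apply, hk]
  rw [← M_single, ← M_add, add_tsub_cancel_of_le hle]

/-- If the forms of `A` in group `g` span all linear forms of the group, the graded subspace is
everything in positive `g`-degree. -/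
theorem M_le_J_of_span {gr : ι → G} {A : Set (MvPolynomial ι ℂ × (G → ℕ))} {g : G} {d : G → ℕ}
    (hd : 1 ≤ d g)
    (hs : L gr g ≤ Submodule.span ℂ {f | (f, (Pi.single g 1 : G → ℕ)) ∈ A}) :
    M gr d ≤ J gr A d := by
  rw [M_eq_L_mul hd, Submodule.mul_le]
  intro a ha b hb
  exact L_mul_le_J hd (hs ha) hb

/-- The one-dimensional base case. -/
theorem M_le_span_sup_J {gr : ι → G} {A : Set (MvPolynomial ι ℂ × (G → ℕ))}
    (y : G → MvPolynomial ι ℂ) (hy : ∀ g, y g ∈ L gr g)
    (hs : ∀ g, L gr g ≤ Submodule.span ℂ {y g} ⊔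
      Submodule.span ℂ {f | (f, (Pi.single g 1 : G → ℕ)) ∈ A}) (k : ℕ) :
    ∀ d : G → ℕ, ∑ g, d g = k →
      M gr d ≤ Submodule.span ℂ {∏ g, y g ^ d g} ⊔ J gr A d := by
  classical
  induction k with
  | zero =>
    intro d hd
    have hd0 : d = 0 := by
      funext g
      have := (Finset.sum_eq_zero_iff.mp hd) g (Finset.mem_univ g)
      simpa using this
    subst hd0
    rw [M_zero, Submodule.one_eq_span]
    simp
  | succ k ih =>
    intro d hd
    obtain ⟨g, hg⟩ : ∃ g, 1 ≤ d g := by
      by_contra hcon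
      push_neg at hcon
      have : ∑ g, d g = 0 := Finset.sum_eq_zero fun g _ => by
        have := hcon g; omega
      omega
    have hle : (Pi.single g 1 : G → ℕ) ≤ d := by
      intro k
      by_cases hk : k = g
      · subst hk; simpa using hg
      · simp [Pi.single_apply, hk]
    set d' := d - Pi.single g 1 with hd'
    have hsum : ∑ g, d' g = k := by
      have h1 : d = d' + Pi.single g 1 := (tsub_add_cancel_of_le hle).symm
      have h2 : ∑ i, d i = ∑ i, d' i + 1 := by
        conv_lhs => rw [h1]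
        simp [Finset.sum_add_distrib, Pi.single_apply]
      omega
    have ih' := ih d' hsum
    rw [M_eq_L_mul hg, Submodule.mul_le]
    intro a ha b hb
    have hprod : y g * ∏ g, y g ^ d' g = ∏ g, y g ^ d g := by
      have h1 : d = Pi.single g 1 + d' := by
        rw [add_comm]; exact (tsub_add_cancel_of_le hle).symm
      conv_rhs => rw [h1]
      simp only [Pi.add_apply, pow_add, Finset.prod_mul_distrib]
      congr 1
      rw [Finset.prod_eq_single g]
      · simp
      · intro i _ hi
        simp [Pi.single_apply, hi]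
      · simp
    obtain ⟨a1, ha1, a2, ha2, rfl⟩ := Submodule.mem_sup.mp (hs g ha)
    obtain ⟨b1, hb1, b2, hb2, rfl⟩ := Submodule.mem_sup.mp (ih' hb)
    obtain ⟨c, rfl⟩ := Submodule.mem_span_singleton.mp ha1
    obtain ⟨c', rfl⟩ := Submodule.mem_span_singleton.mp hb1
    have hb' : c' • ∏ g, y g ^ d' g + b2 ∈ M gr d' := hb
    -- split
    have e : (c • y g + a2) * (c' • ∏ g, y g ^ d' g + b2)
        = (c * c') • ∏ g, y g ^ d g + c • (y g * b2)
          + a2 * (c' • ∏ g, y g ^ d' g + b2) := by
      rw [← hprod]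
      simp only [smul_eq_mul, MvPolynomial.smul_eq_C_mul, map_mul]
      ring
    rw [e]
    refine Submodule.add_mem _ (Submodule.add_mem _ ?_ ?_) ?_
    · exact Submodule.mem_sup_left (Submodule.smul_mem _ _ (Submodule.mem_span_singleton_self _))
    · apply Submodule.mem_sup_right
      apply Submodule.smul_mem
      have h3 : y g * b2 ∈ J gr A (Pi.single g 1 + d') := by
        apply mul_J_le
        rw [M_single]
        exact Submodule.mul_mem_mul (hy g) hb2
      have h1 : Pi.single g 1 + d' = d := by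
        rw [add_comm]; exact tsub_add_cancel_of_le hle
      rwa [h1] at h3
    · exact Submodule.mem_sup_right (L_mul_le_J hg ha2 hb')

theorem codimLe_of_span {gr : ι → G} {A : Set (MvPolynomial ι ℂ × (G → ℕ))} {g : G} {d : G → ℕ}
    (hA : Valid gr A) (hd : 1 ≤ d g)
    (hs : L gr g ≤ Submodule.span ℂ {f | (f, (Pi.single g 1 : G → ℕ)) ∈ A}) :
    CodimLe gr A d 0 := by
  unfold CodimLe
  haveI : FiniteDimensional ℂ (J gr A d) := Submodule.finiteDimensional_of_le (J_le_M hA d)
  simpa using Submodule.finrank_mono (M_le_J_of_span hd hs)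

theorem codimLe_one {gr : ι → G} {A : Set (MvPolynomial ι ℂ × (G → ℕ))} (d : G → ℕ)
    (hA : Valid gr A)
    (y : G → MvPolynomial ι ℂ) (hy : ∀ g, y g ∈ L gr g)
    (hs : ∀ g, L gr g ≤ Submodule.span ℂ {y g} ⊔
      Submodule.span ℂ {f | (f, (Pi.single g 1 : G → ℕ)) ∈ A}) :
    CodimLe gr A d 1 := by
  unfold CodimLe
  haveI : FiniteDimensional ℂ (J gr A d) := Submodule.finiteDimensional_of_le (J_le_M hA d)
  have h := Submodule.finrank_mono (M_le_span_sup_J y hy hs _ d rfl)
  have h2 := Submodule.finrank_add_le_finrank_add_finrank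
    (Submodule.span ℂ {∏ g, y g ^ d g}) (J gr A d)
  have h3 : Module.finrank ℂ (Submodule.span ℂ {∏ g, y g ^ d g}) ≤ 1 :=
    (finrank_span_le_card ({∏ g, y g ^ d g} : Set (MvPolynomial ι ℂ))).trans (by simp)
  omega

lemma CodimLe.mono {gr : ι → G} {A : Set (MvPolynomial ι ℂ × (G → ℕ))} {d : G → ℕ} {B B' : ℕ}
    (h : CodimLe gr A d B) (hB : B ≤ B') : CodimLe gr A d B' := by
  unfold CodimLe at *
  omega

/-! ### Vandermonde forms -/

/-- Number of variables of group `g`. -/
def cg (gr : ι → G) (g : G) : ℕ := Fintype.card {i // gr i = g}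

/-- The Vandermonde linear form of group `g` with node `t`. -/
noncomputable def vand (gr : ι → G) (g : G) (t : ℂ) : MvPolynomial ι ℂ :=
  ∑ i : {i // gr i = g}, (t ^ ((Fintype.equivFin {i // gr i = g} i : ℕ))) • (X i.1 : MvPolynomial ι ℂ)

lemma vand_mem (gr : ι → G) (g : G) (t : ℂ) : vand gr g t ∈ L gr g := by
  unfold vand
  refine Submodule.sum_mem _ fun i _ => Submodule.smul_mem _ _ ?_
  exact Submodule.subset_span ⟨i.1, i.2, rfl⟩

lemma L_le_span_vand (gr : ι → G) (g : G) (T : Finset ℂ) (hT : cg gr g ≤ T.card) :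
    L gr g ≤ Submodule.span ℂ ((vand gr g) '' (T : Set ℂ)) := by
  classical
  obtain ⟨T', hT', hcard⟩ := Finset.exists_subset_card_eq hT
  set c := cg gr g with hc
  let e : Fin c ≃ T' := (Fintype.equivFinOfCardEq (by simp [hcard])).symm
  let τ : Fin c → ℂ := fun k => (e k : ℂ)
  have hτ : Function.Injective τ := fun a b hab => e.injective (Subtype.ext hab)
  let V : Matrix (Fin c) (Fin c) ℂ := Matrix.vandermonde τ
  have hV : V.det ≠ 0 := Matrix.det_vandermonde_ne_zero_iff.mpr hτ
  haveI : Invertible V.det := invertibleOfNonzero hV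
  haveI : Invertible V := Matrix.invertibleOfDetInvertible V
  have hVV : V⁻¹ * V = 1 := Matrix.inv_mul_of_invertible V
  unfold L
  rw [Submodule.span_le]
  rintro _ ⟨i₀, hi₀, rfl⟩
  simp only [SetLike.mem_coe]
  let ε : {i // gr i = g} ≃ Fin c := Fintype.equivFin _
  have key : (X i₀ : MvPolynomial ι ℂ)
      = ∑ k, (V⁻¹ (ε ⟨i₀, hi₀⟩) k) • vand gr g (τ k) := by
    unfold vand
    simp only [Finset.smul_sum, smul_smul]
    rw [Finset.sum_comm]
    have : ∀ i : {i // gr i = g},
        ∑ k, (V⁻¹ (ε ⟨i₀, hi₀⟩) k * τ k ^ (ε i : ℕ)) • (X i.1 : MvPolynomial ι ℂ)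
          = ((1 : Matrix (Fin c) (Fin c) ℂ) (ε ⟨i₀, hi₀⟩) (ε i)) • (X i.1 : MvPolynomial ι ℂ) := by
      intro i
      rw [← Finset.sum_smul, ← hVV, Matrix.mul_apply]
      rfl
    refine Eq.trans ?_ (Finset.sum_congr rfl (fun i _ => (this i).symm))
    rw [Finset.sum_eq_single ⟨i₀, hi₀⟩]
    · simp
    · intro b _ hb
      have : ε ⟨i₀, hi₀⟩ ≠ ε b := fun h => hb (ε.injective h).symm
      simp [Matrix.one_apply, this]
    · simp
  rw [key]
  refine Submodule.sum_mem _ fun k _ => Submodule.smul_mem _ _ ?_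
  exact Submodule.subset_span ⟨τ k, hT' (e k).2, rfl⟩

/-! ### The special system -/

section Special

variable {E : Type} [Fintype E] [DecidableEq E]
variable (gr : ι → G) (g₁ g₂ : E → G) (t : E → ℂ)

/-- Forms of the partially resolved special system. -/
def chosen (U₁ U₂ Rm : Finset E) : Set (MvPolynomial ι ℂ × (G → ℕ)) :=
  {q | ∃ j ∈ U₁, q = (vand gr (g₁ j) (t j), Pi.single (g₁ j) 1)} ∪
  {q | ∃ j ∈ U₂, q = (vand gr (g₂ j) (t j), Pi.single (g₂ j) 1)} ∪
  {q | ∃ j ∈ Rm, q = (vand gr (g₁ j) (t j) * vand gr (g₂ j) (t j),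
      Pi.single (g₁ j) 1 + Pi.single (g₂ j) 1)}

lemma chosen_valid (U₁ U₂ Rm : Finset E) : Valid gr (chosen gr g₁ g₂ t U₁ U₂ Rm) := by
  rintro q ((⟨j, _, rfl⟩ | ⟨j, _, rfl⟩) | ⟨j, _, rfl⟩)
  · simp only [M_single]; exact vand_mem _ _ _
  · simp only [M_single]; exact vand_mem _ _ _
  · apply mul_mem_M <;> · simp only [M_single]; exact vand_mem _ _ _

/-- Number of chosen forms in group `g`. -/
def cnt (U₁ U₂ : Finset E) (g : G) : ℕ :=
  (U₁.filter (fun j => g₁ j = g)).card + (U₂.filter (fun j => g₂ j = g)).card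

/-- No group has received as many forms as it has variables. -/
def Good (U₁ U₂ : Finset E) : Prop := ∀ g, cnt g₁ g₂ U₁ U₂ g < cg gr g

noncomputable instance (U₁ U₂ : Finset E) : Decidable (Good gr g₁ g₂ U₁ U₂) := Classical.dec _

/-- The set of nodes of group `g`. -/
noncomputable def nodes (U₁ U₂ : Finset E) (g : G) : Finset ℂ :=
  (U₁.filter (fun j => g₁ j = g)).image t ∪ (U₂.filter (fun j => g₂ j = g)).image t

lemma nodes_card (ht : Function.Injective t) {U₁ U₂ : Finset E} (hU : Disjoint U₁ U₂) (g : G) :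
    (nodes g₁ g₂ t U₁ U₂ g).card = cnt g₁ g₂ U₁ U₂ g := by
  unfold nodes cnt
  rw [Finset.card_union_of_disjoint, Finset.card_image_of_injective _ ht,
    Finset.card_image_of_injective _ ht]
  rw [Finset.disjoint_left]
  intro x hx hx'
  simp only [Finset.mem_image, Finset.mem_filter] at hx hx'
  obtain ⟨a, ⟨ha, _⟩, rfl⟩ := hx
  obtain ⟨b, ⟨hb, _⟩, hab⟩ := hx'
  have := ht hab
  subst this
  exact (Finset.disjoint_left.mp hU) ha hb

lemma span_nodes_le (U₁ U₂ Rm : Finset E) (g : G) :
    Submodule.span ℂ ((vand gr g) '' (nodes g₁ g₂ t U₁ U₂ g : Set ℂ)) ≤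
      Submodule.span ℂ {f | (f, (Pi.single g 1 : G → ℕ)) ∈ chosen gr g₁ g₂ t U₁ U₂ Rm} := by
  apply Submodule.span_mono
  rintro _ ⟨x, hx, rfl⟩
  simp only [nodes, Finset.coe_union, Finset.coe_image, Set.mem_union, Set.mem_image,
    Finset.mem_coe, Finset.mem_filter] at hx
  rcases hx with ⟨j, ⟨hj, rfl⟩, rfl⟩ | ⟨j, ⟨hj, rfl⟩, rfl⟩
  · exact Or.inl (Or.inl ⟨j, hj, rfl⟩)
  · exact Or.inl (Or.inr ⟨j, hj, rfl⟩)

/-- The base of the recursion. -/
lemma base_case (ht : Function.Injective t) (tstar : ℂ) (hstar : ∀ j, t j ≠ tstar)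
    (hcard : Fintype.card E = ∑ g, (cg gr g - 1)) (hpos : ∀ g, 1 ≤ cg gr g)
    {U₁ U₂ : Finset E} (hU : Disjoint U₁ U₂) (hall : U₁ ∪ U₂ = Finset.univ)
    {d : G → ℕ} (hd : ∀ g, 1 ≤ d g) :
    CodimLe gr (chosen gr g₁ g₂ t U₁ U₂ ∅) d (if Good gr g₁ g₂ U₁ U₂ then 1 else 0) := by
  classical
  split_ifs with hgood
  · -- every count is exactly `cg - 1`
    have hsum : ∑ g, cnt g₁ g₂ U₁ U₂ g = ∑ g, (cg gr g - 1) := by
      rw [← hcard]
      have h1 : ∑ g, (U₁.filter (fun j => g₁ j = g)).card = U₁.card :=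
        (Finset.card_eq_sum_card_fiberwise (fun j _ => Finset.mem_univ _)).symm
      have h2 : ∑ g, (U₂.filter (fun j => g₂ j = g)).card = U₂.card :=
        (Finset.card_eq_sum_card_fiberwise (fun j _ => Finset.mem_univ _)).symm
      have h3 : U₁.card + U₂.card = Fintype.card E := by
        rw [← Finset.card_union_of_disjoint hU, hall, Finset.card_univ]
      simp only [cnt, Finset.sum_add_distrib, h1, h2, h3]
    have hle : ∀ g ∈ Finset.univ, cnt g₁ g₂ U₁ U₂ g ≤ cg gr g - 1 := fun g _ => by
      have := hgood g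
      omega
    have heq := (Finset.sum_eq_sum_iff_of_le hle).mp hsum
    refine codimLe_one d (chosen_valid gr g₁ g₂ t U₁ U₂ ∅) (fun g => vand gr g tstar)
      (fun g => vand_mem _ _ _) ?_
    intro g
    have hcardg := heq g (Finset.mem_univ g)
    have hT : cg gr g ≤ (insert tstar (nodes g₁ g₂ t U₁ U₂ g)).card := by
      have hn : tstar ∉ nodes g₁ g₂ t U₁ U₂ g := by
        intro hmem
        simp only [nodes, Finset.mem_union, Finset.mem_image] at hmem
        rcases hmem with ⟨j, _, hj⟩ | ⟨j, _, hj⟩ <;> exact hstar j hj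
      rw [Finset.card_insert_of_notMem hn, nodes_card g₁ g₂ t ht hU, hcardg]
      have := hpos g
      omega
    refine (L_le_span_vand gr g _ hT).trans ?_
    rw [Finset.coe_insert, Set.image_insert_eq, Submodule.span_insert]
    exact sup_le_sup_left (span_nodes_le gr g₁ g₂ t U₁ U₂ ∅ g) _
  · unfold Good at hgood
    push_neg at hgood
    obtain ⟨g, hg⟩ := hgood
    refine codimLe_of_span (g := g) (chosen_valid gr g₁ g₂ t U₁ U₂ ∅) (hd g) ?_
    have hT : cg gr g ≤ (nodes g₁ g₂ t U₁ U₂ g).card := by
      rw [nodes_card g₁ g₂ t ht hU]; exact hg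
    exact (L_le_span_vand gr g _ hT).trans (span_nodes_le gr g₁ g₂ t U₁ U₂ ∅ g)

lemma single_le {d : G → ℕ} {g : G} (h : 1 ≤ d g) : (Pi.single g 1 : G → ℕ) ≤ d := by
  intro k
  by_cases hk : k = g
  · subst hk; simpa using h
  · simp [Pi.single_apply, hk]

/-- The recursion over the product equations. -/
theorem special_codim (ht : Function.Injective t) (tstar : ℂ) (hstar : ∀ j, t j ≠ tstar)
    (hcard : Fintype.card E = ∑ g, (cg gr g - 1)) (hpos : ∀ g, 1 ≤ cg gr g)
    (Rm : Finset E) :
    ∀ (U₁ U₂ : Finset E) (d : G → ℕ), Disjoint U₁ U₂ → Disjoint (U₁ ∪ U₂) Rm →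
      U₁ ∪ U₂ ∪ Rm = Finset.univ → (∀ g, Rm.card + 1 ≤ d g) →
      CodimLe gr (chosen gr g₁ g₂ t U₁ U₂ Rm) d
        ((Rm.powerset.filter (fun V => Good gr g₁ g₂ (U₁ ∪ V) (U₂ ∪ (Rm \ V)))).card) := by
  classical
  induction Rm using Finset.induction_on with
  | empty =>
    intro U₁ U₂ d hU _ hall hd
    have h := base_case gr g₁ g₂ t ht tstar hstar hcard hpos hU (by simpa using hall)
      (d := d) (fun g => by simpa using hd g)
    refine h.mono ?_
    simp only [Finset.powerset_empty, Finset.sdiff_empty, Finset.union_empty, Finset.filter_singleton]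
    split_ifs <;> simp
  | insert j Rm' hj ih =>
    intro U₁ U₂ d hU hdisj hall hd
    have hcardR : (insert j Rm').card = Rm'.card + 1 := Finset.card_insert_of_notMem hj
    have hjU : j ∉ U₁ ∪ U₂ := fun h =>
      (Finset.disjoint_left.mp hdisj) h (Finset.mem_insert_self _ _)
    have hjU₁ : j ∉ U₁ := fun h => hjU (Finset.mem_union_left _ h)
    have hjU₂ : j ∉ U₂ := fun h => hjU (Finset.mem_union_right _ h)
    set e : G → ℕ := Pi.single (g₁ j) 1 with he
    set e' : G → ℕ := Pi.single (g₂ j) 1 with he'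
    have hA : chosen gr g₁ g₂ t U₁ U₂ (insert j Rm')
        = insert (vand gr (g₁ j) (t j) * vand gr (g₂ j) (t j), e + e')
            (chosen gr g₁ g₂ t U₁ U₂ Rm') := by
      ext q
      simp only [chosen, Finset.mem_insert, Set.mem_union, Set.mem_setOf_eq, Set.mem_insert_iff]
      constructor
      · rintro ((h | h) | ⟨i, rfl | hi, rfl⟩)
        · exact Or.inr (Or.inl (Or.inl h))
        · exact Or.inr (Or.inl (Or.inr h))
        · exact Or.inl rfl
        · exact Or.inr (Or.inr ⟨i, hi, rfl⟩)
      · rintro (rfl | (h | h) | ⟨i, hi, rfl⟩)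
        · exact Or.inr ⟨j, Or.inl rfl, rfl⟩
        · exact Or.inl (Or.inl h)
        · exact Or.inl (Or.inr h)
        · exact Or.inr ⟨i, Or.inr hi, rfl⟩
    have hA1 : insert (vand gr (g₁ j) (t j), e) (chosen gr g₁ g₂ t U₁ U₂ Rm')
        = chosen gr g₁ g₂ t (insert j U₁) U₂ Rm' := by
      ext q
      simp only [chosen, Finset.mem_insert, Set.mem_union, Set.mem_setOf_eq, Set.mem_insert_iff]
      constructor
      · rintro (rfl | (h | h) | h)
        · exact Or.inl (Or.inl ⟨j, Or.inl rfl, rfl⟩)
        · obtain ⟨i, hi, rfl⟩ := h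
          exact Or.inl (Or.inl ⟨i, Or.inr hi, rfl⟩)
        · exact Or.inl (Or.inr h)
        · exact Or.inr h
      · rintro ((⟨i, rfl | hi, rfl⟩ | h) | h)
        · exact Or.inl rfl
        · exact Or.inr (Or.inl (Or.inl ⟨i, hi, rfl⟩))
        · exact Or.inr (Or.inl (Or.inr h))
        · exact Or.inr (Or.inr h)
    have hA2 : insert (vand gr (g₂ j) (t j), e') (chosen gr g₁ g₂ t U₁ U₂ Rm')
        = chosen gr g₁ g₂ t U₁ (insert j U₂) Rm' := by
      ext q
      simp only [chosen, Finset.mem_insert, Set.mem_union, Set.mem_setOf_eq, Set.mem_insert_iff]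
      constructor
      · rintro (rfl | (h | h) | h)
        · exact Or.inl (Or.inr ⟨j, Or.inl rfl, rfl⟩)
        · exact Or.inl (Or.inl h)
        · obtain ⟨i, hi, rfl⟩ := h
          exact Or.inl (Or.inr ⟨i, Or.inr hi, rfl⟩)
        · exact Or.inr h
      · rintro ((h | ⟨i, rfl | hi, rfl⟩) | h)
        · exact Or.inr (Or.inl (Or.inl h))
        · exact Or.inl rfl
        · exact Or.inr (Or.inl (Or.inr ⟨i, hi, rfl⟩))
        · exact Or.inr (Or.inr h)
    have hdg : ∀ g, Rm'.card + 2 ≤ d g := fun g => by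
      have := hd g
      omega
    have hle : e + e' ≤ d := by
      intro k
      have h1 : e k ≤ 1 := by
        simp only [he, Pi.single_apply]; split_ifs <;> omega
      have h2 : e' k ≤ 1 := by
        simp only [he', Pi.single_apply]; split_ifs <;> omega
      have := hdg k
      simp only [Pi.add_apply]
      omega
    have hdisjR' : Disjoint (U₁ ∪ U₂) Rm' :=
      Finset.disjoint_of_subset_right (Finset.subset_insert _ _) hdisj
    have hjR' : ∀ i ∈ U₁ ∪ U₂, i ∉ Rm' := fun i hi => Finset.disjoint_left.mp hdisjR' hi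
    have h₁ := ih (insert j U₁) U₂ (d - e')
      (by
        rw [Finset.disjoint_insert_left]
        exact ⟨hjU₂, hU⟩)
      (by
        rw [Finset.disjoint_left]
        intro i hi hi'
        simp only [Finset.mem_union, Finset.mem_insert] at hi
        rcases hi with (rfl | hi) | hi
        · exact hj hi'
        · exact hjR' i (Finset.mem_union_left _ hi) hi'
        · exact hjR' i (Finset.mem_union_right _ hi) hi')
      (by
        rw [← hall]
        ext i
        simp only [Finset.mem_union, Finset.mem_insert]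
        tauto)
      (fun g => by
        have h2 : e' g ≤ 1 := by
          simp only [he', Pi.single_apply]; split_ifs <;> omega
        have := hdg g
        simp only [Pi.sub_apply]
        omega)
    have h₂ := ih U₁ (insert j U₂) d
      (by
        rw [Finset.disjoint_insert_right]
        exact ⟨hjU₁, hU⟩)
      (by
        rw [Finset.disjoint_left]
        intro i hi hi'
        simp only [Finset.mem_union, Finset.mem_insert] at hi
        rcases hi with hi | rfl | hi
        · exact hjR' i (Finset.mem_union_left _ hi) hi'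
        · exact hj hi'
        · exact hjR' i (Finset.mem_union_right _ hi) hi')
      (by
        rw [← hall]
        ext i
        simp only [Finset.mem_union, Finset.mem_insert]
        tauto)
      (fun g => by
        have := hdg g
        omega)
    rw [← hA1] at h₁
    rw [← hA2] at h₂
    rw [hA]
    have hrec := codim_rec (chosen_valid gr g₁ g₂ t U₁ U₂ Rm')
      (l := vand gr (g₁ j) (t j)) (l' := vand gr (g₂ j) (t j)) (e := e) (e' := e') (d := d)
      (by rw [he, M_single]; exact vand_mem _ _ _)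
      (by rw [he', M_single]; exact vand_mem _ _ _)
      hle h₁ h₂
    refine hrec.mono ?_
    -- counting
    rw [Finset.powerset_insert, Finset.filter_union, Finset.card_union_of_disjoint]
    · rw [add_comm]
      apply Nat.add_le_add
      · -- subsets not containing `j`
        refine le_of_eq (congrArg _ (Finset.filter_congr fun V hV => ?_))
        have hV' : V ⊆ Rm' := Finset.mem_powerset.mp hV
        have hjV : j ∉ V := fun h => hj (hV' h)
        have e2 : U₂ ∪ (insert j Rm' \ V) = insert j U₂ ∪ (Rm' \ V) := by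
          ext i
          simp only [Finset.mem_union, Finset.mem_sdiff, Finset.mem_insert]
          constructor
          · rintro (h | ⟨rfl | h, h2⟩)
            · exact Or.inl (Or.inr h)
            · exact Or.inl (Or.inl rfl)
            · exact Or.inr ⟨h, h2⟩
          · rintro ((rfl | h) | ⟨h, h2⟩)
            · exact Or.inr ⟨Or.inl rfl, hjV⟩
            · exact Or.inl h
            · exact Or.inr ⟨Or.inr h, h2⟩
        rw [e2]
      · -- subsets containing `j`
        rw [Finset.filter_image, Finset.card_image_of_injOn]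
        · refine le_of_eq (congrArg _ (Finset.filter_congr fun V hV => ?_))
          have e1 : U₁ ∪ insert j V = insert j U₁ ∪ V := by
            ext i; simp only [Finset.mem_union, Finset.mem_insert]; tauto
          have e2 : insert j Rm' \ insert j V = Rm' \ V := by
            ext i
            simp only [Finset.mem_sdiff, Finset.mem_insert]
            constructor
            · rintro ⟨h1, h2⟩
              push_neg at h2
              rcases h1 with rfl | h1
              · exact absurd rfl h2.1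
              · exact ⟨h1, h2.2⟩
            · rintro ⟨h1, h2⟩
              refine ⟨Or.inr h1, ?_⟩
              rintro (rfl | h3)
              · exact hj h1
              · exact h2 h3
          rw [e1, e2]
        · intro a ha b hb hab
          simp only [Finset.coe_filter, Set.mem_setOf_eq, Finset.mem_powerset] at ha hb
          have hja : j ∉ a := fun h => hj (ha.1 h)
          have hjb : j ∉ b := fun h => hj (hb.1 h)
          have := congrArg (fun s => s.erase j) hab
          simpa [Finset.erase_insert hja, Finset.erase_insert hjb] using this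
    · -- disjointness of the two filtered families
      rw [Finset.disjoint_left]
      intro V hV hV'
      simp only [Finset.mem_filter, Finset.mem_powerset, Finset.mem_image] at hV hV'
      obtain ⟨⟨W, _, rfl⟩, _⟩ := hV'
      exact hj (hV.1 (Finset.mem_insert_self _ _))

end Special

end Crest.Agent.DetCrit
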