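import Crest.Agent.Lib.DetCrit.Sys

/-!
# The start system: products of general position linear forms

`H_e(z) = λ_{e, a e}(z) λ_{e, b e}(z)`, with `λ_{e, g}(z)` the value at `ν e` of the polynomial with
coefficient vector `z` restricted to group `g`. All solutions are simple, correspond to balanced
assignments, and two solutions with the same assignment are the same projective point.
-/

open Polynomial

set_option linter.unusedSectionVars false

namespace Crest.Agent.DetCrit

variable {G : Type} [Fintype G] [DecidableEq G] {d : G → ℕ}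
variable {E : Type} [Fintype E] [DecidableEq E]

/-- A linear form of group `g`, attached to equation `e`. -/
noncomputable def hform (ν : E → ℕ) (g : G) (z : Idx d → ℂ) (e : E) : ℂ :=
  ∑ i : Fin (d g), (ν e : ℂ) ^ (i : ℕ) * z ⟨g, i⟩

/-- The coefficients of the start system. -/
noncomputable def TH (a b : E → G) (ν : E → ℕ) (e : E) (i j : Idx d) : ℂ :=
  if i.1 = a e ∧ j.1 = b e then (ν e : ℂ) ^ (i.2 : ℕ) * (ν e : ℂ) ^ (j.2 : ℕ) else 0

theorem supp_TH (a b : E → G) (ν : E → ℕ) : Supp a b (TH (d := d) a b ν) := by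
  intro e i j h
  unfold TH at h
  by_contra hc
  exact h (if_neg hc)

theorem sum_idx_ite (g : G) (φ : Idx d → ℂ) :
    ∑ i : Idx d, (if i.1 = g then φ i else 0) = ∑ k : Fin (d g), φ ⟨g, k⟩ := by
  rw [Fintype.sum_sigma]
  rw [Finset.sum_eq_single g]
  · simp
  · intro g' _ hg'
    simp [hg']
  · simp

theorem sys_TH (a b : E → G) (ν : E → ℕ) (z : Idx d → ℂ) (e : E) :
    sys (TH a b ν) z e = hform ν (a e) z e * hform ν (b e) z e := by
  unfold hform sys
  rw [← sum_idx_ite (a e) (fun i => (ν e : ℂ) ^ (i.2 : ℕ) * z i),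
    ← sum_idx_ite (b e) (fun i => (ν e : ℂ) ^ (i.2 : ℕ) * z i), Finset.sum_mul]
  refine Finset.sum_congr rfl fun i _ => ?_
  rw [Finset.mul_sum]
  refine Finset.sum_congr rfl fun j _ => ?_
  unfold TH
  by_cases h1 : i.1 = a e <;> by_cases h2 : j.1 = b e <;> simp [h1, h2]
  ring

theorem dsys_TH (a b : E → G) (ν : E → ℕ) (z dz : Idx d → ℂ) (e : E) :
    dsys (TH a b ν) z dz e =
      hform ν (a e) dz e * hform ν (b e) z e + hform ν (a e) z e * hform ν (b e) dz e := by
  have h1 : ∀ w w' : Idx d → ℂ, hform ν (a e) w e * hform ν (b e) w' e =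
      ∑ i : Idx d, ∑ j : Idx d, TH a b ν e i j * (w i * w' j) := by
    intro w w'
    unfold hform
    rw [← sum_idx_ite (a e) (fun i => (ν e : ℂ) ^ (i.2 : ℕ) * w i),
      ← sum_idx_ite (b e) (fun i => (ν e : ℂ) ^ (i.2 : ℕ) * w' i), Finset.sum_mul]
    refine Finset.sum_congr rfl fun i _ => ?_
    rw [Finset.mul_sum]
    refine Finset.sum_congr rfl fun j _ => ?_
    unfold TH
    by_cases h1 : i.1 = a e <;> by_cases h2 : j.1 = b e <;> simp [h1, h2]
    ring
  rw [h1 dz z, h1 z dz]
  unfold dsys
  rw [← Finset.sum_add_distrib]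
  refine Finset.sum_congr rfl fun i _ => ?_
  rw [← Finset.sum_add_distrib]
  refine Finset.sum_congr rfl fun j _ => ?_
  ring

/-- The polynomial with coefficient vector `z` on group `g`. -/
noncomputable def polyOf (g : G) (z : Idx d → ℂ) : ℂ[X] :=
  ∑ i : Fin (d g), C (z ⟨g, i⟩) * X ^ (i : ℕ)

theorem eval_polyOf (ν : E → ℕ) (g : G) (z : Idx d → ℂ) (e : E) :
    (polyOf g z).eval (ν e : ℂ) = hform ν g z e := by
  unfold polyOf hform
  rw [Polynomial.eval_finsetSum]
  refine Finset.sum_congr rfl fun i _ => ?_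
  simp only [eval_mul, eval_C, eval_pow, eval_X]
  ring

theorem coeff_polyOf (g : G) (z : Idx d → ℂ) (i : Fin (d g)) :
    (polyOf g z).coeff i = z ⟨g, i⟩ := by
  unfold polyOf
  rw [Polynomial.finsetSum_coeff]
  simp only [coeff_C_mul, coeff_X_pow]
  rw [Finset.sum_eq_single i]
  · simp
  · intro k _ hk
    have : (i : ℕ) ≠ k := fun h => hk (Fin.ext h.symm)
    simp [this]
  · simp

theorem natDegree_polyOf_le (g : G) (z : Idx d → ℂ) : (polyOf g z).natDegree ≤ d g - 1 := by
  unfold polyOf
  refine Polynomial.natDegree_sum_le_of_forall_le _ _ fun i _ => ?_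
  refine (Polynomial.natDegree_C_mul_X_pow_le _ _).trans ?_
  have := i.2
  omega

theorem polyOf_ne_zero {g : G} {z : Idx d → ℂ} (h : ∃ i, z ⟨g, i⟩ ≠ 0) : polyOf g z ≠ 0 := by
  obtain ⟨i, hi⟩ := h
  intro h0
  apply hi
  have := coeff_polyOf g z i
  rw [h0] at this
  simpa using this.symm

/-- Two polynomials of degree at most `D`, the first nonzero, with `D` common roots are
proportional. -/
theorem prop_of_common_roots {P Q : ℂ[X]} {D : ℕ} (hP : P.natDegree ≤ D) (hQ : Q.natDegree ≤ D)
    (hP0 : P ≠ 0) (R : Finset ℂ) (hR : R.card = D) (hPR : ∀ r ∈ R, P.eval r = 0)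
    (hQR : ∀ r ∈ R, Q.eval r = 0) : ∃ c : ℂ, Q = Polynomial.C c * P := by
  have hcoef : P.coeff D ≠ 0 := by
    intro h0
    have hlt : P.natDegree < R.card := by
      rw [hR]
      by_contra hnot
      have hDeq : P.natDegree = D := le_antisymm hP (not_lt.1 hnot)
      have : P.leadingCoeff = 0 := by rw [Polynomial.leadingCoeff, hDeq]; exact h0
      exact hP0 (Polynomial.leadingCoeff_eq_zero.1 this)
    exact hP0 (Polynomial.eq_zero_of_natDegree_lt_card_of_eval_eq_zero' P R hPR hlt)
  set A := P.coeff D with hA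
  set B := Q.coeff D with hB
  let W : ℂ[X] := Polynomial.C A * Q - Polynomial.C B * P
  have hWcoef : W.coeff D = 0 := by
    simp [W, hA, hB, mul_comm]
  have hWdeg : W.natDegree ≤ D := by
    refine (Polynomial.natDegree_sub_le _ _).trans (max_le ?_ ?_)
    · exact (Polynomial.natDegree_C_mul_le _ _).trans hQ
    · exact (Polynomial.natDegree_C_mul_le _ _).trans hP
  have hW0 : W = 0 := by
    by_contra hne
    have hlt : W.natDegree < R.card := by
      rw [hR]
      by_contra hnot
      have hDeq : W.natDegree = D := le_antisymm hWdeg (not_lt.1 hnot)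
      have : W.leadingCoeff = 0 := by rw [Polynomial.leadingCoeff, hDeq]; exact hWcoef
      exact hne (Polynomial.leadingCoeff_eq_zero.1 this)
    apply hne
    refine Polynomial.eq_zero_of_natDegree_lt_card_of_eval_eq_zero' W R (fun r hr => ?_) hlt
    simp [W, hPR r hr, hQR r hr]
  refine ⟨B / A, ?_⟩
  have h1 : Polynomial.C A * Q = Polynomial.C B * P := sub_eq_zero.1 hW0
  have hCA : (Polynomial.C A : ℂ[X]) ≠ 0 := by simpa using hcoef
  apply mul_left_cancel₀ hCA
  rw [h1, ← mul_assoc, ← Polynomial.C_mul, mul_div_cancel₀ _ hcoef]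

/-- The set of equations whose form at group `g` vanishes at `z`. -/
noncomputable def van (a b : E → G) (ν : E → ℕ) (z : Idx d → ℂ) (g : G) : Finset E :=
  Finset.univ.filter fun e => (a e = g ∨ b e = g) ∧ hform ν g z e = 0

/-- Balanced assignments. -/
noncomputable def Bal (a b : E → G) (d : G → ℕ) : Finset (E → Bool) :=
  Finset.univ.filter fun α => ∀ g, (Finset.univ.filter fun e =>
    (a e = g ∧ α e = false) ∨ (b e = g ∧ α e = true)).card = d g - 1

theorem card_image_nu {ν : E → ℕ} (hν : Function.Injective ν) (R : Finset E) :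
    (R.image fun e => (ν e : ℂ)).card = R.card := by
  apply Finset.card_image_of_injective
  intro x y h
  have h' : ((ν x : ℕ) : ℂ) = (ν y : ℕ) := h
  exact hν (by exact_mod_cast h')

theorem card_van_le {a b : E → G} {ν : E → ℕ} (hν : Function.Injective ν) {z : Idx d → ℂ} {g : G}
    (h : ∃ i, z ⟨g, i⟩ ≠ 0) : (van a b ν z g).card ≤ d g - 1 := by
  have hP := polyOf_ne_zero h
  rw [← card_image_nu hν]
  have hsub : ((van a b ν z g).image fun e => (ν e : ℂ)) ⊆ (polyOf g z).roots.toFinset := by
    intro x hx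
    obtain ⟨e, he, rfl⟩ := Finset.mem_image.1 hx
    have he' := (Finset.mem_filter.1 he).2.2
    rw [Multiset.mem_toFinset, Polynomial.mem_roots hP, Polynomial.IsRoot, eval_polyOf]
    exact he'
  calc _ ≤ (polyOf g z).roots.toFinset.card := Finset.card_le_card hsub
    _ ≤ Multiset.card (polyOf g z).roots := Multiset.toFinset_card_le _
    _ ≤ (polyOf g z).natDegree := Polynomial.card_roots' _
    _ ≤ d g - 1 := natDegree_polyOf_le _ _

/-- The structure of a solution of the start system. -/
structure HSol (a b : E → G) (ν : E → ℕ) (z : Idx d → ℂ) : Prop where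
  sol : ∀ e, hform ν (a e) z e * hform ν (b e) z e = 0
  ne : ∀ g, ∃ i, z ⟨g, i⟩ ≠ 0

/-- The assignment of a solution. -/
noncomputable def assign (a : E → G) (ν : E → ℕ) (z : Idx d → ℂ) : E → Bool :=
  fun e => decide (hform ν (a e) z e ≠ 0)

section
variable {a b : E → G} {ν : E → ℕ}

theorem sum_pred_eq (hdim : ∑ g, d g = Fintype.card E + Fintype.card G) (hd : ∀ g, 1 ≤ d g) :
    ∑ g, (d g - 1) = Fintype.card E := by
  have h1 : ∑ g, (d g - 1) + ∑ _g : G, 1 = ∑ g, d g := by
    rw [← Finset.sum_add_distrib]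
    exact Finset.sum_congr rfl fun g _ => Nat.sub_add_cancel (hd g)
  have h2 : ∑ _g : G, 1 = Fintype.card G := by simp
  omega

/-- Exactly one factor vanishes, and the vanishing sets have full size. -/
theorem HSol.exact (hab : ∀ e, a e ≠ b e) (hν : Function.Injective ν)
    (hdim : ∑ g, d g = Fintype.card E + Fintype.card G) {z : Idx d → ℂ} (h : HSol a b ν z) :
    (∀ e, ¬ (hform ν (a e) z e = 0 ∧ hform ν (b e) z e = 0)) ∧
      ∀ g, (van a b ν z g).card = d g - 1 := by
  have hd : ∀ g, 1 ≤ d g := by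
    intro g
    obtain ⟨i, _⟩ := h.ne g
    have := i.2
    omega
  have hsum := sum_pred_eq hdim hd
  -- double counting
  let r : E → ℕ := fun e => (Finset.univ.filter fun g => e ∈ van a b ν z g).card
  have hdc : ∑ g, (van a b ν z g).card = ∑ e, r e := by
    have := Finset.sum_card_bipartiteAbove_eq_sum_card_bipartiteBelow
      (s := (Finset.univ : Finset G)) (t := (Finset.univ : Finset E))
      (fun g e => e ∈ van a b ν z g)
    simp only [Finset.bipartiteAbove, Finset.bipartiteBelow] at this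
    have h1 : ∀ g, (Finset.univ.filter fun e => e ∈ van a b ν z g) = van a b ν z g := by
      intro g; ext e; simp
    simp only [h1] at this
    exact this
  have hr1 : ∀ e, 1 ≤ r e := by
    intro e
    rcases mul_eq_zero.1 (h.sol e) with h0 | h0
    · exact Finset.card_pos.2 ⟨a e, Finset.mem_filter.2 ⟨Finset.mem_univ _,
        Finset.mem_filter.2 ⟨Finset.mem_univ _, Or.inl rfl, h0⟩⟩⟩
    · exact Finset.card_pos.2 ⟨b e, Finset.mem_filter.2 ⟨Finset.mem_univ _,
        Finset.mem_filter.2 ⟨Finset.mem_univ _, Or.inr rfl, h0⟩⟩⟩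
  have hle : ∑ e, r e ≤ ∑ _e : E, 1 := by
    rw [← hdc]
    calc ∑ g, (van a b ν z g).card ≤ ∑ g, (d g - 1) :=
          Finset.sum_le_sum fun g _ => card_van_le hν (h.ne g)
      _ = Fintype.card E := hsum
      _ = ∑ _e : E, 1 := by simp
  have hreq : ∀ e, r e = 1 := by
    have heq : ∑ _e : E, 1 = ∑ e, r e :=
      le_antisymm (Finset.sum_le_sum fun e _ => hr1 e) hle
    intro e
    exact ((Finset.sum_eq_sum_iff_of_le fun e _ => hr1 e).1 heq e (Finset.mem_univ e)).symm
  refine ⟨?_, ?_⟩
  · rintro e ⟨h1, h2⟩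
    have hsub : ({a e, b e} : Finset G) ⊆ Finset.univ.filter fun g => e ∈ van a b ν z g := by
      intro g hg
      simp only [Finset.mem_insert, Finset.mem_singleton] at hg
      rcases hg with rfl | rfl
      · exact Finset.mem_filter.2 ⟨Finset.mem_univ _,
          Finset.mem_filter.2 ⟨Finset.mem_univ _, Or.inl rfl, h1⟩⟩
      · exact Finset.mem_filter.2 ⟨Finset.mem_univ _,
          Finset.mem_filter.2 ⟨Finset.mem_univ _, Or.inr rfl, h2⟩⟩
    have hcard := Finset.card_le_card hsub
    rw [Finset.card_pair (hab e)] at hcard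
    have := hreq e
    simp only [r] at this
    omega
  · have htot : ∑ g, (van a b ν z g).card = ∑ g, (d g - 1) := by
      rw [hsum, hdc, Finset.sum_congr rfl fun e _ => hreq e]; simp
    intro g
    exact (Finset.sum_eq_sum_iff_of_le fun g _ => card_van_le hν (h.ne g)).1 htot g
      (Finset.mem_univ g)

theorem HSol.assign_true (hab : ∀ e, a e ≠ b e) (hν : Function.Injective ν)
    (hdim : ∑ g, d g = Fintype.card E + Fintype.card G) {z : Idx d → ℂ} (h : HSol a b ν z) (e : E) :
    assign a ν z e = true ↔ hform ν (b e) z e = 0 := by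
  have hx := (h.exact hab hν hdim).1 e
  simp only [assign, decide_eq_true_eq]
  constructor
  · intro h1
    rcases mul_eq_zero.1 (h.sol e) with h0 | h0
    · exact absurd h0 h1
    · exact h0
  · intro h1 h0
    exact hx ⟨h0, h1⟩

theorem HSol.van_eq (hab : ∀ e, a e ≠ b e) (hν : Function.Injective ν)
    (hdim : ∑ g, d g = Fintype.card E + Fintype.card G) {z : Idx d → ℂ} (h : HSol a b ν z) (g : G) :
    van a b ν z g = Finset.univ.filter fun e =>
      (a e = g ∧ assign a ν z e = false) ∨ (b e = g ∧ assign a ν z e = true) := by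
  ext e
  simp only [van, Finset.mem_filter, Finset.mem_univ, true_and]
  have hf : assign a ν z e = false ↔ hform ν (a e) z e = 0 := by simp [assign]
  have ht := h.assign_true hab hν hdim e
  constructor
  · rintro ⟨h1 | h1, h2⟩
    · subst h1; exact Or.inl ⟨rfl, hf.2 h2⟩
    · subst h1; exact Or.inr ⟨rfl, ht.2 h2⟩
  · rintro (⟨h1, h2⟩ | ⟨h1, h2⟩)
    · subst h1; exact ⟨Or.inl rfl, hf.1 h2⟩
    · subst h1; exact ⟨Or.inr rfl, ht.1 h2⟩

theorem HSol.mem_bal (hab : ∀ e, a e ≠ b e) (hν : Function.Injective ν)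
    (hdim : ∑ g, d g = Fintype.card E + Fintype.card G) {z : Idx d → ℂ} (h : HSol a b ν z) :
    assign a ν z ∈ Bal a b d := by
  simp only [Bal, Finset.mem_filter, Finset.mem_univ, true_and]
  intro g
  rw [← h.van_eq hab hν hdim g]
  exact (h.exact hab hν hdim).2 g

/-- A vector whose forms vanish on the vanishing set of a solution is proportional to it. -/
theorem HSol.prop (hab : ∀ e, a e ≠ b e) (hν : Function.Injective ν)
    (hdim : ∑ g, d g = Fintype.card E + Fintype.card G) {z : Idx d → ℂ} (h : HSol a b ν z)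
    (g : G) (w : Idx d → ℂ) (hw : ∀ e ∈ van a b ν z g, hform ν g w e = 0) :
    ∃ c : ℂ, ∀ i, w ⟨g, i⟩ = c * z ⟨g, i⟩ := by
  have hcard := (h.exact hab hν hdim).2 g
  obtain ⟨c, hc⟩ := prop_of_common_roots (natDegree_polyOf_le g z) (natDegree_polyOf_le g w)
    (polyOf_ne_zero (h.ne g)) ((van a b ν z g).image fun e => (ν e : ℂ))
    (by rw [card_image_nu hν, hcard])
    (by
      intro r hr
      obtain ⟨e, he, rfl⟩ := Finset.mem_image.1 hr
      rw [eval_polyOf]
      exact (Finset.mem_filter.1 he).2.2)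
    (by
      intro r hr
      obtain ⟨e, he, rfl⟩ := Finset.mem_image.1 hr
      rw [eval_polyOf]
      exact hw e he)
  refine ⟨c, fun i => ?_⟩
  have := coeff_polyOf g w i
  rw [hc, Polynomial.coeff_C_mul, coeff_polyOf] at this
  exact this.symm

/-- Every solution of the start system is simple. -/
theorem HSol.isSimple (hab : ∀ e, a e ≠ b e) (hν : Function.Injective ν)
    (hdim : ∑ g, d g = Fintype.card E + Fintype.card G) {z : Idx d → ℂ} (h : HSol a b ν z) :
    IsSimple (TH a b ν) z := by
  refine ⟨fun e => by rw [sys_TH]; exact h.sol e, h.ne, fun dz hdz g => ?_⟩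
  refine h.prop hab hν hdim g dz fun e he => ?_
  have hmem := (Finset.mem_filter.1 he).2
  have hx := (h.exact hab hν hdim).1 e
  have hd := hdz e
  rw [dsys_TH] at hd
  rcases hmem.1 with h1 | h1
  · subst h1
    have h2 : hform ν (b e) z e ≠ 0 := fun h3 => hx ⟨hmem.2, h3⟩
    rw [hmem.2, zero_mul, add_zero] at hd
    exact (mul_eq_zero.1 hd).resolve_right h2
  · subst h1
    have h2 : hform ν (a e) z e ≠ 0 := fun h3 => hx ⟨h3, hmem.2⟩
    rw [hmem.2, mul_zero, zero_add] at hd
    exact (mul_eq_zero.1 hd).resolve_left h2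

/-- Two solutions with the same assignment are the same projective point. -/
theorem HSol.not_dist (hab : ∀ e, a e ≠ b e) (hν : Function.Injective ν)
    (hdim : ∑ g, d g = Fintype.card E + Fintype.card G) {z z' : Idx d → ℂ} (h : HSol a b ν z)
    (h' : HSol a b ν z') (hα : assign a ν z = assign a ν z') : ¬ Dist z z' := by
  rintro ⟨g, i, j, hne⟩
  have hv : van a b ν z g = van a b ν z' g := by
    rw [h.van_eq hab hν hdim, h'.van_eq hab hν hdim, hα]
  obtain ⟨c, hc⟩ := h.prop hab hν hdim g z' (fun e he => by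
    rw [hv] at he
    exact (Finset.mem_filter.1 he).2.2)
  apply hne
  rw [hc i, hc j]; ring

end

end Crest.Agent.DetCrit
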