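import Mathlib

/-!
# A parametric inverse function theorem, finite dimensional, over ℂ
-/

open Filter Topology Module

namespace Crest.Agent.DetCrit

variable {C W Y : Type*}
  [NormedAddCommGroup C] [NormedSpace ℂ C] [FiniteDimensional ℂ C]
  [NormedAddCommGroup W] [NormedSpace ℂ W] [FiniteDimensional ℂ W]
  [NormedAddCommGroup Y] [NormedSpace ℂ Y] [FiniteDimensional ℂ Y]

/-- Parametric inverse function theorem: a solution persists for nearby parameters, and solutions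
with the same parameter near the base point are locally unique. -/
theorem param_ift {Φ : C × W → Y} {L : C × W →L[ℂ] Y} {c₀ : C} {w₀ : W}
    (hΦ : HasStrictFDerivAt Φ L (c₀, w₀)) (hinj : ∀ dw, L (0, dw) = 0 → dw = 0)
    (hdim : finrank ℂ W = finrank ℂ Y) :
    (∃ g : C → W, Tendsto g (𝓝 c₀) (𝓝 w₀) ∧ ∀ᶠ c in 𝓝 c₀, Φ (c, g c) = Φ (c₀, w₀)) ∧
    (∃ U ∈ 𝓝 ((c₀, w₀) : C × W), ∀ p ∈ U, ∀ q ∈ U, p.1 = q.1 → Φ p = Φ q → p = q) := by
  classical
  let Ξ : C × W → C × Y := fun p => (p.1, Φ p)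
  let L' : C × W →L[ℂ] C × Y := (ContinuousLinearMap.fst ℂ C W).prod L
  have hΞ : HasStrictFDerivAt Ξ L' (c₀, w₀) := hasStrictFDerivAt_fst.prodMk hΦ
  have hinj' : Function.Injective (L' : C × W →ₗ[ℂ] C × Y) := by
    rw [← LinearMap.ker_eq_bot, LinearMap.ker_eq_bot']
    rintro ⟨dc, dw⟩ h
    have h1 : dc = 0 := congrArg Prod.fst h
    have h2 : L (dc, dw) = 0 := congrArg Prod.snd h
    subst h1
    have h3 := hinj dw h2
    simp [h3]
  have hdim' : finrank ℂ (C × W) = finrank ℂ (C × Y) := by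
    simp [Module.finrank_prod, hdim]
  let e0 : (C × W) ≃ₗ[ℂ] (C × Y) :=
    LinearMap.linearEquivOfInjective (L' : C × W →ₗ[ℂ] C × Y) hinj' hdim'
  let e : (C × W) ≃L[ℂ] (C × Y) := e0.toContinuousLinearEquiv
  have hee : (e : C × W →L[ℂ] C × Y) = L' := by
    ext x <;> rfl
  have hΞ' : HasStrictFDerivAt Ξ (e : C × W →L[ℂ] C × Y) (c₀, w₀) := by rw [hee]; exact hΞ
  have hri := hΞ'.eventually_right_inverse
  have hli := hΞ'.eventually_left_inverse
  have hto := hΞ'.localInverse_tendsto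
  set ψ := hΞ'.localInverse Ξ e (c₀, w₀) with hψ
  constructor
  · let y₀ := Φ (c₀, w₀)
    have hcurve : Tendsto (fun c : C => ((c, y₀) : C × Y)) (𝓝 c₀) (𝓝 (Ξ (c₀, w₀))) := by
      have : Continuous (fun c : C => ((c, y₀) : C × Y)) := by fun_prop
      exact this.tendsto c₀
    refine ⟨fun c => (ψ (c, y₀)).2, ?_, ?_⟩
    · exact (continuous_snd.tendsto _).comp (hto.comp hcurve)
    · filter_upwards [hcurve.eventually hri] with c hc
      have h1 : (ψ (c, y₀)).1 = c := congrArg Prod.fst hc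
      have h2 : Φ (ψ (c, y₀)) = y₀ := congrArg Prod.snd hc
      have h3 : ψ (c, y₀) = (c, (ψ (c, y₀)).2) := by
        ext
        · exact h1
        · rfl
      rw [← h3]; exact h2
  · refine ⟨{x | ψ (Ξ x) = x}, hli, ?_⟩
    intro p hp q hq h1 h2
    have h3 : Ξ p = Ξ q := by
      simp only [Ξ, Prod.mk.injEq]; exact ⟨h1, h2⟩
    have hp' : ψ (Ξ p) = p := hp
    have hq' : ψ (Ξ q) = q := hq
    rw [← hp', ← hq', h3]

end Crest.Agent.DetCrit
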