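import Crest.Agent.Lib.DetCrit.Norm

/-!
# Persistence of simple critical points under coefficientwise limits; the determinantal bound
-/

set_option autoImplicit false

namespace Crest.Agent.DetCrit

open MvPolynomial Matrix
open Crest.LogicCS.DetComplexity
open scoped Topology

section Section

variable {ι : Type} [Fintype ι] [DecidableEq ι] {N n : ℕ}

/-- The affine linear forms of a section. -/
noncomputable def secL (a : ι → ℂ) (b : ι → Fin (N + 1) → ℂ) : ι → MvPolynomial (Fin (N + 1)) ℂ :=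
  fun v => C (a v) + ∑ i, C (b v i) * X i

lemma aeval_det_section (a : ι → ℂ) (b : ι → Fin (N + 1) → ℂ)
    (A₀ : Matrix (Fin n) (Fin n) ℂ) (A : ι → Matrix (Fin n) (Fin n) ℂ) :
    aeval (secL a b) (affineMatrix n A₀ A).det
      = (affineMatrix n (A₀ + ∑ v, a v • A v) (fun i => ∑ v, b v i • A v)).det := by
  rw [AlgHom.map_det]
  congr 1
  ext1 r c
  simp only [AlgHom.mapMatrix_apply, Matrix.map_apply, affineMatrix, Matrix.of_apply, map_add,
    MvPolynomial.aeval_C, MvPolynomial.algebraMap_eq, map_sum, map_mul, aeval_X, secL,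
    Matrix.add_apply, Matrix.sum_apply, Matrix.smul_apply, smul_eq_mul, mul_add, Finset.sum_add_distrib,
    Finset.mul_sum, Finset.sum_mul, add_assoc]
  congr 2
  · apply Finset.sum_congr rfl
    intro v _
    ring
  · rw [Finset.sum_comm]
    apply Finset.sum_congr rfl
    intro v _
    apply Finset.sum_congr rfl
    intro i _
    ring

lemma totalDegree_affine_entry (A₀ : Matrix (Fin n) (Fin n) ℂ) (A : ι → Matrix (Fin n) (Fin n) ℂ)
    (r c : Fin n) : ((affineMatrix n A₀ A) r c).totalDegree ≤ 1 := by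
  simp only [affineMatrix, Matrix.of_apply]
  refine (totalDegree_add _ _).trans (max_le (by simp) ?_)
  refine (totalDegree_finset_sum _ _).trans (Finset.sup_le fun v _ => ?_)
  refine (totalDegree_mul _ _).trans ?_
  simp

lemma totalDegree_det_affine (A₀ : Matrix (Fin n) (Fin n) ℂ) (A : ι → Matrix (Fin n) (Fin n) ℂ) :
    ((affineMatrix n A₀ A).det).totalDegree ≤ n := by
  rw [Matrix.det_apply]
  refine (totalDegree_finset_sum _ _).trans (Finset.sup_le fun σ _ => ?_)
  have h1 : (∏ i, (affineMatrix n A₀ A) (σ i) i).totalDegree ≤ n := by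
    refine (totalDegree_finset_prod _ _).trans ?_
    calc ∑ i, ((affineMatrix n A₀ A) (σ i) i).totalDegree ≤ ∑ _i : Fin n, 1 :=
          Finset.sum_le_sum fun i _ => totalDegree_affine_entry A₀ A _ _
      _ = n := by simp
  rcases Int.units_eq_one_or (Equiv.Perm.sign σ) with hs | hs
  · simpa [hs] using h1
  · simpa [hs, totalDegree_neg] using h1

/-- The monomials with all exponents at most `n`. -/
noncomputable def mons (ι : Type) [Fintype ι] [DecidableEq ι] (n : ℕ) : Finset (ι →₀ ℕ) :=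
  (Finset.univ : Finset (ι → Fin (n + 1))).image fun e =>
    Finsupp.equivFunOnFinite.symm (fun v => ((e v : ℕ)))

lemma mem_mons {m : ι →₀ ℕ} (h : ∀ v, m v ≤ n) : m ∈ mons ι n := by
  refine Finset.mem_image.mpr ⟨fun v => ⟨m v, Nat.lt_succ_of_le (h v)⟩, Finset.mem_univ _, ?_⟩
  ext v
  simp

lemma as_sum_mons (G : MvPolynomial ι ℂ) (hG : ∀ m, coeff m G ≠ 0 → m ∈ mons ι n) :
    G = ∑ m : mons ι n, monomial m.1 (coeff m.1 G) := by
  classical
  rw [Finset.sum_coe_sort (mons ι n) (fun m => monomial m (coeff m G))]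
  conv_lhs => rw [G.as_sum]
  apply Finset.sum_subset
  · intro m hm
    exact hG m (mem_support_iff.mp hm)
  · intro m _ hm
    have : coeff m G = 0 := by
      simpa using hm
    rw [this, map_zero]

lemma coeff_det_mem (A₀ : Matrix (Fin n) (Fin n) ℂ) (A : ι → Matrix (Fin n) (Fin n) ℂ)
    (m : ι →₀ ℕ) (hm : coeff m (affineMatrix n A₀ A).det ≠ 0) : m ∈ mons ι n := by
  apply mem_mons
  intro v
  have h1 := le_totalDegree (mem_support_iff.mpr hm)
  have h2 := totalDegree_det_affine A₀ A
  have h3 : m v ≤ m.sum fun _ e => e := by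
    rw [Finsupp.sum_fintype _ _ (fun _ => rfl)]
    exact Finset.single_le_sum (f := fun i => m i) (fun _ _ => Nat.zero_le _) (Finset.mem_univ v)
  omega

/-! ### The parametrized system -/

variable (a : ι → ℂ) (b : ι → Fin (N + 1) → ℂ) (θ : Fin N → Fin (N + 1) → ℂ)

/-- The image of a monomial in the section. -/
noncomputable def qs (m : mons ι n) : MvPolynomial (Fin (N + 1)) ℂ :=
  aeval (secL a b) (monomial m.1 (1 : ℂ))

/-- The family of polynomials parametrized by the coefficients. -/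
noncomputable def gc (c : mons ι n → ℂ) : MvPolynomial (Fin (N + 1)) ℂ :=
  ∑ m, C (c m) * qs a b m

lemma aeval_eq_gc (G : MvPolynomial ι ℂ) (hG : ∀ m, coeff m G ≠ 0 → m ∈ mons ι n) :
    aeval (secL a b) G = gc a b (fun m : mons ι n => coeff m.1 G) := by
  conv_lhs => rw [as_sum_mons (n := n) G hG]
  rw [map_sum]
  apply Finset.sum_congr rfl
  intro m _
  have : monomial m.1 (coeff m.1 G) = C (coeff m.1 G) * monomial m.1 (1 : ℂ) := by
    rw [C_mul_monomial, mul_one]
  rw [this, map_mul, MvPolynomial.aeval_C]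
  rfl

/-- The polynomials of the critical system. -/
noncomputable def Rj (j : Option (Fin N)) (m : mons ι n) : MvPolynomial (Fin (N + 1)) ℂ :=
  match j with
  | none => qs a b m
  | some l => Dth (θ l) (qs a b m)

/-- The critical system of `gc c`. -/
noncomputable def comp (c : mons ι n → ℂ) (j : Option (Fin N)) : MvPolynomial (Fin (N + 1)) ℂ :=
  ∑ m, C (c m) * Rj a b θ j m

lemma comp_none (c : mons ι n → ℂ) : comp a b θ c none = gc a b c := rfl

lemma Dth_sum {σ T : Type} [Fintype σ] [DecidableEq σ] [Fintype T] (t : σ → ℂ) (f : T → MvPolynomial σ ℂ) :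
    Dth t (∑ m, f m) = ∑ m, Dth t (f m) := by
  simp only [Dth, map_sum, Finset.mul_sum]
  rw [Finset.sum_comm]

lemma comp_some (c : mons ι n → ℂ) (l : Fin N) :
    comp a b θ c (some l) = Dth (θ l) (gc a b c) := by
  simp only [comp, gc, Dth_sum, Dth_C_mul]
  rfl

lemma eval_comp (c : mons ι n → ℂ) (j : Option (Fin N)) (u : Fin (N + 1) → ℂ) :
    eval u (comp a b θ c j) = ∑ m, c m * eval u (Rj a b θ j m) := by
  simp [comp]

lemma eval_pderiv_comp (c : mons ι n → ℂ) (j : Option (Fin N)) (k : Fin (N + 1))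
    (u : Fin (N + 1) → ℂ) :
    eval u (pderiv k (comp a b θ c j)) = ∑ m, c m * eval u (pderiv k (Rj a b θ j m)) := by
  simp [comp, pderiv_C_mul']

/-- Persistence of one simple critical point. -/
theorem persist_simple (c₀ : mons ι n → ℂ) (p : Fin (N + 1) → ℂ)
    (hs : IsSimple (gc a b c₀) θ p) :
    ∃ ψ : (mons ι n → ℂ) → (Fin (N + 1) → ℂ), Filter.Tendsto ψ (𝓝 c₀) (𝓝 p) ∧
      ∀ᶠ c in 𝓝 c₀, IsSimple (gc a b c) θ (ψ c) := by
  classical
  -- derivative
  let F := mons ι n → ℂ
  let Θ : (mons ι n → ℂ) × (Fin (N + 1) → ℂ) → (Option (Fin N) → ℂ) := fun q j =>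
    ∑ m, q.1 m * eval (p + q.2) (Rj a b θ j m)
  have hbase : HasStrictFDerivAt (fun q : (mons ι n → ℂ) × (Fin (N + 1) → ℂ) => p + q.2)
      (ContinuousLinearMap.snd ℂ (mons ι n → ℂ) (Fin (N + 1) → ℂ)) (c₀, 0) :=
    (ContinuousLinearMap.snd ℂ (mons ι n → ℂ) (Fin (N + 1) → ℂ)).hasStrictFDerivAt.const_add p
  have hp0 : p + (c₀, (0 : Fin (N + 1) → ℂ)).2 = p := by simp
  have hcomp : ∀ q : MvPolynomial (Fin (N + 1)) ℂ, HasStrictFDerivAt
      (fun x : (mons ι n → ℂ) × (Fin (N + 1) → ℂ) => eval (p + x.2) q)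
      ((dEval q p).comp (ContinuousLinearMap.snd ℂ (mons ι n → ℂ) (Fin (N + 1) → ℂ))) (c₀, 0) := by
    intro q
    have h := hasStrictFDerivAt_eval q p
    rw [← hp0] at h
    have := h.comp ((c₀, 0) : (mons ι n → ℂ) × (Fin (N + 1) → ℂ)) hbase
    simpa [hp0] using this
  have hterm : ∀ (m : mons ι n) (q : MvPolynomial (Fin (N + 1)) ℂ),
      ∃ D : ((mons ι n → ℂ) × (Fin (N + 1) → ℂ)) →L[ℂ] ℂ,
      HasStrictFDerivAt (fun x : (mons ι n → ℂ) × (Fin (N + 1) → ℂ) => x.1 m * eval (p + x.2) q) D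
        (c₀, 0) ∧ ∀ t, D (0, t) = c₀ m * dEval q p t := by
    intro m q
    have hm : HasStrictFDerivAt (fun x : (mons ι n → ℂ) × (Fin (N + 1) → ℂ) => x.1 m)
        ((ContinuousLinearMap.proj (R := ℂ) (φ := fun _ : mons ι n => ℂ) m).comp
          (ContinuousLinearMap.fst ℂ (mons ι n → ℂ) (Fin (N + 1) → ℂ))) (c₀, 0) :=
      ((ContinuousLinearMap.proj (R := ℂ) (φ := fun _ : mons ι n => ℂ) m).comp
          (ContinuousLinearMap.fst ℂ (mons ι n → ℂ) (Fin (N + 1) → ℂ))).hasStrictFDerivAt
    refine ⟨_, hm.mul (hcomp q), fun t => ?_⟩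
    simp
  have hj : ∀ j, ∃ D : ((mons ι n → ℂ) × (Fin (N + 1) → ℂ)) →L[ℂ] ℂ,
      HasStrictFDerivAt (fun x => Θ x j) D (c₀, 0) ∧
      ∀ t, D (0, t) = dEval (comp a b θ c₀ j) p t := by
    intro j
    choose D hD1 hD2 using fun m => hterm m (Rj a b θ j m)
    refine ⟨∑ m, D m, ?_, fun t => ?_⟩
    · have := HasStrictFDerivAt.fun_sum (u := Finset.univ) (fun m _ => hD1 m)
      exact this
    · simp only [ContinuousLinearMap.sum_apply, hD2, dEval_apply, eval_pderiv_comp]
      simp only [Finset.mul_sum]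
      rw [Finset.sum_comm]
      apply Finset.sum_congr rfl
      intro m _
      apply Finset.sum_congr rfl
      intro i _
      ring
  choose D hD1 hD2 using hj
  let Θ' : ((mons ι n → ℂ) × (Fin (N + 1) → ℂ)) →L[ℂ] (Option (Fin N) → ℂ) :=
    ContinuousLinearMap.pi D
  have hΘ : HasStrictFDerivAt Θ Θ' (c₀, 0) := hasStrictFDerivAt_pi.mpr fun j => hD1 j
  have hT : Θ'.comp (ContinuousLinearMap.inr ℂ (mons ι n → ℂ) (Fin (N + 1) → ℂ)) =
      ContinuousLinearMap.pi fun j => dEval (comp a b θ c₀ j) p := by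
    ext t j
    simp [Θ', hD2]
  -- injectivity from simplicity
  have hinjT : ∀ t : Fin (N + 1) → ℂ, (∀ j, dEval (comp a b θ c₀ j) p t = 0) → t = 0 := by
    intro t ht
    apply hs.inj t
    · have := ht none
      rwa [dEval_apply, comp_none] at this
    · intro l
      have := ht (some l)
      rwa [dEval_apply, comp_some] at this
  have hinv : (Θ'.comp (ContinuousLinearMap.inr ℂ (mons ι n → ℂ) (Fin (N + 1) → ℂ))).IsInvertible := by
    rw [hT]
    set T : (Fin (N + 1) → ℂ) →L[ℂ] (Option (Fin N) → ℂ) :=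
      ContinuousLinearMap.pi fun j => dEval (comp a b θ c₀ j) p with hTdef
    have hinj : Function.Injective T := by
      rw [injective_iff_map_eq_zero]
      intro t ht
      exact hinjT t fun j => congrFun ht j
    have hfr : Module.finrank ℂ (Fin (N + 1) → ℂ) = Module.finrank ℂ (Option (Fin N) → ℂ) := by
      simp
    let L' := LinearMap.linearEquivOfInjective (T : (Fin (N + 1) → ℂ) →ₗ[ℂ] (Option (Fin N) → ℂ)) hinj hfr
    refine ⟨L'.toContinuousLinearEquiv, ?_⟩
    ext t j
    rfl
  have hroot0 : Θ (c₀, 0) = 0 := by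
    funext j
    have h1 : eval p (comp a b θ c₀ j) = 0 := by
      cases j with
      | none => rw [comp_none]; exact hs.root
      | some l => rw [comp_some]; exact hs.crit l
    rw [eval_comp] at h1
    simpa [Θ] using h1
  let ψ₀ := hΘ.implicitFunctionOfProdDomain hinv
  have h1 := hΘ.tendsto_implicitFunctionOfProdDomain hinv
  have h2 := hΘ.eventually_apply_implicitFunctionOfProdDomain hinv
  rw [hroot0] at h2
  have h1' : Filter.Tendsto (fun c => p + ψ₀ c) (𝓝 c₀) (𝓝 p) := by
    have h3 : Filter.Tendsto (fun c => p + ψ₀ c) (𝓝 c₀) (𝓝 (p + 0)) :=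
      tendsto_const_nhds.add h1
    simpa using h3
  refine ⟨fun c => p + ψ₀ c, h1', ?_⟩
  -- the Jacobian determinant
  let e : Fin (N + 1) ≃ Option (Fin N) := finSuccEquiv N
  let Jm : (mons ι n → ℂ) × (Fin (N + 1) → ℂ) → Matrix (Fin (N + 1)) (Fin (N + 1)) ℂ := fun x =>
    Matrix.of fun r k => eval x.2 (pderiv k (comp a b θ x.1 (e r)))
  have hJcont : Continuous fun x => (Jm x).det := by
    apply Continuous.matrix_det
    refine continuous_matrix fun r k => ?_
    simp only [Jm, Matrix.of_apply, eval_pderiv_comp]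
    refine continuous_finset_sum _ fun m _ => ?_
    exact ((continuous_apply m).comp continuous_fst).mul
      ((MvPolynomial.continuous_eval _).comp continuous_snd)
  have hJ0 : (Jm (c₀, p)).det ≠ 0 := by
    intro hdet
    obtain ⟨x, hx, hx0⟩ := Matrix.exists_mulVec_eq_zero_iff.mpr hdet
    apply hx
    apply hinjT
    intro j
    have := congrFun hx0 (e.symm j)
    simp only [Jm, Matrix.mulVec, dotProduct, Matrix.of_apply, Equiv.apply_symm_apply,
      Pi.zero_apply] at this
    rw [dEval_apply, ← this]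
    exact Finset.sum_congr rfl fun i _ => mul_comm _ _
  have h3 : Filter.Tendsto (fun c => (c, p + ψ₀ c)) (𝓝 c₀) (𝓝 (c₀, p)) :=
    Filter.tendsto_id.prodMk_nhds h1'
  have h4 : ∀ᶠ c in 𝓝 c₀, (Jm (c, p + ψ₀ c)).det ≠ 0 := by
    have h5 : Filter.Tendsto (fun c => (Jm (c, p + ψ₀ c)).det) (𝓝 c₀) (𝓝 (Jm (c₀, p)).det) :=
      (hJcont.tendsto (c₀, p)).comp h3
    exact h5.eventually_ne hJ0
  filter_upwards [h2, h4] with c hc1 hc2
  have hroots : ∀ j, eval (p + ψ₀ c) (comp a b θ c j) = 0 := by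
    intro j
    rw [eval_comp]
    exact congrFun hc1 j
  refine ⟨by
      have := hroots none
      rwa [comp_none] at this, fun l => by
      have := hroots (some l)
      rwa [comp_some] at this, ?_⟩
  intro δ hδ1 hδ2
  apply Matrix.eq_zero_of_mulVec_eq_zero hc2
  funext r
  simp only [Jm, Matrix.mulVec, dotProduct, Matrix.of_apply, Pi.zero_apply]
  cases hj : e r with
  | none =>
    rw [comp_none, ← hδ1]
    exact Finset.sum_congr rfl fun i _ => mul_comm _ _
  | some l =>
    rw [comp_some, ← hδ2 l]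
    exact Finset.sum_congr rfl fun i _ => mul_comm _ _

end Section

/-! ### The determinantal bound -/

section Main

variable {ι : Type} [Fintype ι] [DecidableEq ι] {N : ℕ}

/-- **Determinantal side.** If `f` is a coefficientwise limit of determinants of size `n`, the
number of simple critical points of any affine linear section of `f` in `N + 1` variables satisfies
`2 (N+1)! S ≤ (4 n)^(N+1)`. -/
theorem card_simple_le_of_limit (f : MvPolynomial ι ℂ) (n : ℕ) (h : IsDetLimit f n)
    (a : ι → ℂ) (b : ι → Fin (N + 1) → ℂ) (θ : Fin N → Fin (N + 1) → ℂ)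
    (P : Finset (Fin (N + 1) → ℂ)) (hP : ∀ p ∈ P, IsSimple (aeval (secL a b) f) θ p) :
    2 * (N + 1).factorial * P.card ≤ (4 * n) ^ (N + 1) := by
  classical
  obtain ⟨A₀, A, hA⟩ := h
  let c₀ : mons ι n → ℂ := fun m => coeff m.1 f
  let ck : ℕ → mons ι n → ℂ := fun k m => coeff m.1 (affineMatrix n (A₀ k) (A k)).det
  have hck : Filter.Tendsto ck Filter.atTop (𝓝 c₀) := tendsto_pi_nhds.mpr fun m => hA m.1
  have hfmem : ∀ m, coeff m f ≠ 0 → m ∈ mons ι n := by
    intro m hm
    by_contra hnot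
    have h0 : ∀ k, coeff m (affineMatrix n (A₀ k) (A k)).det = 0 := by
      intro k
      by_contra hne
      exact hnot (coeff_det_mem _ _ m hne)
    have h1 := hA m
    simp only [h0] at h1
    exact hm (tendsto_nhds_unique h1 tendsto_const_nhds)
  have hf : aeval (secL a b) f = gc a b c₀ := aeval_eq_gc a b f hfmem
  have hk : ∀ k, aeval (secL a b) (affineMatrix n (A₀ k) (A k)).det = gc a b (ck k) := fun k =>
    aeval_eq_gc a b _ (coeff_det_mem _ _)
  -- persistence
  have hpers := fun p : P => persist_simple a b θ c₀ p.1 (by rw [← hf]; exact hP p.1 p.2)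
  choose ψ hψ1 hψ2 using hpers
  have hev1 : ∀ᶠ c in 𝓝 c₀, ∀ p : P, IsSimple (gc a b c) θ (ψ p c) :=
    Filter.eventually_all.mpr hψ2
  have hev2 : ∀ᶠ c in 𝓝 c₀, ∀ p q : P, p ≠ q → ψ p c ≠ ψ q c := by
    refine Filter.eventually_all.mpr fun p => Filter.eventually_all.mpr fun q => ?_
    by_cases hpq : p = q
    · exact Filter.Eventually.of_forall fun c h => absurd hpq h
    · have hne : p.1 ≠ q.1 := fun h => hpq (Subtype.ext h)
      have hopen : {x : (Fin (N + 1) → ℂ) × (Fin (N + 1) → ℂ) | x.1 ≠ x.2} ∈ 𝓝 (p.1, q.1) :=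
        (isOpen_ne_fun continuous_fst continuous_snd).mem_nhds hne
      filter_upwards [((hψ1 p).prodMk_nhds (hψ1 q)) hopen] with c hc _
      exact hc
  obtain ⟨k, hk1, hk2⟩ := ((hck.eventually hev1).and (hck.eventually hev2)).exists
  let P' : Finset (Fin (N + 1) → ℂ) := Finset.univ.image fun p : P => ψ p (ck k)
  have hP'card : P'.card = P.card := by
    rw [Finset.card_image_of_injective]
    · simp
    · intro p q hpq
      by_contra hne
      exact hk2 p q hne hpq
  have hsimple : ∀ u ∈ P', IsSimple (affineMatrix n (A₀ k + ∑ v, a v • A k v)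
      (fun i => ∑ v, b v i • A k v)).det θ u := by
    intro u hu
    obtain ⟨p, _, rfl⟩ := Finset.mem_image.mp hu
    rw [← aeval_det_section, hk]
    exact hk1 p
  rw [← hP'card]
  cases n with
  | zero =>
    -- a determinant of size zero is one: no critical points
    have hempty : P' = ∅ := by
      rw [Finset.eq_empty_iff_forall_notMem]
      intro u hu
      have := (hsimple u hu).root
      simp at this
    simp [hempty]
  | succ n' =>
    exact bound_arith N n' _ (card_simple_le _ _ θ P' hsimple)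

/-- The real form of the bound. -/
theorem le_of_card (N' n : ℕ) (hN' : 0 < N') (S : ℕ) (h : 2 * N'.factorial * S ≤ (4 * n) ^ N')
    (D : ℝ) (hD : 0 ≤ D) (hS : D ^ N' ≤ S) : (N' : ℝ) * D / (4 * Real.exp 1) ≤ n := by
  have he := Real.exp_pos 1
  have hfact : ((N' : ℝ) / Real.exp 1) ^ N' ≤ N'.factorial := by
    have h1 := Real.pow_div_factorial_le_exp (x := (N' : ℝ)) (Nat.cast_nonneg _) N'
    have h2 : Real.exp (N' : ℝ) = Real.exp 1 ^ N' := by
      rw [← Real.exp_nat_mul, mul_one]
    rw [h2, div_le_iff₀ (by positivity)] at h1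
    rw [div_pow, div_le_iff₀ (by positivity)]
    linarith
  have hreal : (2 : ℝ) * N'.factorial * S ≤ (4 * n) ^ N' := by exact_mod_cast h
  have h3 : (((N' : ℝ) / Real.exp 1) * D) ^ N' ≤ (4 * n) ^ N' := by
    rw [mul_pow]
    have h4 : ((N' : ℝ) / Real.exp 1) ^ N' * D ^ N' ≤ N'.factorial * S :=
      mul_le_mul hfact hS (by positivity) (by positivity)
    have h5 : (0 : ℝ) ≤ N'.factorial * S := by positivity
    linarith
  have h6 := (pow_le_pow_iff_left₀ (by positivity) (by positivity) hN'.ne').mp h3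
  rw [div_le_iff₀ (by positivity)]
  have : (N' : ℝ) * D = ((N' : ℝ) / Real.exp 1) * D * Real.exp 1 := by
    field_simp
  rw [this]
  nlinarith

end Main

end Crest.Agent.DetCrit
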