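import Crest.Agent.Lib.DetCrit.Roots

/-!
# Normalization of the kernel vectors; the bound for determinantal hypersurfaces
-/

set_option autoImplicit false

namespace Crest.Agent.DetCrit

open MvPolynomial Matrix
open Crest.LogicCS.DetComplexity

section Functional

variable {n : ℕ}

lemma exists_functional (S : Finset (Fin n → ℂ)) (hS : ∀ u ∈ S, u ≠ 0) :
    ∃ φ : Fin n → ℂ, ∀ u ∈ S, φ ⬝ᵥ u ≠ 0 := by
  classical
  let H : (Fin n → ℂ) → Submodule ℂ (Fin n → ℂ) := fun u =>
    { carrier := {φ | φ ⬝ᵥ u = 0}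
      add_mem' := fun {a b} ha hb => by
        simp only [Set.mem_setOf_eq] at *
        rw [add_dotProduct, ha, hb, add_zero]
      zero_mem' := by simp
      smul_mem' := fun c a ha => by
        simp only [Set.mem_setOf_eq] at *
        rw [smul_dotProduct, ha, smul_zero] }
  have htop : (⊤ : Submodule ℂ (Fin n → ℂ)) ∉ S.image H := by
    intro hmem
    obtain ⟨u, hu, hHu⟩ := Finset.mem_image.mp hmem
    apply hS u hu
    funext i
    have h1 : (Pi.single i 1 : Fin n → ℂ) ∈ H u := by rw [hHu]; trivial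
    have h2 : (Pi.single i 1 : Fin n → ℂ) ⬝ᵥ u = 0 := h1
    simpa using h2
  have hne := Subspace.biUnion_ne_univ_of_top_notMem htop
  obtain ⟨φ, hφ⟩ := (Set.ne_univ_iff_exists_notMem _).mp hne
  refine ⟨φ, fun u hu hzero => hφ ?_⟩
  simp only [Set.mem_iUnion]
  exact ⟨H u, Finset.mem_image_of_mem _ hu, hzero⟩

/-- An invertible matrix whose first row is non zero on a finite set of non zero vectors. -/
lemma exists_normalizer {n' : ℕ} (S : Finset (Fin (n' + 1) → ℂ)) (hS : ∀ u ∈ S, u ≠ 0) :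
    ∃ T : Matrix (Fin (n' + 1)) (Fin (n' + 1)) ℂ, T.det ≠ 0 ∧ ∀ u ∈ S, (T *ᵥ u) 0 ≠ 0 := by
  classical
  obtain ⟨φ, hφ⟩ := exists_functional (insert (Pi.single 0 1) S) (by
    intro u hu
    rcases Finset.mem_insert.mp hu with rfl | hu
    · intro h
      have := congrFun h 0
      simp at this
    · exact hS u hu)
  have hφ0 : φ 0 ≠ 0 := by
    have := hφ _ (Finset.mem_insert_self _ _)
    simpa using this
  refine ⟨(1 : Matrix (Fin (n' + 1)) (Fin (n' + 1)) ℂ).updateRow 0 φ, ?_, ?_⟩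
  · intro hdet
    obtain ⟨x, hx, hx0⟩ := Matrix.exists_mulVec_eq_zero_iff.mpr hdet
    apply hx
    have hi : ∀ i : Fin (n' + 1), i ≠ 0 → x i = 0 := by
      intro i hi
      have := congrFun hx0 i
      simpa [Matrix.mulVec, dotProduct, Matrix.updateRow_ne hi, Matrix.one_apply] using this
    funext i
    by_cases h : i = 0
    · subst h
      have := congrFun hx0 0
      simp only [Matrix.mulVec, dotProduct, Matrix.updateRow_self, Pi.zero_apply] at this
      rw [Fin.sum_univ_succ] at this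
      have h2 : ∑ j : Fin n', φ j.succ * x j.succ = 0 :=
        Finset.sum_eq_zero fun j _ => by rw [hi _ (Fin.succ_ne_zero j), mul_zero]
      rw [h2, add_zero] at this
      exact (mul_eq_zero.mp this).resolve_left hφ0
    · exact hi i h
  · intro u hu
    have := hφ u (Finset.mem_insert_of_mem hu)
    simpa [Matrix.mulVec, Matrix.updateRow_self] using this

end Functional

section Change

variable {n : ℕ} {σ τ : Type} [Fintype σ] [DecidableEq σ]

lemma pderiv_C_mul' (c : ℂ) (i : σ) (g : MvPolynomial σ ℂ) :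
    pderiv i (C c * g) = C c * pderiv i g := by
  rw [Derivation.leibniz, pderiv_C]
  simp [MvPolynomial.smul_eq_C_mul]

lemma Dth_C_mul (θ : σ → ℂ) (c : ℂ) (g : MvPolynomial σ ℂ) :
    Dth θ (C c * g) = C c * Dth θ g := by
  simp only [Dth, pderiv_C_mul', Finset.mul_sum]
  apply Finset.sum_congr rfl
  intro i _
  ring

lemma IsSimple.C_mul {g : MvPolynomial σ ℂ} {θ : τ → σ → ℂ} {p : σ → ℂ} {c : ℂ} (hc : c ≠ 0)
    (h : IsSimple g θ p) : IsSimple (C c * g) θ p where
  root := by simp [h.root]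
  crit l := by
    rw [Dth_C_mul, map_mul, h.crit l, mul_zero]
  inj δ h1 h2 := by
    apply h.inj δ
    · simp only [pderiv_C_mul', map_mul, eval_C] at h1
      have : c * ∑ i, δ i * eval p (pderiv i g) = 0 := by
        rw [← h1, Finset.mul_sum]
        exact Finset.sum_congr rfl fun i _ => by ring
      exact (mul_eq_zero.mp this).resolve_left hc
    · intro l
      have h3 := h2 l
      simp only [Dth_C_mul, pderiv_C_mul', map_mul, eval_C] at h3
      have : c * ∑ i, δ i * eval p (pderiv i (Dth (θ l) g)) = 0 := by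
        rw [← h3, Finset.mul_sum]
        exact Finset.sum_congr rfl fun i _ => by ring
      exact (mul_eq_zero.mp this).resolve_left hc

variable (B₀ : Matrix (Fin n) (Fin n) ℂ) (B : σ → Matrix (Fin n) (Fin n) ℂ)

lemma affine_change (R Q : Matrix (Fin n) (Fin n) ℂ) :
    affineMatrix n (R * B₀ * Q) (fun i => R * B i * Q)
      = R.map C * affineMatrix n B₀ B * Q.map C := by
  have hgen : ∀ (B₀' : Matrix (Fin n) (Fin n) ℂ) (B' : σ → Matrix (Fin n) (Fin n) ℂ),
      affineMatrix n B₀' B' = B₀'.map C + ∑ i, (X i : MvPolynomial σ ℂ) • (B' i).map C := by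
    intro B₀' B'
    ext1 r c
    simp only [affineMatrix, Matrix.of_apply, Matrix.add_apply, Matrix.map_apply, Matrix.sum_apply,
      Matrix.smul_apply, smul_eq_mul, mul_comm]
  rw [hgen, hgen]
  have h3 : ∀ M : Matrix (Fin n) (Fin n) ℂ, (R * M * Q).map (C : ℂ →+* MvPolynomial σ ℂ)
      = R.map C * M.map C * Q.map C := by
    intro M
    simp [Matrix.map_mul]
  simp only [h3, Matrix.mul_add, Matrix.add_mul, Finset.mul_sum, Finset.sum_mul, Matrix.mul_smul,
    Matrix.smul_mul]

lemma Aev_eq (p : σ → ℂ) : Aev B₀ B p = B₀ + ∑ v, p v • B v := by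
  ext r c
  simp [Aev, Matrix.sum_apply, mul_comm]

lemma Aev_change (R Q : Matrix (Fin n) (Fin n) ℂ) (p : σ → ℂ) :
    Aev (R * B₀ * Q) (fun i => R * B i * Q) p = R * Aev B₀ B p * Q := by
  simp only [Aev_eq, Matrix.mul_add, Matrix.add_mul, Finset.mul_sum, Finset.sum_mul, Matrix.mul_smul,
    Matrix.smul_mul]

lemma det_change (R Q : Matrix (Fin n) (Fin n) ℂ) :
    (affineMatrix n (R * B₀ * Q) (fun i => R * B i * Q)).det
      = C (R.det * Q.det) * (affineMatrix n B₀ B).det := by
  rw [affine_change, Matrix.det_mul, Matrix.det_mul, map_mul]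
  have h : ∀ M : Matrix (Fin n) (Fin n) ℂ, (M.map (C : ℂ →+* MvPolynomial σ ℂ)).det = C M.det := by
    intro M
    exact (RingHom.map_det (C : ℂ →+* MvPolynomial σ ℂ) M).symm
  rw [h, h]
  ring

lemma det_Aev (p : σ → ℂ) : (Aev B₀ B p).det = eval p (affineMatrix n B₀ B).det := by
  rw [RingHom.map_det, RingHom.mapMatrix_apply, map_eval_affine]

end Change

section Main

variable {N n' : ℕ}

/-- The bound for simple critical points of determinantal hypersurfaces. -/
theorem card_simple_le (B₀ : Matrix (Fin (n' + 1)) (Fin (n' + 1)) ℂ)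
    (B : Fin (N + 1) → Matrix (Fin (n' + 1)) (Fin (n' + 1)) ℂ) (θ : Fin N → Fin (N + 1) → ℂ)
    (P : Finset (Fin (N + 1) → ℂ))
    (hs : ∀ p ∈ P, IsSimple (affineMatrix (n' + 1) B₀ B).det θ p) :
    P.card ≤ 2 ^ N * (2 * n' + 1).choose (N + 1) := by
  classical
  -- kernel vectors
  have hker : ∀ p : P, ∃ w v : Fin (n' + 1) → ℂ, w ≠ 0 ∧ v ≠ 0 ∧
      Aev B₀ B p.1 *ᵥ w = 0 ∧ (Aev B₀ B p.1)ᵀ *ᵥ v = 0 := by
    intro p
    have hsp := hs p.1 p.2
    obtain ⟨a, b, hab⟩ := adj_ne_zero_of_simple B₀ B θ p.1 (by simp) hsp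
    have hdet : (Aev B₀ B p.1).det = 0 := by
      rw [det_Aev]
      exact hsp.root
    refine ⟨fun r => (Aev B₀ B p.1).adjugate r b, fun k => (Aev B₀ B p.1).adjugate a k, ?_, ?_, ?_, ?_⟩
    · intro h
      exact hab (congrFun h a)
    · intro h
      exact hab (congrFun h b)
    · funext r
      have h1 := congrFun (congrFun (Matrix.mul_adjugate (Aev B₀ B p.1)) r) b
      simp only [hdet, zero_smul, Matrix.zero_apply, Matrix.mul_apply] at h1
      simpa [Matrix.mulVec, dotProduct] using h1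
    · funext k
      have h1 := congrFun (congrFun (Matrix.adjugate_mul (Aev B₀ B p.1)) a) k
      simp only [hdet, zero_smul, Matrix.zero_apply, Matrix.mul_apply] at h1
      simp only [Matrix.mulVec, dotProduct, Matrix.transpose_apply, Pi.zero_apply]
      rw [← h1]
      exact Finset.sum_congr rfl fun i _ => mul_comm _ _
  choose w v hw0 hv0 hw hv using hker
  obtain ⟨T₁, hT₁, hT₁w⟩ := exists_normalizer (Finset.univ.image w) (by
    intro u hu
    obtain ⟨p, _, rfl⟩ := Finset.mem_image.mp hu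
    exact hw0 p)
  obtain ⟨T₂, hT₂, hT₂v⟩ := exists_normalizer (Finset.univ.image v) (by
    intro u hu
    obtain ⟨p, _, rfl⟩ := Finset.mem_image.mp hu
    exact hv0 p)
  haveI : Invertible T₁.det := invertibleOfNonzero hT₁
  haveI : Invertible T₂.det := invertibleOfNonzero hT₂
  haveI : Invertible T₁ := Matrix.invertibleOfDetInvertible T₁
  haveI : Invertible T₂ := Matrix.invertibleOfDetInvertible T₂
  let Q := T₁⁻¹
  let R := (T₂⁻¹)ᵀ
  have hQT : Q * T₁ = 1 := Matrix.inv_mul_of_invertible T₁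
  have hRT : Rᵀ * T₂ = 1 := by
    simp only [R, Matrix.transpose_transpose]
    exact Matrix.inv_mul_of_invertible T₂
  have hQdet : Q.det ≠ 0 := by
    intro h
    have := congrArg Matrix.det hQT
    rw [Matrix.det_mul, h, zero_mul, Matrix.det_one] at this
    exact zero_ne_one this
  have hRdet : R.det ≠ 0 := by
    intro h
    have := congrArg Matrix.det hRT
    rw [Matrix.det_mul, Matrix.det_transpose, h, zero_mul, Matrix.det_one] at this
    exact zero_ne_one this
  -- the new data, extended by junk outside `P`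
  let w' : (Fin (N + 1) → ℂ) → Fin (n' + 1) → ℂ := fun p =>
    if hp : p ∈ P then ((T₁ *ᵥ w ⟨p, hp⟩) 0)⁻¹ • (T₁ *ᵥ w ⟨p, hp⟩) else 0
  let v' : (Fin (N + 1) → ℂ) → Fin (n' + 1) → ℂ := fun p =>
    if hp : p ∈ P then ((T₂ *ᵥ v ⟨p, hp⟩) 0)⁻¹ • (T₂ *ᵥ v ⟨p, hp⟩) else 0
  have hB := card_le_good_of_normalized (B₀ := R * B₀ * Q) (B := fun i => R * B i * Q) (θ := θ) P w' v'
    (by
      intro p hp
      rw [det_change]
      exact (hs p hp).C_mul (mul_ne_zero hRdet hQdet))
    (by
      intro p hp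
      simp only [w', hp, dif_pos]
      rw [Aev_change, Matrix.mulVec_smul]
      have : (R * Aev B₀ B p * Q) *ᵥ (T₁ *ᵥ w ⟨p, hp⟩) = 0 := by
        rw [Matrix.mulVec_mulVec, Matrix.mul_assoc, hQT, Matrix.mul_one, ← Matrix.mulVec_mulVec,
          hw ⟨p, hp⟩, Matrix.mulVec_zero]
      rw [this, smul_zero])
    (by
      intro p hp
      simp only [v', hp, dif_pos]
      rw [Aev_change, Matrix.mulVec_smul]
      have : (R * Aev B₀ B p * Q)ᵀ *ᵥ (T₂ *ᵥ v ⟨p, hp⟩) = 0 := by
        rw [Matrix.mulVec_mulVec, Matrix.transpose_mul, Matrix.transpose_mul, Matrix.mul_assoc,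
          Matrix.mul_assoc, hRT, Matrix.mul_one, ← Matrix.mulVec_mulVec, hv ⟨p, hp⟩,
          Matrix.mulVec_zero]
      rw [this, smul_zero])
    (by
      intro p hp
      simp only [w', hp, dif_pos, Pi.smul_apply, smul_eq_mul]
      exact inv_mul_cancel₀ (hT₁w _ (Finset.mem_image_of_mem _ (Finset.mem_univ _))))
    (by
      intro p hp
      simp only [v', hp, dif_pos, Pi.smul_apply, smul_eq_mul]
      exact inv_mul_cancel₀ (hT₂v _ (Finset.mem_image_of_mem _ (Finset.mem_univ _))))
  exact hB.trans card_good_le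

/-- The bound in closed form. -/
theorem bound_arith (N n' S : ℕ) (h : S ≤ 2 ^ N * (2 * n' + 1).choose (N + 1)) :
    2 * (N + 1).factorial * S ≤ (4 * (n' + 1)) ^ (N + 1) := by
  have h1 : (2 * n' + 1).choose (N + 1) * (N + 1).factorial ≤ (2 * n' + 1) ^ (N + 1) := by
    rw [mul_comm, ← Nat.descFactorial_eq_factorial_mul_choose]
    exact Nat.descFactorial_le_pow _ _
  have h2 : (2 * n' + 1) ^ (N + 1) ≤ (2 * (n' + 1)) ^ (N + 1) :=
    Nat.pow_le_pow_left (by omega) _
  calc 2 * (N + 1).factorial * S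
      ≤ 2 * (N + 1).factorial * (2 ^ N * (2 * n' + 1).choose (N + 1)) := Nat.mul_le_mul_left _ h
    _ = 2 ^ (N + 1) * ((2 * n' + 1).choose (N + 1) * (N + 1).factorial) := by ring
    _ ≤ 2 ^ (N + 1) * (2 * (n' + 1)) ^ (N + 1) := Nat.mul_le_mul_left _ (h1.trans h2)
    _ = (4 * (n' + 1)) ^ (N + 1) := by
      rw [← mul_pow]
      congr 1
      ring

end Main

end Crest.Agent.DetCrit
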