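import Crest.Agent.Lib.DetCrit.DetExact

/-!
# Persistence of nondegenerate critical points under a perturbation of coefficients
-/

open Filter Topology Module Matrix

set_option linter.unusedSectionVars false

namespace Crest.Agent.DetCrit

variable {N : ℕ} {S : Type} [Fintype S]

/-- The linear combination of the basic functions. -/
noncomputable def fc (h : S → (Fin N → ℂ) → ℂ) (c : S → ℂ) (x : Fin N → ℂ) : ℂ :=
  ∑ s, c s * h s x

theorem contDiff_fc {h : S → (Fin N → ℂ) → ℂ} (hh : ∀ s, ContDiff ℂ 2 (h s)) (c : S → ℂ) :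
    ContDiff ℂ 2 (fc h c) := by
  unfold fc
  exact ContDiff.sum fun s _ => contDiff_const.mul (hh s)

theorem fderiv_fc {h : S → (Fin N → ℂ) → ℂ} (hh : ∀ s, ContDiff ℂ 2 (h s)) (c : S → ℂ)
    (x θ : Fin N → ℂ) : fderiv ℂ (fc h c) x θ = ∑ s, c s * fderiv ℂ (h s) x θ := by
  have h1 : HasFDerivAt (fc h c) (∑ s, c s • fderiv ℂ (h s) x) x := by
    unfold fc
    refine HasFDerivAt.fun_sum fun s _ => ?_
    have h2 : HasFDerivAt (h s) (fderiv ℂ (h s) x) x :=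
      ((hh s).differentiable (by norm_num) x).hasFDerivAt
    exact h2.const_mul (c s)
  rw [h1.fderiv]
  simp

/-- The critical point equations with parameters. -/
noncomputable def PhiC (h : S → (Fin N → ℂ) → ℂ) (ξ : Fin N → ℂ)
    (p : (S → ℂ) × ((Fin N → ℂ) × ℂ)) : ℂ × (Fin N → ℂ) :=
  (∑ s, p.1 s * h s p.2.1, fun i =>
    (∑ s, p.1 s * fderiv ℂ (h s) p.2.1 (Pi.single i 1)) - p.2.2 * ξ i)

theorem contDiff_PhiC {h : S → (Fin N → ℂ) → ℂ} (hh : ∀ s, ContDiff ℂ 2 (h s)) (ξ : Fin N → ℂ) :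
    ContDiff ℂ 1 (PhiC h ξ) := by
  unfold PhiC
  refine ContDiff.prodMk ?_ (contDiff_pi.2 fun i => ?_)
  · refine ContDiff.sum fun s _ => ?_
    have h1 : ContDiff ℂ 1 (fun p : (S → ℂ) × ((Fin N → ℂ) × ℂ) => p.1 s) := by fun_prop
    have h2 : ContDiff ℂ 1 (fun p : (S → ℂ) × ((Fin N → ℂ) × ℂ) => h s p.2.1) :=
      ((hh s).of_le (by norm_num)).comp (by fun_prop)
    exact h1.mul h2
  · refine ContDiff.sub (ContDiff.sum fun s _ => ?_) ?_
    · have h1 : ContDiff ℂ 1 (fun p : (S → ℂ) × ((Fin N → ℂ) × ℂ) => p.1 s) := by fun_prop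
      have h2 : ContDiff ℂ 1 (fderiv ℂ (h s)) := (hh s).fderiv_right (m := 1) (by norm_num)
      have h3 : ContDiff ℂ 1 (fun p : (S → ℂ) × ((Fin N → ℂ) × ℂ) =>
          fderiv ℂ (h s) p.2.1 (Pi.single i 1)) :=
        (h2.comp (by fun_prop : ContDiff ℂ 1
          (fun p : (S → ℂ) × ((Fin N → ℂ) × ℂ) => p.2.1))).clm_apply contDiff_const
      exact h1.mul h3
    · fun_prop

theorem PhiC_eq {h : S → (Fin N → ℂ) → ℂ} (hh : ∀ s, ContDiff ℂ 2 (h s)) (ξ : Fin N → ℂ)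
    (c : S → ℂ) (x : Fin N → ℂ) (l : ℂ) :
    PhiC h ξ (c, (x, l)) = (fc h c x, fun i => fderiv ℂ (fc h c) x (Pi.single i 1) - l * ξ i) := by
  unfold PhiC
  refine Prod.ext rfl (funext fun i => ?_)
  simp only
  rw [fderiv_fc hh]

/-- The partial derivative of the critical point equations. -/
theorem fderiv_PhiC_apply {h : S → (Fin N → ℂ) → ℂ} (hh : ∀ s, ContDiff ℂ 2 (h s)) (ξ : Fin N → ℂ)
    (c : S → ℂ) (x : Fin N → ℂ) (l : ℂ) (dx : Fin N → ℂ) (dl : ℂ) :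
    fderiv ℂ (PhiC h ξ) (c, (x, l)) (0, (dx, dl)) =
      (fderiv ℂ (fc h c) x dx, fun i =>
        fderiv ℂ (fderiv ℂ (fc h c)) x dx (Pi.single i 1) - dl * ξ i) := by
  have hΦ := contDiff_PhiC hh ξ
  have hd : HasFDerivAt (PhiC h ξ) (fderiv ℂ (PhiC h ξ) (c, (x, l))) (c, (x, l)) :=
    (hΦ.differentiable (by norm_num) _).hasFDerivAt
  let cv : ℂ → (S → ℂ) × ((Fin N → ℂ) × ℂ) := fun t => (c, (x + t • dx, l + t * dl))
  have hxc : HasDerivAt (fun t : ℂ => x + t • dx) dx 0 := by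
    have : HasDerivAt (fun s : ℂ => s • dx) ((1 : ℂ) • dx) 0 := (hasDerivAt_id (0 : ℂ)).smul_const dx
    simpa using this.const_add x
  have hc : HasDerivAt cv ((0 : S → ℂ), (dx, dl)) 0 := by
    refine HasDerivAt.prodMk (hasDerivAt_const _ _) (HasDerivAt.prodMk hxc ?_)
    have : HasDerivAt (fun s : ℂ => l + s * dl) (0 + 1 * dl) 0 :=
      (hasDerivAt_const _ _).add ((hasDerivAt_id (0 : ℂ)).mul_const dl)
    simpa using this
  have hd' : HasFDerivAt (PhiC h ξ) (fderiv ℂ (PhiC h ξ) (c, (x, l))) (cv 0) := by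
    simpa [cv] using hd
  have h1 := hd'.comp_hasDerivAt (0 : ℂ) hc
  have hf := contDiff_fc hh c
  have hg : ContDiff ℂ 1 (fderiv ℂ (fc h c)) := hf.fderiv_right (m := 1) (by norm_num)
  have h2 : HasDerivAt ((PhiC h ξ) ∘ cv) ((fderiv ℂ (fc h c) x dx, fun i =>
      fderiv ℂ (fderiv ℂ (fc h c)) x dx (Pi.single i 1) - dl * ξ i) : ℂ × (Fin N → ℂ)) 0 := by
    have heq : (PhiC h ξ) ∘ cv = fun t : ℂ => ((fc h c (x + t • dx), fun i =>
        fderiv ℂ (fc h c) (x + t • dx) (Pi.single i 1) - (l + t * dl) * ξ i) : ℂ × (Fin N → ℂ)) := by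
      funext t
      simp only [Function.comp, cv]
      exact PhiC_eq hh ξ c _ _
    rw [heq]
    have hfd : HasFDerivAt (fc h c) (fderiv ℂ (fc h c) x) ((fun t : ℂ => x + t • dx) 0) := by
      simpa using (hf.differentiable (by norm_num) x).hasFDerivAt
    have hgd : HasFDerivAt (fderiv ℂ (fc h c)) (fderiv ℂ (fderiv ℂ (fc h c)) x)
        ((fun t : ℂ => x + t • dx) 0) := by
      simpa using (hg.differentiable (by norm_num) x).hasFDerivAt
    refine HasDerivAt.prodMk ?_ (hasDerivAt_pi.2 fun i => ?_)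
    · have h7 := hfd.comp_hasDerivAt (0 : ℂ) hxc
      exact h7
    · have h3 := hgd.comp_hasDerivAt (0 : ℂ) hxc
      have h4 := h3.clm_apply (hasDerivAt_const (0 : ℂ) ((Pi.single i 1 : Fin N → ℂ)))
      have h5 : HasDerivAt (fun t : ℂ => (l + t * dl) * ξ i) ((0 + 1 * dl) * ξ i) 0 :=
        ((hasDerivAt_const _ _).add ((hasDerivAt_id (0 : ℂ)).mul_const dl)).mul_const _
      have h6 := h4.fun_sub h5
      simpa [Function.comp_def] using h6
  exact h1.unique h2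

theorem dot_single_sum {f : (Fin N → ℂ) →L[ℂ] ℂ} (θ : Fin N → ℂ) :
    f θ = ∑ i, θ i * f (Pi.single i 1) := by
  conv_lhs => rw [pi_eq_sum_univ θ]
  simp only [map_sum, map_smul, smul_eq_mul]
  refine Finset.sum_congr rfl fun i _ => ?_
  congr 2
  ext j
  simp [Pi.single_apply, eq_comm]

/-- **Persistence of nondegenerate critical points.** -/
theorem crit_persist {h : S → (Fin N → ℂ) → ℂ} (hh : ∀ s, ContDiff ℂ 2 (h s)) {ξ : Fin N → ℂ}
    (hξ : ξ ≠ 0) {c₀ : S → ℂ} {x₀ : Fin N → ℂ} (hx₀ : NondegCrit (fc h c₀) ξ x₀) :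
    ∃ g : (S → ℂ) → Fin N → ℂ, Tendsto g (𝓝 c₀) (𝓝 x₀) ∧
      ∀ᶠ c in 𝓝 c₀, NondegCrit (fc h c) ξ (g c) := by
  classical
  obtain ⟨l₀, hl₀, hgr⟩ := hx₀.crit
  obtain ⟨i₀, hi₀⟩ : ∃ i, ξ i ≠ 0 := by
    by_contra hcon
    push Not at hcon
    exact hξ (funext hcon)
  let w₀ : (Fin N → ℂ) × ℂ := (x₀, l₀)
  have hΦ := contDiff_PhiC hh ξ
  have hbase : PhiC h ξ (c₀, w₀) = 0 := by
    rw [PhiC_eq hh]
    refine Prod.ext hx₀.zero (funext fun i => ?_)
    simp only [hgr, Prod.snd_zero, Pi.zero_apply, dotProduct_single, mul_one, sub_self]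
  -- injectivity of the Jacobian, general form
  have hS : HasStrictFDerivAt (PhiC h ξ) (fderiv ℂ (PhiC h ξ) (c₀, w₀)) (c₀, w₀) :=
    hΦ.contDiffAt.hasStrictFDerivAt (by simp)
  have hinj : ∀ dw : (Fin N → ℂ) × ℂ, fderiv ℂ (PhiC h ξ) (c₀, w₀) (0, dw) = 0 → dw = 0 := by
    rintro ⟨dx, dl⟩ hd
    rw [fderiv_PhiC_apply hh] at hd
    have h1 : fderiv ℂ (fc h c₀) x₀ dx = 0 := congrArg Prod.fst hd
    have h2 : ∀ i, fderiv ℂ (fderiv ℂ (fc h c₀)) x₀ dx (Pi.single i 1) = dl * ξ i := by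
      intro i
      have := congrFun (congrArg Prod.snd hd) i
      exact sub_eq_zero.1 this
    have h3 : dx = 0 := hx₀.nondeg dx dl h1 (fun θ => by
      rw [dot_single_sum θ]
      simp only [h2, dotProduct, Finset.mul_sum]
      exact Finset.sum_congr rfl fun i _ => by ring)
    subst h3
    have h4 := h2 i₀
    simp only [map_zero, _root_.zero_apply] at h4
    have h5 : dl = 0 := (mul_eq_zero.1 h4.symm).resolve_right hi₀
    simp [h5]
  have hdim : finrank ℂ ((Fin N → ℂ) × ℂ) = finrank ℂ (ℂ × (Fin N → ℂ)) := by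
    simp [Module.finrank_prod, add_comm]
  obtain ⟨⟨G, hG, hsol⟩, -⟩ := param_ift hS hinj hdim
  -- openness of invertibility
  let J : (S → ℂ) × ((Fin N → ℂ) × ℂ) → ((Fin N → ℂ) × ℂ) →L[ℂ] (ℂ × (Fin N → ℂ)) := fun p =>
    (fderiv ℂ (PhiC h ξ) p).comp (ContinuousLinearMap.inr ℂ (S → ℂ) ((Fin N → ℂ) × ℂ))
  have hJc : Continuous J :=
    (hΦ.continuous_fderiv (by norm_num)).clm_comp continuous_const
  have hJ0 : Function.Injective (J (c₀, w₀) : ((Fin N → ℂ) × ℂ) →ₗ[ℂ] (ℂ × (Fin N → ℂ))) := by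
    rw [← LinearMap.ker_eq_bot, LinearMap.ker_eq_bot']
    intro dw hdw
    exact hinj dw hdw
  let e0 : ((Fin N → ℂ) × ℂ) ≃ₗ[ℂ] (ℂ × (Fin N → ℂ)) :=
    LinearMap.linearEquivOfInjective (J (c₀, w₀) : ((Fin N → ℂ) × ℂ) →ₗ[ℂ] (ℂ × (Fin N → ℂ))) hJ0 hdim
  let e : ((Fin N → ℂ) × ℂ) ≃L[ℂ] (ℂ × (Fin N → ℂ)) := e0.toContinuousLinearEquiv
  have hee : (e : ((Fin N → ℂ) × ℂ) →L[ℂ] (ℂ × (Fin N → ℂ))) = J (c₀, w₀) := by
    ext x <;> rfl
  have hrange := e.nhds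
  rw [hee] at hrange
  have hJev : ∀ᶠ p in 𝓝 ((c₀, w₀) : (S → ℂ) × ((Fin N → ℂ) × ℂ)),
      J p ∈ Set.range ((↑) : (((Fin N → ℂ) × ℂ) ≃L[ℂ] (ℂ × (Fin N → ℂ))) → _) :=
    hJc.continuousAt.eventually hrange
  have hpair : Tendsto (fun c => ((c, G c) : (S → ℂ) × ((Fin N → ℂ) × ℂ))) (𝓝 c₀) (𝓝 (c₀, w₀)) :=
    tendsto_id.prodMk_nhds hG
  have hlim2 : Tendsto (fun c => (G c).2) (𝓝 c₀) (𝓝 l₀) := (continuous_snd.tendsto _).comp hG
  have hlim1 : Tendsto (fun c => (G c).1) (𝓝 c₀) (𝓝 x₀) := (continuous_fst.tendsto _).comp hG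
  refine ⟨fun c => (G c).1, hlim1, ?_⟩
  filter_upwards [hsol, hpair.eventually hJev, hlim2.eventually_ne hl₀] with c hc1 hc2 hc3
  rw [hbase] at hc1
  have hc1' : PhiC h ξ (c, ((G c).1, (G c).2)) = 0 := hc1
  rw [PhiC_eq hh] at hc1'
  have hz : fc h c (G c).1 = 0 := congrArg Prod.fst hc1'
  have hgd : ∀ i, fderiv ℂ (fc h c) (G c).1 (Pi.single i 1) = (G c).2 * ξ i := by
    intro i
    have := congrFun (congrArg Prod.snd hc1') i
    exact sub_eq_zero.1 this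
  refine ⟨hz, ⟨(G c).2, hc3, fun θ => ?_⟩, fun dx dl h1 h2 => ?_⟩
  · rw [dot_single_sum θ]
    simp only [hgd, dotProduct, Finset.mul_sum]
    exact Finset.sum_congr rfl fun i _ => by ring
  · obtain ⟨E, hE⟩ := hc2
    have hinjJ : ∀ dw, J (c, G c) dw = 0 → dw = 0 := by
      intro dw hdw
      rw [← hE] at hdw
      exact E.injective (by simpa using hdw)
    have h3 : J (c, ((G c).1, (G c).2)) (dx, dl) = 0 := by
      change fderiv ℂ (PhiC h ξ) (c, ((G c).1, (G c).2)) (0, (dx, dl)) = 0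
      rw [fderiv_PhiC_apply hh]
      refine Prod.ext h1 (funext fun i => ?_)
      simp only [h2, dotProduct_single, mul_one, sub_self, Prod.snd_zero, Pi.zero_apply]
    have h4 := hinjJ (dx, dl) h3
    exact congrArg Prod.fst h4

end Crest.Agent.DetCrit
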