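import Crest.Agent.Lib.DetCrit.Adj

/-!
# Simple critical points of a determinantal hypersurface give simple roots of a bilinear system
-/

set_option autoImplicit false

namespace Crest.Agent.DetCrit

open MvPolynomial Matrix TrivSqZeroExt
open Crest.LogicCS.DetComplexity

/-! ### Kernels over the dual numbers -/

section KerDual

variable {n : ℕ}

theorem ker_dual (Ae : Matrix (Fin n) (Fin n) (DualNumber ℂ)) (we : Fin n → DualNumber ℂ)
    (hw : Ae *ᵥ we = 0) (a b : Fin n)
    (hab : (Ae.map fst : Matrix (Fin n) (Fin n) ℂ).adjugate a b ≠ 0)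
    (hw0 : (fun i => fst (we i)) ≠ 0) (y : Fin n → DualNumber ℂ) (hy : Ae *ᵥ y = 0) :
    ∃ α : DualNumber ℂ, y = α • we := by
  classical
  set M : Matrix (Fin n) (Fin n) ℂ := Ae.map fst with hM
  have hfst : ∀ u : Fin n → DualNumber ℂ, Ae *ᵥ u = 0 → M *ᵥ (fun i => fst (u i)) = 0 := by
    intro u hu
    funext r
    have := congrArg fst (congrFun hu r)
    simp only [Matrix.mulVec, dotProduct, fst_sum, fst_mul, Pi.zero_apply, fst_zero] at this
    simpa [Matrix.mulVec, dotProduct, hM] using this
  have hsnd : ∀ u : Fin n → DualNumber ℂ, Ae *ᵥ u = 0 → (∀ i, fst (u i) = 0) →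
      M *ᵥ (fun i => snd (u i)) = 0 := by
    intro u hu h0
    funext r
    have := congrArg snd (congrFun hu r)
    simp only [Matrix.mulVec, dotProduct, snd_sum, DualNumber.snd_mul, h0, Pi.zero_apply, snd_zero,
      mul_zero, add_zero] at this
    simpa [Matrix.mulVec, dotProduct, hM] using this
  have hw1 := hfst we hw
  obtain ⟨c, hc⟩ := ker_one M a b hab _ hw1 hw0 _ (hfst y hy)
  set y' : Fin n → DualNumber ℂ := fun i => y i - inl c * we i with hy'
  have hy'0 : ∀ i, fst (y' i) = 0 := by
    intro i
    have := congrFun hc i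
    simp only [Pi.smul_apply, smul_eq_mul] at this
    simp [hy', this]
  have hy'A : Ae *ᵥ y' = 0 := by
    have : y' = y - (inl c : DualNumber ℂ) • we := by
      funext i
      simp [hy']
    rw [this, Matrix.mulVec_sub, Matrix.mulVec_smul, hy, hw]
    simp
  obtain ⟨d, hd⟩ := ker_one M a b hab _ hw1 hw0 _ (hsnd y' hy'A hy'0)
  refine ⟨inl c + inr d, ?_⟩
  funext i
  have h1 := congrFun hc i
  have h2 := congrFun hd i
  simp only [Pi.smul_apply, smul_eq_mul] at h1 h2
  have h3 : snd (y i) = snd (y' i) + snd (inl c * we i) := by simp [hy']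
  apply TrivSqZeroExt.ext
  · simp [h1]
  · rw [h3, h2]
    simp only [Pi.smul_apply, smul_eq_mul, DualNumber.snd_mul, snd_add, fst_add, fst_inl, snd_inl,
      fst_inr, snd_inr]
    ring

end KerDual

/-! ### The determinantal polynomial -/

section Poly

variable {n N : ℕ}

/-- The derivative of a polynomial in direction `θ`. -/
noncomputable def Dth {σ : Type} [Fintype σ] (θ : σ → ℂ) (q : MvPolynomial σ ℂ) : MvPolynomial σ ℂ :=
  ∑ i, C (θ i) * pderiv i q

/-- Simple critical points. -/
structure IsSimple {σ τ : Type} [Fintype σ] [DecidableEq σ] (g : MvPolynomial σ ℂ) (θ : τ → σ → ℂ)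
    (p : σ → ℂ) : Prop where
  root : eval p g = 0
  crit : ∀ l, eval p (Dth (θ l) g) = 0
  inj : ∀ δ : σ → ℂ, ∑ i, δ i * eval p (pderiv i g) = 0 →
    (∀ l, ∑ i, δ i * eval p (pderiv i (Dth (θ l) g)) = 0) → δ = 0

variable {σ : Type} [Fintype σ] [DecidableEq σ]
variable (B₀ : Matrix (Fin n) (Fin n) ℂ) (B : σ → Matrix (Fin n) (Fin n) ℂ)

/-- The value of the affine matrix at a point. -/
noncomputable def Aev (p : σ → ℂ) : Matrix (Fin n) (Fin n) ℂ :=
  Matrix.of fun r c => B₀ r c + ∑ v, B v r c * p v

lemma eval_affine (p : σ → ℂ) (r c : Fin n) :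
    eval p ((affineMatrix n B₀ B) r c) = Aev B₀ B p r c := by
  simp [affineMatrix, Aev]

lemma map_eval_affine (p : σ → ℂ) :
    (affineMatrix n B₀ B).map (eval p) = Aev B₀ B p := by
  ext r c
  exact eval_affine B₀ B p r c

lemma pderiv_affine (i : σ) (r c : Fin n) :
    pderiv i ((affineMatrix n B₀ B) r c) = C (B i r c) := by
  classical
  simp only [affineMatrix, Matrix.of_apply, map_add, pderiv_C, zero_add, map_sum]
  rw [Finset.sum_eq_single i]
  · rw [Derivation.leibniz]
    simp [pderiv_X_self, pderiv_C]
  · intro b _ hb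
    rw [Derivation.leibniz]
    simp [pderiv_X_of_ne hb, pderiv_C]
  · simp

lemma pderiv_det (i : σ) :
    pderiv i (affineMatrix n B₀ B).det
      = ∑ k, ∑ r, (affineMatrix n B₀ B).adjugate k r * C (B i r k) := by
  rw [derivation_det]
  simp only [pderiv_affine]

/-- The matrix of the direction `θ`. -/
noncomputable def Bdir (θ : σ → ℂ) : Matrix (Fin n) (Fin n) ℂ := ∑ i, θ i • B i

lemma Dth_det (θ : σ → ℂ) :
    Dth θ (affineMatrix n B₀ B).det
      = ∑ k, ∑ r, (affineMatrix n B₀ B).adjugate k r * C (Bdir B θ r k) := by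
  simp only [Dth, pderiv_det, Finset.mul_sum]
  rw [Finset.sum_comm]
  apply Finset.sum_congr rfl
  intro k _
  rw [Finset.sum_comm]
  apply Finset.sum_congr rfl
  intro r _
  have : Bdir B θ r k = ∑ i, θ i * B i r k := by
    simp [Bdir, Matrix.sum_apply]
  rw [this, map_sum, Finset.mul_sum]
  apply Finset.sum_congr rfl
  intro i _
  rw [map_mul]
  ring

/-- The adjugate is non zero at a simple critical point. -/
theorem adj_ne_zero_of_simple {τ : Type} [Fintype τ] (θ : τ → σ → ℂ) (p : σ → ℂ)
    (hcard : Fintype.card τ < Fintype.card σ)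
    (h : IsSimple (affineMatrix n B₀ B).det θ p) :
    ∃ a b, (Aev B₀ B p).adjugate a b ≠ 0 := by
  classical
  by_contra hcon
  push_neg at hcon
  -- the gradient vanishes
  have hgrad : ∀ i, eval p (pderiv i (affineMatrix n B₀ B).det) = 0 := by
    intro i
    rw [pderiv_det]
    simp only [map_sum, map_mul, eval_C]
    have hmap : ∀ k r, eval p ((affineMatrix n B₀ B).adjugate k r) = (Aev B₀ B p).adjugate k r := by
      intro k r
      have := (eval p : MvPolynomial σ ℂ →+* ℂ).map_adjugate (affineMatrix n B₀ B)
      have h2 := congrFun (congrFun this k) r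
      simp only [RingHom.mapMatrix_apply, Matrix.map_apply] at h2
      rw [h2]
      congr 2
      exact map_eval_affine B₀ B p
    simp [hmap, hcon]
  -- a kernel vector of the remaining rows
  let T : (σ → ℂ) →ₗ[ℂ] (τ → ℂ) :=
    LinearMap.pi fun l =>
      ∑ i, (eval p (pderiv i (Dth (θ l) (affineMatrix n B₀ B).det))) • LinearMap.proj i
  have hker : LinearMap.ker T ≠ ⊥ := by
    apply LinearMap.ker_ne_bot_of_finrank_lt
    simpa using hcard
  obtain ⟨δ, hδ, hδ0⟩ := (Submodule.ne_bot_iff _).mp hker
  apply hδ0
  apply h.inj δ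
  · simp [hgrad]
  · intro l
    have := congrFun (LinearMap.mem_ker.mp hδ) l
    simp only [T, LinearMap.pi_apply, LinearMap.sum_apply, LinearMap.smul_apply, LinearMap.proj_apply,
      smul_eq_mul, Pi.zero_apply] at this
    rw [← this]
    exact Finset.sum_congr rfl fun i _ => mul_comm _ _

end Poly

/-! ### The bilinear system -/

section System

variable {N n' : ℕ}

/-- The variables of the bilinear system: `x₀, x₁, …`, then `w`, then `v`. -/
abbrev Var (N n' : ℕ) : Type := Option (Fin (N + 1)) ⊕ (Fin (n' + 1) ⊕ Fin (n' + 1))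

/-- The equations of the bilinear system. -/
abbrev Eqn (N n' : ℕ) : Type := Fin (n' + 1) ⊕ (Fin n' ⊕ Fin N)

/-- The grouping of the variables. -/
def grV : Var N n' → Fin 3
  | Sum.inl _ => 0
  | Sum.inr (Sum.inl _) => 1
  | Sum.inr (Sum.inr _) => 2

/-- The chart variables. -/
def i₀V : Fin 3 → Var N n' := fun g =>
  if g = 0 then Sum.inl none else if g = 1 then Sum.inr (Sum.inl 0) else Sum.inr (Sum.inr 0)

lemma gr_i₀V (g : Fin 3) : grV (i₀V (N := N) (n' := n') g) = g := by
  fin_cases g <;> rfl

/-- Types of the equations. -/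
def g₁V : Eqn N n' → Fin 3
  | Sum.inl _ => 0
  | Sum.inr (Sum.inl _) => 0
  | Sum.inr (Sum.inr _) => 1

/-- Types of the equations. -/
def g₂V : Eqn N n' → Fin 3
  | Sum.inl _ => 1
  | Sum.inr (Sum.inl _) => 2
  | Sum.inr (Sum.inr _) => 2

variable (B₀ : Matrix (Fin (n' + 1)) (Fin (n' + 1)) ℂ) (B : Fin (N + 1) → Matrix (Fin (n' + 1)) (Fin (n' + 1)) ℂ)
variable (θ : Fin N → Fin (N + 1) → ℂ)

/-- The homogenized entries. -/
noncomputable def xlin (r c : Fin (n' + 1)) : MvPolynomial (Var N n') ℂ :=
  C (B₀ r c) * X (Sum.inl none) + ∑ i, C (B i r c) * X (Sum.inl (some i))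

/-- The forms of the bilinear system. -/
noncomputable def formV : Eqn N n' → MvPolynomial (Var N n') ℂ
  | Sum.inl r => ∑ c, xlin B₀ B r c * X (Sum.inr (Sum.inl c))
  | Sum.inr (Sum.inl c') => ∑ r, xlin B₀ B r c'.succ * X (Sum.inr (Sum.inr r))
  | Sum.inr (Sum.inr l) => ∑ r, ∑ c, C (Bdir B (θ l) r c) * (X (Sum.inr (Sum.inl c)) * X (Sum.inr (Sum.inr r)))

lemma xlin_mem (r c : Fin (n' + 1)) : xlin B₀ B r c ∈ L grV (0 : Fin 3) := by
  unfold xlin
  refine Submodule.add_mem _ ?_ (Submodule.sum_mem _ fun i _ => ?_)
  · rw [← MvPolynomial.smul_eq_C_mul]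
    exact Submodule.smul_mem _ _ (Submodule.subset_span ⟨_, rfl, rfl⟩)
  · rw [← MvPolynomial.smul_eq_C_mul]
    exact Submodule.smul_mem _ _ (Submodule.subset_span ⟨_, rfl, rfl⟩)

lemma formV_mem (j : Eqn N n') :
    formV B₀ B θ j ∈ M grV (Pi.single (g₁V j) 1 + Pi.single (g₂V j) 1) := by
  rcases j with r | c' | l
  · refine Submodule.sum_mem _ fun c _ => ?_
    apply mul_mem_M
    · rw [M_single]; exact xlin_mem B₀ B r c
    · rw [M_single]; exact Submodule.subset_span ⟨_, rfl, rfl⟩
  · refine Submodule.sum_mem _ fun r _ => ?_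
    apply mul_mem_M
    · rw [M_single]; exact xlin_mem B₀ B r _
    · rw [M_single]; exact Submodule.subset_span ⟨_, rfl, rfl⟩
  · refine Submodule.sum_mem _ fun r _ => Submodule.sum_mem _ fun c _ => ?_
    rw [← MvPolynomial.smul_eq_C_mul]
    refine Submodule.smul_mem _ _ ?_
    apply mul_mem_M
    · rw [M_single]; exact Submodule.subset_span ⟨_, rfl, rfl⟩
    · rw [M_single]; exact Submodule.subset_span ⟨_, rfl, rfl⟩

/-- The point of the bilinear system attached to `(p, w, v)`. -/
noncomputable def zOf (p : Fin (N + 1) → ℂ) (w v : Fin (n' + 1) → ℂ) : Var N n' → ℂ :=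
  Sum.elim (fun o => o.elim 1 p) (Sum.elim w v)

lemma card_var_eqn : Fintype.card (Eqn N n') + Fintype.card (Fin 3) = Fintype.card (Var N n') := by
  simp [Fintype.card_sum, Fintype.card_option]
  omega

variable {B₀ B θ}

lemma eval_xlin (z : Var N n' → ℂ) (r c : Fin (n' + 1)) :
    eval z (xlin B₀ B r c)
      = B₀ r c * z (Sum.inl none) + ∑ i, B i r c * z (Sum.inl (some i)) := by
  simp [xlin]

/-- The hypotheses of the Bezout inequality are satisfied at a normalized simple point. -/
theorem system_roots (p : Fin (N + 1) → ℂ) (w v : Fin (n' + 1) → ℂ)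
    (hs : IsSimple (affineMatrix (n' + 1) B₀ B).det θ p)
    (hw : Aev B₀ B p *ᵥ w = 0) (hv : (Aev B₀ B p)ᵀ *ᵥ v = 0) (hw0 : w 0 = 1) (hv0 : v 0 = 1) :
    (∀ j, eval (zOf p w v) (formV B₀ B θ j) = 0) ∧
    (∀ δ : Var N n' → ℂ, (∀ g, δ (i₀V g) = 0) →
      (∀ j, ∑ i, δ i * eval (zOf p w v) (pderiv i (formV B₀ B θ j)) = 0) → δ = 0) := by
  classical
  obtain ⟨a, b, hab⟩ := adj_ne_zero_of_simple B₀ B θ p (by simp) hs
  set A := Aev B₀ B p with hA
  have hwne : w ≠ 0 := fun h => by simpa [h] using hw0
  have hvne : v ≠ 0 := fun h => by simpa [h] using hv0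
  have hkerR := ker_one A a b hab w hw hwne
  have hkerL := ker_one_transpose A a b hab v hv hvne
  obtain ⟨-, C₀, hC₀⟩ := rank_one_adj A w v 0 hw hw0 hkerR hkerL
  have hC₀ne : C₀ ≠ 0 := fun h => hab (by rw [hC₀ a b, h]; ring)
  have hmapadj : ∀ k r, eval p ((affineMatrix (n' + 1) B₀ B).adjugate k r) = A.adjugate k r := by
    intro k r
    have := (eval p : MvPolynomial (Fin (N + 1)) ℂ →+* ℂ).map_adjugate (affineMatrix (n' + 1) B₀ B)
    have h2 := congrFun (congrFun this k) r
    simp only [RingHom.mapMatrix_apply, Matrix.map_apply] at h2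
    rw [h2]
    congr 2
    exact map_eval_affine B₀ B p
  have hthird : ∀ l, ∑ r, ∑ c, Bdir B (θ l) r c * (w c * v r) = 0 := by
    intro l
    have h1 := hs.crit l
    rw [Dth_det] at h1
    simp only [map_sum, map_mul, eval_C, hmapadj, hC₀] at h1
    have h2 : C₀ * ∑ r, ∑ c, Bdir B (θ l) r c * (w c * v r) = 0 := by
      rw [← h1, Finset.sum_comm, Finset.mul_sum]
      apply Finset.sum_congr rfl
      intro r _
      rw [Finset.mul_sum]
      apply Finset.sum_congr rfl
      intro c _
      ring
    exact (mul_eq_zero.mp h2).resolve_left hC₀ne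
  have hxz : ∀ r c, eval (zOf p w v) (xlin B₀ B r c) = A r c := by
    intro r c
    rw [eval_xlin]
    simp [zOf, hA, Aev]
  refine ⟨?_, ?_⟩
  · rintro (r | c' | l)
    · simp only [formV, map_sum, map_mul, eval_X, hxz]
      have := congrFun hw r
      simpa [Matrix.mulVec, dotProduct, zOf] using this
    · simp only [formV, map_sum, map_mul, eval_X, hxz]
      have := congrFun hv c'.succ
      simpa [Matrix.mulVec, dotProduct, zOf] using this
    · simp only [formV, map_sum, map_mul, eval_X, eval_C]
      simpa [zOf] using hthird l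
  · intro δ hchart hder
    -- all forms vanish at the dual point
    set z := zOf p w v with hz
    have hφ0 : ∀ j, aeval (dualPt z δ) (formV B₀ B θ j) = 0 := by
      intro j
      have h1 := aeval_dualPt z δ (formV B₀ B θ j)
      apply TrivSqZeroExt.ext
      · rw [h1.1]
        -- the value at `z`
        rcases j with r | c' | l
        · simp only [formV, map_sum, map_mul, eval_X, hxz]
          have := congrFun hw r
          simpa [Matrix.mulVec, dotProduct, hz, zOf] using this
        · simp only [formV, map_sum, map_mul, eval_X, hxz]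
          have := congrFun hv c'.succ
          simpa [Matrix.mulVec, dotProduct, hz, zOf] using this
        · simp only [formV, map_sum, map_mul, eval_X, eval_C]
          simpa [hz, zOf] using hthird l
      · rw [h1.2, hder j]
        rfl
    let δx : Fin (N + 1) → ℂ := fun i => δ (Sum.inl (some i))
    let δw : Fin (n' + 1) → ℂ := fun c => δ (Sum.inr (Sum.inl c))
    let δv : Fin (n' + 1) → ℂ := fun r => δ (Sum.inr (Sum.inr r))
    have hδ0 : δ (Sum.inl none) = 0 := hchart 0
    have hδw0 : δw 0 = 0 := hchart 1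
    have hδv0 : δv 0 = 0 := hchart 2
    let φ₂ : MvPolynomial (Fin (N + 1)) ℂ →ₐ[ℂ] DualNumber ℂ := aeval (dualPt p δx)
    let Ae : Matrix (Fin (n' + 1)) (Fin (n' + 1)) (DualNumber ℂ) :=
      (affineMatrix (n' + 1) B₀ B).map φ₂
    let we : Fin (n' + 1) → DualNumber ℂ := dualPt w δw
    let ve : Fin (n' + 1) → DualNumber ℂ := dualPt v δv
    have hAe : ∀ r c, Ae r c
        = inl (B₀ r c) + ∑ i, inl (B i r c) * dualPt p δx i := by
      intro r c
      simp [Ae, φ₂, affineMatrix, MvPolynomial.aeval_C, TrivSqZeroExt.algebraMap_eq_inl]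
    have hpt1 : dualPt z δ (Sum.inl none) = 1 := by
      simp [dualPt, hz, zOf, hδ0]
    have hxl : ∀ r c, aeval (dualPt z δ) (xlin B₀ B r c) = Ae r c := by
      intro r c
      rw [hAe]
      simp only [xlin, map_add, map_mul, map_sum, MvPolynomial.aeval_C, aeval_X,
        TrivSqZeroExt.algebraMap_eq_inl, hpt1, mul_one]
      congr 1
    have hE1 : ∀ r, ∑ c, Ae r c * we c = 0 := by
      intro r
      have := hφ0 (Sum.inl r)
      simp only [formV, map_sum, map_mul, aeval_X, hxl] at this
      exact this
    have hE2 : ∀ c' : Fin n', ∑ r, Ae r c'.succ * ve r = 0 := by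
      intro c'
      have := hφ0 (Sum.inr (Sum.inl c'))
      simp only [formV, map_sum, map_mul, aeval_X, hxl] at this
      exact this
    have hE3 : ∀ l, ∑ r, ∑ c, inl (Bdir B (θ l) r c) * (we c * ve r) = 0 := by
      intro l
      have := hφ0 (Sum.inr (Sum.inr l))
      simp only [formV, map_sum, map_mul, aeval_X, MvPolynomial.aeval_C,
        TrivSqZeroExt.algebraMap_eq_inl] at this
      exact this
    have hwe0 : we 0 = 1 := by
      simp only [we, dualPt, hw0, hδw0]
      simp
    have hAew : Ae *ᵥ we = 0 := by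
      funext r
      exact hE1 r
    have hAev : Aeᵀ *ᵥ ve = 0 := by
      funext c
      refine Fin.cases ?_ (fun c' => ?_) c
      · -- the dependent equation
        have hsum : ∑ c, (∑ r, Ae r c * ve r) * we c = 0 := by
          have : ∑ c, (∑ r, Ae r c * ve r) * we c = ∑ r, ve r * ∑ c, Ae r c * we c := by
            simp only [Finset.sum_mul, Finset.mul_sum]
            rw [Finset.sum_comm]
            apply Finset.sum_congr rfl
            intro r _
            apply Finset.sum_congr rfl
            intro c _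
            ring
          rw [this]
          simp [hE1]
        rw [Fin.sum_univ_succ] at hsum
        simp only [hE2, zero_mul, Finset.sum_const_zero, add_zero, hwe0, mul_one] at hsum
        simpa [Matrix.mulVec, dotProduct] using hsum
      · have := hE2 c'
        simpa [Matrix.mulVec, dotProduct] using this
    have hfstAe : (Ae.map fst : Matrix (Fin (n' + 1)) (Fin (n' + 1)) ℂ) = A := by
      ext r c
      simp only [Matrix.map_apply, Ae]
      rw [(aeval_dualPt p δx _).1, eval_affine]
    have hfstAe' : ((Aeᵀ).map fst : Matrix (Fin (n' + 1)) (Fin (n' + 1)) ℂ) = Aᵀ := by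
      rw [← hfstAe]
      ext r c
      rfl
    have hfstwe : (fun i => fst (we i)) = w := by
      funext i
      simp [we, fst_dualPt]
    have hfstve : (fun i => fst (ve i)) = v := by
      funext i
      simp [ve, fst_dualPt]
    have hkerRe := ker_dual Ae we hAew a b (by rw [hfstAe]; exact hab)
      (by rw [hfstwe]; exact hwne)
    have hkerLe := ker_dual Aeᵀ ve hAev b a
      (by rw [hfstAe', ← Matrix.adjugate_transpose]; exact hab)
      (by rw [hfstve]; exact hvne)
    obtain ⟨hdet, Ce, hCe⟩ := rank_one_adj Ae we ve 0 hAew hwe0 hkerRe hkerLe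
    -- the first order conditions
    have hφ₂g : φ₂ (affineMatrix (n' + 1) B₀ B).det = 0 := by
      rw [AlgHom.map_det]
      exact hdet
    have hφ₂D : ∀ l, φ₂ (Dth (θ l) (affineMatrix (n' + 1) B₀ B).det) = 0 := by
      intro l
      rw [Dth_det]
      simp only [map_sum, map_mul, MvPolynomial.aeval_C, φ₂, TrivSqZeroExt.algebraMap_eq_inl]
      have hadj : ∀ k r, aeval (dualPt p δx) ((affineMatrix (n' + 1) B₀ B).adjugate k r)
          = Ae.adjugate k r := by
        intro k r
        have := (φ₂ : MvPolynomial (Fin (N + 1)) ℂ →ₐ[ℂ] DualNumber ℂ).map_adjugate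
          (affineMatrix (n' + 1) B₀ B)
        have h2 := congrFun (congrFun this k) r
        exact h2
      simp only [hadj, hCe]
      have h3 := hE3 l
      have : ∑ k, ∑ r, Ce * we k * ve r * inl (Bdir B (θ l) r k)
          = Ce * ∑ r, ∑ c, inl (Bdir B (θ l) r c) * (we c * ve r) := by
        rw [Finset.sum_comm, Finset.mul_sum]
        apply Finset.sum_congr rfl
        intro r _
        rw [Finset.mul_sum]
        apply Finset.sum_congr rfl
        intro c _
        ring
      rw [this, h3, mul_zero]
    have hδx : δx = 0 := by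
      apply hs.inj δx
      · have h1 := (aeval_dualPt p δx (affineMatrix (n' + 1) B₀ B).det).2
        rw [← h1]
        change snd (φ₂ _) = 0
        rw [hφ₂g]
        rfl
      · intro l
        have h1 := (aeval_dualPt p δx (Dth (θ l) (affineMatrix (n' + 1) B₀ B).det)).2
        rw [← h1]
        change snd (φ₂ _) = 0
        rw [hφ₂D l]
        rfl
    have hsndAe : ∀ r c, snd (Ae r c) = 0 := by
      intro r c
      change snd (aeval (dualPt p δx) _) = 0
      rw [(aeval_dualPt p δx _).2]
      simp [hδx]
    have hfstAe2 : ∀ r c, fst (Ae r c) = A r c := by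
      intro r c
      have := congrFun (congrFun hfstAe r) c
      simpa using this
    have hδw : δw = 0 := by
      have h1 : A *ᵥ δw = 0 := by
        funext r
        have := congrArg snd (hE1 r)
        simp only [snd_sum, DualNumber.snd_mul, hsndAe, zero_mul, add_zero, hfstAe2, snd_zero] at this
        simpa [Matrix.mulVec, dotProduct, we, snd_dualPt] using this
      obtain ⟨α, hα⟩ := hkerR δw h1
      have h2 := congrFun hα 0
      simp only [Pi.smul_apply, smul_eq_mul, hw0, mul_one, hδw0] at h2
      rw [hα, ← h2, zero_smul]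
    have hδv : δv = 0 := by
      have h1 : Aᵀ *ᵥ δv = 0 := by
        funext c
        have := congrArg snd (congrFun hAev c)
        simp only [Matrix.mulVec, dotProduct, snd_sum, DualNumber.snd_mul, Matrix.transpose_apply,
          hsndAe, zero_mul, add_zero, hfstAe2, Pi.zero_apply, snd_zero] at this
        simpa [Matrix.mulVec, dotProduct, ve, snd_dualPt] using this
      obtain ⟨β, hβ⟩ := hkerL δv h1
      have h2 := congrFun hβ 0
      simp only [Pi.smul_apply, smul_eq_mul, hv0, mul_one, hδv0] at h2
      rw [hβ, ← h2, zero_smul]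
    funext i
    rcases i with (_ | i) | c | r
    · exact hδ0
    · exact congrFun hδx i
    · exact congrFun hδw c
    · exact congrFun hδv r

/-- The Bezout inequality for normalized simple points of a determinantal hypersurface. -/
theorem card_le_good_of_normalized (P : Finset (Fin (N + 1) → ℂ))
    (w v : (Fin (N + 1) → ℂ) → Fin (n' + 1) → ℂ)
    (hs : ∀ p ∈ P, IsSimple (affineMatrix (n' + 1) B₀ B).det θ p)
    (hw : ∀ p ∈ P, Aev B₀ B p *ᵥ w p = 0) (hv : ∀ p ∈ P, (Aev B₀ B p)ᵀ *ᵥ v p = 0)
    (hw0 : ∀ p ∈ P, w p 0 = 1) (hv0 : ∀ p ∈ P, v p 0 = 1) :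
    P.card ≤ ((Finset.univ : Finset (Eqn N n')).powerset.filter
      (fun V => Good (grV (N := N) (n' := n')) g₁V g₂V V (Finset.univ \ V))).card := by
  classical
  let Z : Finset (Var N n' → ℂ) := P.image fun p => zOf p (w p) (v p)
  have hinj : Set.InjOn (fun p => zOf (N := N) (n' := n') p (w p) (v p)) P := by
    intro p _ q _ hpq
    funext i
    have := congrFun hpq (Sum.inl (some i))
    simpa [zOf] using this
  have hcard : Z.card = P.card := Finset.card_image_of_injOn hinj
  rw [← hcard]
  apply bezout_main grV g₁V g₂V (formV B₀ B θ) (formV_mem B₀ B θ) i₀V gr_i₀V card_var_eqn Z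
  · intro z hz g
    obtain ⟨p, hp, rfl⟩ := Finset.mem_image.mp hz
    fin_cases g
    · simp [i₀V, zOf]
    · simpa [i₀V, zOf] using hw0 p hp
    · simpa [i₀V, zOf] using hv0 p hp
  · intro z hz j
    obtain ⟨p, hp, rfl⟩ := Finset.mem_image.mp hz
    exact (system_roots p (w p) (v p) (hs p hp) (hw p hp) (hv p hp) (hw0 p hp) (hv0 p hp)).1 j
  · intro z hz
    obtain ⟨p, hp, rfl⟩ := Finset.mem_image.mp hz
    exact (system_roots p (w p) (v p) (hs p hp) (hw p hp) (hv p hp) (hw0 p hp) (hv0 p hp)).2

end System

/-! ### Counting -/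

section Count

variable {N n' : ℕ}

lemma cg_zero : cg (grV (N := N) (n' := n')) 0 = N + 2 := by
  classical
  unfold cg
  have e : {i : Var N n' // grV i = 0} ≃ Option (Fin (N + 1)) :=
    { toFun := fun x => match x with
        | ⟨Sum.inl o, _⟩ => o
        | ⟨Sum.inr (Sum.inl _), h⟩ => absurd h (by simp [grV])
        | ⟨Sum.inr (Sum.inr _), h⟩ => absurd h (by simp [grV])
      invFun := fun o => ⟨Sum.inl o, rfl⟩
      left_inv := by
        rintro ⟨(o | c | r), h⟩
        · rfl
        · exact absurd h (by simp [grV])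
        · exact absurd h (by simp [grV])
      right_inv := fun o => rfl }
  rw [Fintype.card_congr e]
  simp

lemma cg_pos (g : Fin 3) : 1 ≤ cg (grV (N := N) (n' := n')) g :=
  Fintype.card_pos_iff.mpr ⟨⟨i₀V g, gr_i₀V g⟩⟩

/-- Bound for the number of good choices. -/
theorem card_good_le :
    ((Finset.univ : Finset (Eqn N n')).powerset.filter
      (fun V => Good (grV (N := N) (n' := n')) g₁V g₂V V (Finset.univ \ V))).card
      ≤ 2 ^ N * (2 * n' + 1).choose (N + 1) := by
  classical
  set S₁ : Finset (Eqn N n') := Finset.univ.filter fun j => g₁V j = 0 with hS₁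
  set S₂ : Finset (Eqn N n') := Finset.univ.filter fun j => g₁V j ≠ 0 with hS₂
  have hS₁card : S₁.card = 2 * n' + 1 := by
    have : S₁ = (Finset.univ.image Sum.inl) ∪
        (Finset.univ.image fun c : Fin n' => (Sum.inr (Sum.inl c) : Eqn N n')) := by
      ext j
      rcases j with r | c | l <;> simp [hS₁, g₁V]
    rw [this, Finset.card_union_of_disjoint]
    · rw [Finset.card_image_of_injective _ Sum.inl_injective,
        Finset.card_image_of_injective _ (fun a b h => by simpa using h)]
      simp
      omega
    · rw [Finset.disjoint_left]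
      intro j hj hj'
      simp only [Finset.mem_image] at hj hj'
      obtain ⟨_, _, rfl⟩ := hj
      obtain ⟨_, _, h⟩ := hj'
      simp at h
  have hS₂card : S₂.card = N := by
    have : S₂ = Finset.univ.image fun l : Fin N => (Sum.inr (Sum.inr l) : Eqn N n') := by
      ext j
      rcases j with r | c | l <;> simp [hS₂, g₁V]
    rw [this, Finset.card_image_of_injective _ (fun a b h => by simpa using h)]
    simp
  have hbound : ((Finset.univ : Finset (Eqn N n')).powerset.filter
      (fun V => Good (grV (N := N) (n' := n')) g₁V g₂V V (Finset.univ \ V))).card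
      ≤ ((S₁.powersetCard (N + 1)) ×ˢ S₂.powerset).card := by
    apply Finset.card_le_card_of_injOn
      (fun V => (V.filter fun j => g₁V j = 0, V.filter fun j => g₁V j ≠ 0))
    · intro V hV
      have hgood := (Finset.mem_filter.mp hV).2
      simp only [Finset.coe_product, Set.mem_prod, Finset.mem_coe, Finset.mem_powersetCard,
        Finset.mem_powerset]
      refine ⟨⟨?_, ?_⟩, ?_⟩
      · intro j hj
        simp only [Finset.mem_filter] at hj
        simp [hS₁, hj.2]
      · -- the count in group `0` is exact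
        have hsum : ∑ g, cnt g₁V g₂V V (Finset.univ \ V) g = ∑ g, (cg (grV (N := N) (n' := n')) g - 1) := by
          have h0 := sum_cg (grV (N := N) (n' := n'))
          have h1 := card_var_eqn (N := N) (n' := n')
          have h2 : ∑ g, (cg (grV (N := N) (n' := n')) g - 1) + Fintype.card (Fin 3)
              = ∑ g, cg (grV (N := N) (n' := n')) g := by
            have : Fintype.card (Fin 3) = ∑ _g : Fin 3, 1 := by simp
            rw [this, ← Finset.sum_add_distrib]
            exact Finset.sum_congr rfl fun g _ => Nat.sub_add_cancel (cg_pos g)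
          have h3 : ∑ g, (V.filter (fun j => g₁V j = g)).card = V.card :=
            (Finset.card_eq_sum_card_fiberwise (fun j _ => Finset.mem_univ _)).symm
          have h4 : ∑ g, ((Finset.univ \ V).filter (fun j => g₂V j = g)).card
              = (Finset.univ \ V).card :=
            (Finset.card_eq_sum_card_fiberwise (fun j _ => Finset.mem_univ _)).symm
          have h5 : V.card + (Finset.univ \ V).card = Fintype.card (Eqn N n') := by
            rw [Finset.card_sdiff_of_subset (Finset.subset_univ V), Finset.card_univ]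
            have := Finset.card_le_univ V
            omega
          simp only [cnt, Finset.sum_add_distrib, h3, h4, h5]
          omega
        have hle : ∀ g ∈ Finset.univ, cnt g₁V g₂V V (Finset.univ \ V) g
            ≤ cg (grV (N := N) (n' := n')) g - 1 := fun g _ => by
          have := hgood g
          omega
        have heq := (Finset.sum_eq_sum_iff_of_le hle).mp hsum 0 (Finset.mem_univ _)
        rw [cg_zero] at heq
        have hempty : ((Finset.univ \ V).filter (fun j => g₂V j = 0)) = ∅ := by
          rw [Finset.filter_eq_empty_iff]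
          rintro (r | c | l) _ <;> simp [g₂V]
        simp only [cnt, hempty, Finset.card_empty, add_zero] at heq
        omega
      · intro j hj
        simp only [Finset.mem_filter] at hj
        simp only [hS₂, Finset.mem_filter, Finset.mem_univ, true_and]
        exact hj.2
    · intro V _ W _ hVW
      simp only [Prod.mk.injEq] at hVW
      ext j
      by_cases hj : g₁V j = 0
      · have := congrArg (fun s => j ∈ s) hVW.1
        simpa [hj] using this
      · have := congrArg (fun s => j ∈ s) hVW.2
        simpa [hj] using this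
  refine hbound.trans (le_of_eq ?_)
  rw [Finset.card_product, Finset.card_powersetCard, Finset.card_powerset, hS₁card, hS₂card]
  ring

end Count

end Crest.Agent.DetCrit
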