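import Crest.Agent.Lib.DetCrit.IFT

/-!
# Multihomogeneous bilinear systems: definitions, scaling, simple solutions, persistence

Coordinates `Idx d = Σ g, Fin (d g)`; each equation `e` is a bilinear form in the coordinates of
groups `a e` and `b e`.
-/

open Filter Topology Module

set_option linter.unusedSectionVars false

namespace Crest.Agent.DetCrit

variable {G : Type} [Fintype G] [DecidableEq G] {d : G → ℕ}
variable {E : Type} [Fintype E] [DecidableEq E]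

/-- The coordinates. -/
abbrev Idx (d : G → ℕ) := Σ g : G, Fin (d g)

/-- The system. -/
def sys (T : E → Idx d → Idx d → ℂ) (z : Idx d → ℂ) (e : E) : ℂ :=
  ∑ i, ∑ j, T e i j * z i * z j

/-- The differential of the system at `z` in direction `dz`. -/
def dsys (T : E → Idx d → Idx d → ℂ) (z dz : Idx d → ℂ) (e : E) : ℂ :=
  ∑ i, ∑ j, T e i j * (dz i * z j + z i * dz j)

/-- Support condition: equation `e` is bilinear in groups `a e`, `b e`. -/
def Supp (a b : E → G) (T : E → Idx d → Idx d → ℂ) : Prop :=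
  ∀ e i j, T e i j ≠ 0 → i.1 = a e ∧ j.1 = b e

/-- Groupwise scaling. -/
def scale (c : G → ℂ) (z : Idx d → ℂ) : Idx d → ℂ := fun i => c i.1 * z i

theorem sys_scale {a b : E → G} {T : E → Idx d → Idx d → ℂ} (hT : Supp a b T) (c : G → ℂ)
    (z : Idx d → ℂ) (e : E) : sys T (scale c z) e = c (a e) * c (b e) * sys T z e := by
  unfold sys scale
  rw [Finset.mul_sum]
  refine Finset.sum_congr rfl fun i _ => ?_
  rw [Finset.mul_sum]
  refine Finset.sum_congr rfl fun j _ => ?_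
  by_cases h : T e i j = 0
  · simp [h]
  · obtain ⟨h1, h2⟩ := hT e i j h
    rw [h1, h2]; ring

theorem sys_add_smul (T : E → Idx d → Idx d → ℂ) (z dz : Idx d → ℂ) (s : ℂ) (e : E) :
    sys T (z + s • dz) e = sys T z e + s * dsys T z dz e + s ^ 2 * sys T dz e := by
  unfold sys dsys
  rw [Finset.mul_sum, Finset.mul_sum, ← Finset.sum_add_distrib, ← Finset.sum_add_distrib]
  refine Finset.sum_congr rfl fun i _ => ?_
  rw [Finset.mul_sum, Finset.mul_sum, ← Finset.sum_add_distrib, ← Finset.sum_add_distrib]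
  refine Finset.sum_congr rfl fun j _ => ?_
  simp only [Pi.add_apply, Pi.smul_apply, smul_eq_mul]
  ring

/-- A simple solution. -/
structure IsSimple (T : E → Idx d → Idx d → ℂ) (z : Idx d → ℂ) : Prop where
  sol : ∀ e, sys T z e = 0
  ne : ∀ g, ∃ i, z ⟨g, i⟩ ≠ 0
  ker : ∀ dz, (∀ e, dsys T z dz e = 0) → ∀ g, ∃ c : ℂ, ∀ i, dz ⟨g, i⟩ = c * z ⟨g, i⟩

/-- Two points are projectively distinct. -/
def Dist (z z' : Idx d → ℂ) : Prop :=
  ∃ (g : G) (i j : Fin (d g)), z ⟨g, i⟩ * z' ⟨g, j⟩ ≠ z ⟨g, j⟩ * z' ⟨g, i⟩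

theorem dist_scale {c c' : G → ℂ} {z z' : Idx d → ℂ} (h : Dist (scale c z) (scale c' z')) :
    Dist z z' := by
  obtain ⟨g, i, j, h⟩ := h
  refine ⟨g, i, j, fun h2 => h ?_⟩
  simp only [scale]
  linear_combination c g * c' g * h2

/-- The map underlying the implicit function theorem: `(t, z) ↦ (B z + t C z, chart coordinates)`. -/
def Phi (T₀ T₁ : E → Idx d → Idx d → ℂ) (p : ∀ g, Fin (d g)) (x : ℂ × (Idx d → ℂ)) :
    (E → ℂ) × (G → ℂ) :=
  (fun e => sys T₀ x.2 e + x.1 * sys T₁ x.2 e, fun g => x.2 ⟨g, p g⟩)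

theorem contDiff_Phi (T₀ T₁ : E → Idx d → Idx d → ℂ) (p : ∀ g, Fin (d g)) :
    ContDiff ℂ 1 (Phi T₀ T₁ p) := by
  unfold Phi sys
  refine ContDiff.prodMk ?_ ?_
  · refine contDiff_pi.2 fun e => ?_
    fun_prop
  · refine contDiff_pi.2 fun g => ?_
    fun_prop

theorem finrank_eq {hdim : ∑ g, d g = Fintype.card E + Fintype.card G} :
    finrank ℂ (Idx d → ℂ) = finrank ℂ ((E → ℂ) × (G → ℂ)) := by
  simp [Module.finrank_prod, hdim]

/-- The derivative of `Phi` in the `z` direction at parameter `t`. -/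
theorem fderiv_Phi_apply (T₀ T₁ : E → Idx d → Idx d → ℂ) (p : ∀ g, Fin (d g)) (t : ℂ)
    (z dz : Idx d → ℂ) :
    fderiv ℂ (Phi T₀ T₁ p) (t, z) (0, dz) =
      (fun e => dsys T₀ z dz e + t * dsys T₁ z dz e, fun g => dz ⟨g, p g⟩) := by
  have hd : HasFDerivAt (Phi T₀ T₁ p) (fderiv ℂ (Phi T₀ T₁ p) (t, z)) (t, z) :=
    ((contDiff_Phi T₀ T₁ p).differentiable (by simp) _).hasFDerivAt
  have hc : HasDerivAt (fun s : ℂ => ((t, z + s • dz) : ℂ × (Idx d → ℂ))) (0, dz) 0 := by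
    refine HasDerivAt.prodMk (hasDerivAt_const _ _) ?_
    have : HasDerivAt (fun s : ℂ => s • dz) ((1 : ℂ) • dz) 0 := (hasDerivAt_id (0 : ℂ)).smul_const dz
    simpa using this.const_add z
  have hd' : HasFDerivAt (Phi T₀ T₁ p) (fderiv ℂ (Phi T₀ T₁ p) (t, z))
      ((fun s : ℂ => ((t, z + s • dz) : ℂ × (Idx d → ℂ))) 0) := by simpa using hd
  have h1 := hd'.comp_hasDerivAt (0 : ℂ) hc
  have h2 : HasDerivAt ((Phi T₀ T₁ p) ∘ fun s : ℂ => ((t, z + s • dz) : ℂ × (Idx d → ℂ)))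
      ((fun e => dsys T₀ z dz e + t * dsys T₁ z dz e, fun g => dz ⟨g, p g⟩) :
        (E → ℂ) × (G → ℂ)) 0 := by
    refine HasDerivAt.prodMk ?_ ?_
    · refine hasDerivAt_pi.2 fun e => ?_
      have hsys : ∀ (T : E → Idx d → Idx d → ℂ), HasDerivAt (fun s : ℂ => sys T (z + s • dz) e)
          (dsys T z dz e) 0 := by
        intro T
        simp_rw [sys_add_smul]
        have h3 : HasDerivAt (fun s : ℂ => sys T z e + s * dsys T z dz e + s ^ 2 * sys T dz e)
            (0 + 1 * dsys T z dz e + (((2 : ℕ) : ℂ) * 0 ^ (2 - 1) * 1) * sys T dz e) 0 :=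
          ((hasDerivAt_const _ _).add ((hasDerivAt_id (0 : ℂ)).mul_const _)).add
            (((hasDerivAt_id (0 : ℂ)).pow 2).mul_const _)
        simpa using h3
      have h4 := (hsys T₀).fun_add ((hsys T₁).const_mul t)
      simpa [Phi, Function.comp_def] using h4
    · refine hasDerivAt_pi.2 fun g => ?_
      have h5 : HasDerivAt (fun s : ℂ => z ⟨g, p g⟩ + s * dz ⟨g, p g⟩) (0 + 1 * dz ⟨g, p g⟩) 0 :=
        (hasDerivAt_const _ _).add ((hasDerivAt_id (0 : ℂ)).mul_const _)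
      simpa [Phi, Function.comp_def] using h5
  exact h1.unique h2

/-- Persistence and local uniqueness of a simple solution under a bilinear perturbation. -/
theorem simple_persist {T₀ T₁ : E → Idx d → Idx d → ℂ} {z₀ : Idx d → ℂ} (h : IsSimple T₀ z₀)
    (hdim : ∑ g, d g = Fintype.card E + Fintype.card G) (p : ∀ g, Fin (d g))
    (hp : ∀ g, z₀ ⟨g, p g⟩ ≠ 0) :
    (∃ f : ℂ → Idx d → ℂ, Tendsto f (𝓝 0) (𝓝 z₀) ∧ ∀ᶠ t in 𝓝 (0 : ℂ),
        (∀ e, sys T₀ (f t) e + t * sys T₁ (f t) e = 0) ∧ ∀ g, f t ⟨g, p g⟩ = z₀ ⟨g, p g⟩) ∧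
    (∃ U ∈ 𝓝 (((0 : ℂ), z₀) : ℂ × (Idx d → ℂ)), ∀ x ∈ U, ∀ y ∈ U, x.1 = y.1 →
        Phi T₀ T₁ p x = Phi T₀ T₁ p y → x = y) := by
  have hS : HasStrictFDerivAt (Phi T₀ T₁ p) (fderiv ℂ (Phi T₀ T₁ p) (0, z₀)) (0, z₀) :=
    (contDiff_Phi T₀ T₁ p).contDiffAt.hasStrictFDerivAt (by simp)
  have hinj : ∀ dw, fderiv ℂ (Phi T₀ T₁ p) (0, z₀) (0, dw) = 0 → dw = 0 := by
    intro dz hdz
    rw [fderiv_Phi_apply] at hdz
    have h1 : ∀ e, dsys T₀ z₀ dz e = 0 := by
      intro e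
      have := congrFun (congrArg Prod.fst hdz) e
      simpa using this
    have h2 : ∀ g, dz ⟨g, p g⟩ = 0 := by
      intro g
      exact congrFun (congrArg Prod.snd hdz) g
    funext ⟨g, i⟩
    obtain ⟨c, hc⟩ := h.ker dz h1 g
    have h3 := hc (p g)
    rw [h2 g] at h3
    have h4 : c = 0 := by
      rcases mul_eq_zero.1 h3.symm with h5 | h5
      · exact h5
      · exact absurd h5 (hp g)
    rw [hc i, h4]; simp
  obtain ⟨⟨f, hf, hsol⟩, hU⟩ := param_ift hS hinj (finrank_eq (hdim := hdim))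
  refine ⟨⟨f, hf, ?_⟩, hU⟩
  filter_upwards [hsol] with t ht
  constructor
  · intro e
    have h1 := congrFun (congrArg Prod.fst ht) e
    simpa [Phi, h.sol e] using h1
  · intro g
    exact congrFun (congrArg Prod.snd ht) g

end Crest.Agent.DetCrit
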