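import Crest.Agent.Lib.DetCrit.Trilinear

/-!
# A nondegenerate critical point gives a simple solution of the trilinear system
-/

open Matrix

set_option linter.unusedSectionVars false

namespace Crest.Agent.DetCrit

variable {N n : ℕ}

/-- The point of the system attached to `x, v, w`. -/
def pt (x : Fin N → ℂ) (v w : Fin n → ℂ) : Idx (dd N n) → ℂ
  | ⟨.y, k⟩ => (Fin.cons 1 x : Fin (N + 1) → ℂ) k
  | ⟨.v, p⟩ => v p
  | ⟨.w, q⟩ => w q

theorem yv_pt (x : Fin N → ℂ) (v w : Fin n → ℂ) : yv (pt x v w) = Fin.cons 1 x := rfl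
theorem vv_pt (x : Fin N → ℂ) (v w : Fin n → ℂ) : vv (pt x v w) = v := rfl
theorem wv_pt (x : Fin N → ℂ) (v w : Fin n → ℂ) : wv (pt x v w) = w := rfl

section
variable (B : Fin N → Matrix (Fin n) (Fin n) ℂ)

theorem blin_add (a b : Fin N → ℂ) : blin B (a + b) = blin B a + blin B b := by
  simp only [blin, Pi.add_apply, add_smul, Finset.sum_add_distrib]

theorem blin_smul (c : ℂ) (a : Fin N → ℂ) : blin B (c • a) = c • blin B a := by
  simp only [blin, Pi.smul_apply, smul_eq_mul, mul_smul, Finset.smul_sum]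

theorem blin_zero : blin B 0 = 0 := by
  simp [blin]

end

theorem Ah_general (B0 : Matrix (Fin n) (Fin n) ℂ) (B : Fin N → Matrix (Fin n) (Fin n) ℂ)
    (x : Fin N → ℂ) (dy : Fin (N + 1) → ℂ) :
    Ah B0 B dy = dy 0 • bmat B0 B x + blin B (fun i => dy i.succ - dy 0 * x i) := by
  simp only [Ah, Fin.sum_univ_succ, Bc, Fin.cons_zero, Fin.cons_succ, bmat, blin, smul_add,
    sub_smul, Finset.sum_sub_distrib, Finset.smul_sum, mul_smul]
  abel

theorem Ah_cons (B0 : Matrix (Fin n) (Fin n) ℂ) (B : Fin N → Matrix (Fin n) (Fin n) ℂ)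
    (x : Fin N → ℂ) : Ah B0 B (Fin.cons 1 x) = bmat B0 B x := by
  simp only [Ah, Fin.sum_univ_succ, Bc, Fin.cons_zero, Fin.cons_succ, bmat, blin, one_smul]

/-- A covector vanishing on a hyperplane and at a vector off it is zero. -/
theorem row_zero {m k : ℕ} {ψ : Fin m → ℂ} {u : Fin k → Fin m → ℂ}
    (huspan : ∀ c, ψ ⬝ᵥ c = 0 → c ∈ Submodule.span ℂ (Set.range u))
    {ρ : Fin m → ℂ} (hρu : ∀ r, ρ ⬝ᵥ u r = 0) {w : Fin m → ℂ} (hψw : ψ ⬝ᵥ w ≠ 0)
    (hρw : ρ ⬝ᵥ w = 0) : ρ = 0 := by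
  classical
  have h1 : ∀ c ∈ Submodule.span ℂ (Set.range u), ρ ⬝ᵥ c = 0 := by
    intro c hc
    induction hc using Submodule.span_induction with
    | mem x hx =>
      obtain ⟨r, rfl⟩ := hx
      exact hρu r
    | zero => simp
    | add x y _ _ hx hy => rw [dotProduct_add, hx, hy, add_zero]
    | smul a x _ hx => rw [dotProduct_smul, hx]; simp
  ext i
  let e : Fin m → ℂ := Pi.single i 1
  let c : Fin m → ℂ := e - ((ψ ⬝ᵥ e) / (ψ ⬝ᵥ w)) • w
  have hc : ψ ⬝ᵥ c = 0 := by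
    simp only [c, dotProduct_sub, dotProduct_smul, smul_eq_mul]
    field_simp
    ring
  have h2 := h1 c (huspan c hc)
  simp only [c, dotProduct_sub, dotProduct_smul, smul_eq_mul, hρw, mul_zero, sub_zero] at h2
  simpa [e] using h2

/-- **Simplicity.** A nondegenerate critical point gives a simple solution. -/
theorem isSimple_TT {B0 : Matrix (Fin n) (Fin n) ℂ} {B : Fin N → Matrix (Fin n) (Fin n) ℂ}
    {ξ : Fin N → ℂ} (hξ : ξ ≠ 0) {θ' : Fin (N - 1) → Fin N → ℂ} (hθ0 : ∀ r, ξ ⬝ᵥ θ' r = 0)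
    (hθspan : ∀ θ, ξ ⬝ᵥ θ = 0 → θ ∈ Submodule.span ℂ (Set.range θ'))
    {ψ : Fin n → ℂ} {u : Fin (n - 1) → Fin n → ℂ} (hu0 : ∀ r, ψ ⬝ᵥ u r = 0)
    (huspan : ∀ c, ψ ⬝ᵥ c = 0 → c ∈ Submodule.span ℂ (Set.range u))
    {x : Fin N → ℂ} {w v : Fin n → ℂ} {q p : Fin n} (hc : Corank1 (bmat B0 B x) w v q p)
    (hψ : ψ ⬝ᵥ w ≠ 0) {l : ℂ} (hl : l ≠ 0)
    (hgrad : ∀ θ, v ⬝ᵥ (blin B θ *ᵥ w) = l * (ξ ⬝ᵥ θ))
    (hnd : ∀ (dx : Fin N → ℂ) (dl : ℂ), ξ ⬝ᵥ dx = 0 →
      (∀ θ, (adjD (bmat B0 B x) (blin B dx) * blin B θ).trace = dl * (ξ ⬝ᵥ θ)) → dx = 0) :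
    IsSimple (TT B0 B u fun r => blin B (θ' r)) (pt x v w) := by
  classical
  set A := bmat B0 B x with hA
  have hvA : ∀ c : Fin n → ℂ, v ⬝ᵥ (A *ᵥ c) = 0 := by
    intro c
    rw [Matrix.dotProduct_mulVec, hc.hv]; simp
  refine ⟨?_, ?_, ?_⟩
  · rintro (r | r | r)
    · rw [sys_eq_pol, pol_inl, yv_pt, wv_pt, Ah_cons, ← hA, hc.hw]; rfl
    · rw [sys_eq_pol, pol_inrl, yv_pt, vv_pt, Ah_cons, ← hA]; exact hvA _
    · rw [sys_eq_pol, pol_inrr, vv_pt, wv_pt, hgrad, hθ0, mul_zero]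
  · intro g
    cases g
    · exact ⟨(0 : Fin (N + 1)), by simp [pt]⟩
    · exact ⟨p, hc.vp⟩
    · exact ⟨q, hc.wq⟩
  · intro dz hdz g
    set dy := yv dz with hdy
    set dv := vv dz with hdv
    set dw := wv dz with hdw
    let dx : Fin N → ℂ := fun i => dy i.succ - dy 0 * x i
    let C := blin B dx
    have hAh : Ah B0 B dy = dy 0 • A + C := Ah_general B0 B x dy
    -- first family
    have h1 : C *ᵥ w + A *ᵥ dw = 0 := by
      ext r
      have h := hdz (.inl r)
      rw [dsys_eq_pol, pol_inl, pol_inl, yv_pt, wv_pt, Ah_cons, ← hA, ← hdy, ← hdw, hAh,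
        Matrix.add_mulVec, Matrix.smul_mulVec, hc.hw] at h
      simpa using h
    -- second family
    have h2a : ∀ r, (dv ᵥ* A + v ᵥ* C) ⬝ᵥ u r = 0 := by
      intro r
      have h := hdz (.inr (.inl r))
      rw [dsys_eq_pol, pol_inrl, pol_inrl, yv_pt, vv_pt, Ah_cons, ← hA, ← hdy, ← hdv, hAh,
        Matrix.add_mulVec, Matrix.smul_mulVec, dotProduct_add, dotProduct_smul, hvA] at h
      simp only [smul_zero, zero_add] at h
      rw [add_dotProduct, ← Matrix.dotProduct_mulVec, ← Matrix.dotProduct_mulVec]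
      linear_combination h
    have h2b : (dv ᵥ* A + v ᵥ* C) ⬝ᵥ w = 0 := by
      rw [add_dotProduct, ← Matrix.dotProduct_mulVec, ← Matrix.dotProduct_mulVec, hc.hw]
      have h3 : C *ᵥ w = -(A *ᵥ dw) := eq_neg_of_add_eq_zero_left h1
      rw [h3, dotProduct_neg, hvA]; simp
    have h2 : dv ᵥ* A + v ᵥ* C = 0 := row_zero huspan h2a hψ h2b
    -- third family
    have h3 : ∀ r, dv ⬝ᵥ (blin B (θ' r) *ᵥ w) + v ⬝ᵥ (blin B (θ' r) *ᵥ dw) = 0 := by
      intro r
      have h := hdz (.inr (.inr r))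
      rw [dsys_eq_pol, pol_inrr, pol_inrr, vv_pt, wv_pt, ← hdv, ← hdw] at h
      exact h
    -- tangency
    have hCw : v ⬝ᵥ (C *ᵥ w) = 0 := by
      have h4 : C *ᵥ w = -(A *ᵥ dw) := eq_neg_of_add_eq_zero_left h1
      rw [h4, dotProduct_neg, hvA]; simp
    have hξdx : ξ ⬝ᵥ dx = 0 := by
      have h4 := hgrad dx
      rw [hCw] at h4
      exact (mul_eq_zero.1 h4.symm).resolve_left hl
    have htr : (adjugate A * C).trace = 0 := by
      rw [hc.adj, trace_vecMulVec_mul]; exact hCw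
    obtain ⟨c, hD⟩ := adjD_eq hc h1 h2 htr
    -- the Hessian form
    have hY : ∀ θ ∈ Submodule.span ℂ (Set.range θ'),
        dv ⬝ᵥ (blin B θ *ᵥ w) + v ⬝ᵥ (blin B θ *ᵥ dw) = 0 := by
      intro θ hθ
      induction hθ using Submodule.span_induction with
      | mem y hy =>
        obtain ⟨r, rfl⟩ := hy
        exact h3 r
      | zero => simp [blin_zero]
      | add y z _ _ hy hz =>
        rw [blin_add, Matrix.add_mulVec, Matrix.add_mulVec, dotProduct_add, dotProduct_add]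
        linear_combination hy + hz
      | smul a y _ hy =>
        rw [blin_smul, Matrix.smul_mulVec, Matrix.smul_mulVec, dotProduct_smul, dotProduct_smul]
        simp only [smul_eq_mul]
        linear_combination a * hy
    have htrace : ∀ θ, (adjD A C * blin B θ).trace =
        (dv ⬝ᵥ (blin B θ *ᵥ w) + v ⬝ᵥ (blin B θ *ᵥ dw)) + c * (l * (ξ ⬝ᵥ θ)) := by
      intro θ
      rw [hD, Matrix.add_mul, Matrix.add_mul, Matrix.smul_mul, Matrix.trace_add, Matrix.trace_add,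
        Matrix.trace_smul, trace_vecMulVec_mul, trace_vecMulVec_mul, trace_vecMulVec_mul, hgrad]
      simp only [smul_eq_mul]
      ring
    obtain ⟨i₀, hi₀⟩ : ∃ i, ξ i ≠ 0 := by
      by_contra hcon
      push Not at hcon
      exact hξ (funext hcon)
    let θ₀ : Fin N → ℂ := Pi.single i₀ (ξ i₀)⁻¹
    have hθ₀ : ξ ⬝ᵥ θ₀ = 1 := by
      simp [θ₀, dotProduct_single, hi₀]
    have hdx0 : dx = 0 := by
      refine hnd dx ((adjD A C * blin B θ₀).trace) hξdx fun θ => ?_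
      let θ'' : Fin N → ℂ := θ + (-(ξ ⬝ᵥ θ)) • θ₀
      have h5 : ξ ⬝ᵥ θ'' = 0 := by
        simp only [θ'', dotProduct_add, dotProduct_smul, hθ₀, smul_eq_mul]
        ring
      have h6 := htrace θ''
      rw [hY θ'' (hθspan θ'' h5), h5] at h6
      have h7 : blin B θ'' = blin B θ + (-(ξ ⬝ᵥ θ)) • blin B θ₀ := by
        simp only [θ'', blin_add, blin_smul]
      rw [h7, Matrix.mul_add, Matrix.mul_smul, Matrix.trace_add, Matrix.trace_smul] at h6
      simp only [smul_eq_mul, mul_zero, add_zero] at h6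
      linear_combination h6
    have hC0 : C = 0 := by
      simp only [C, hdx0, blin_zero]
    rw [hC0] at h1 h2
    simp only [Matrix.zero_mulVec, zero_add, Matrix.vecMul_zero, add_zero] at h1 h2
    cases g
    · refine ⟨dy 0, fun k => ?_⟩
      change dy k = dy 0 * (Fin.cons 1 x : Fin (N + 1) → ℂ) k
      refine Fin.cases ?_ (fun i => ?_) k
      · simp
      · have h8 := congrFun hdx0 i
        simp only [dx, Pi.zero_apply] at h8
        simp only [Fin.cons_succ]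
        exact sub_eq_zero.1 h8
    · refine ⟨dv p / v p, fun k => ?_⟩
      have hvp := hc.vp
      have h9 : dv - (dv p / v p) • v = 0 := by
        refine hc.kl _ ?_ ?_
        · rw [Matrix.sub_vecMul, Matrix.smul_vecMul, h2, hc.hv]; simp
        · simp only [Pi.sub_apply, Pi.smul_apply, smul_eq_mul]
          field_simp
          ring
      have h10 : dv (k : Fin n) - (dv p / v p) * v (k : Fin n) = 0 := congrFun h9 k
      exact sub_eq_zero.1 h10
    · refine ⟨dw q / w q, fun k => ?_⟩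
      have hwq := hc.wq
      have h9 : dw - (dw q / w q) • w = 0 := by
        refine hc.kr _ ?_ ?_
        · rw [Matrix.mulVec_sub, Matrix.mulVec_smul, h1, hc.hw]; simp
        · simp only [Pi.sub_apply, Pi.smul_apply, smul_eq_mul]
          field_simp
          ring
      have h10 : dw (k : Fin n) - (dw q / w q) * w (k : Fin n) = 0 := congrFun h9 k
      exact sub_eq_zero.1 h10

end Crest.Agent.DetCrit
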