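import Crest.Agent.Lib.DetCrit.Count
import Crest.Agent.Lib.DetCrit.Corank

/-!
# The trilinear system of a determinantal hypersurface

Unknowns `(y, v, w)`; equations `A(y) w = 0`, `v^T A(y) u_r = 0`, `v^T Θ_r w = 0`.
-/

open Matrix

set_option linter.unusedSectionVars false

namespace Crest.Agent.DetCrit

/-- The three groups of unknowns. -/
inductive Grp
  | y | v | w
  deriving DecidableEq

instance : Fintype Grp := ⟨{.y, .v, .w}, by intro x; cases x <;> simp⟩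

/-- The group dimensions. -/
def dd (N n : ℕ) : Grp → ℕ
  | .y => N + 1
  | .v => n
  | .w => n

/-- The equations. -/
abbrev Eqn (N n : ℕ) := Fin n ⊕ Fin (n - 1) ⊕ Fin (N - 1)

/-- First group of an equation. -/
def ea {N n : ℕ} : Eqn N n → Grp
  | .inl _ => .y
  | .inr (.inl _) => .y
  | .inr (.inr _) => .v

/-- Second group of an equation. -/
def eb {N n : ℕ} : Eqn N n → Grp
  | .inl _ => .w
  | .inr (.inl _) => .v
  | .inr (.inr _) => .w

variable {N n : ℕ}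

/-- Homogenised coefficient matrices. -/
def Bc (B0 : Matrix (Fin n) (Fin n) ℂ) (B : Fin N → Matrix (Fin n) (Fin n) ℂ) :
    Fin (N + 1) → Matrix (Fin n) (Fin n) ℂ := Fin.cons B0 B

/-- The homogeneous matrix. -/
noncomputable def Ah (B0 : Matrix (Fin n) (Fin n) ℂ) (B : Fin N → Matrix (Fin n) (Fin n) ℂ)
    (y : Fin (N + 1) → ℂ) : Matrix (Fin n) (Fin n) ℂ := ∑ k, y k • Bc B0 B k

/-- The linear part. -/
noncomputable def blin (B : Fin N → Matrix (Fin n) (Fin n) ℂ) (θ : Fin N → ℂ) :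
    Matrix (Fin n) (Fin n) ℂ := ∑ i, θ i • B i

/-- The affine matrix. -/
noncomputable def bmat (B0 : Matrix (Fin n) (Fin n) ℂ) (B : Fin N → Matrix (Fin n) (Fin n) ℂ)
    (x : Fin N → ℂ) : Matrix (Fin n) (Fin n) ℂ := B0 + blin B x

/-- The coefficients of the trilinear system. -/
def TT (B0 : Matrix (Fin n) (Fin n) ℂ) (B : Fin N → Matrix (Fin n) (Fin n) ℂ)
    (u : Fin (n - 1) → Fin n → ℂ) (Θ : Fin (N - 1) → Matrix (Fin n) (Fin n) ℂ) :
    Eqn N n → Idx (dd N n) → Idx (dd N n) → ℂ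
  | .inl r, ⟨.y, k⟩, ⟨.w, q⟩ => Bc B0 B k r q
  | .inr (.inl r), ⟨.y, k⟩, ⟨.v, p⟩ => (Bc B0 B k *ᵥ u r) p
  | .inr (.inr r), ⟨.v, p⟩, ⟨.w, q⟩ => Θ r p q
  | _, _, _ => 0

theorem supp_TT (B0 : Matrix (Fin n) (Fin n) ℂ) (B : Fin N → Matrix (Fin n) (Fin n) ℂ)
    (u : Fin (n - 1) → Fin n → ℂ) (Θ : Fin (N - 1) → Matrix (Fin n) (Fin n) ℂ) :
    Supp ea eb (TT B0 B u Θ) := by
  rintro (r | r | r) ⟨g, k⟩ ⟨g', l⟩ h <;> cases g <;> cases g' <;> simp_all [TT, ea, eb]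

theorem sum_idx (f : Idx (dd N n) → ℂ) :
    ∑ i, f i = ∑ k : Fin (N + 1), f ⟨.y, k⟩ + ∑ p : Fin n, f ⟨.v, p⟩ + ∑ q : Fin n, f ⟨.w, q⟩ := by
  rw [Fintype.sum_sigma]
  have : (Finset.univ : Finset Grp) = {.y, .v, .w} := rfl
  rw [this, Finset.sum_insert (by decide), Finset.sum_insert (by decide), Finset.sum_singleton]
  exact (add_assoc _ _ _).symm

/-- Polarisation of the system. -/
def pol (T : Eqn N n → Idx (dd N n) → Idx (dd N n) → ℂ) (z z' : Idx (dd N n) → ℂ)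
    (e : Eqn N n) : ℂ := ∑ i, ∑ j, T e i j * z i * z' j

theorem sys_eq_pol (T : Eqn N n → Idx (dd N n) → Idx (dd N n) → ℂ) (z : Idx (dd N n) → ℂ)
    (e : Eqn N n) : sys T z e = pol T z z e := rfl

theorem dsys_eq_pol (T : Eqn N n → Idx (dd N n) → Idx (dd N n) → ℂ) (z dz : Idx (dd N n) → ℂ)
    (e : Eqn N n) : dsys T z dz e = pol T dz z e + pol T z dz e := by
  unfold dsys pol
  rw [← Finset.sum_add_distrib]
  refine Finset.sum_congr rfl fun i _ => ?_
  rw [← Finset.sum_add_distrib]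
  refine Finset.sum_congr rfl fun j _ => ?_
  ring

/-- Coordinates. -/
def yv (z : Idx (dd N n) → ℂ) : Fin (N + 1) → ℂ := fun k => z ⟨.y, k⟩
/-- Coordinates. -/
def vv (z : Idx (dd N n) → ℂ) : Fin n → ℂ := fun p => z ⟨.v, p⟩
/-- Coordinates. -/
def wv (z : Idx (dd N n) → ℂ) : Fin n → ℂ := fun q => z ⟨.w, q⟩

section
variable (B0 : Matrix (Fin n) (Fin n) ℂ) (B : Fin N → Matrix (Fin n) (Fin n) ℂ)
    (u : Fin (n - 1) → Fin n → ℂ) (Θ : Fin (N - 1) → Matrix (Fin n) (Fin n) ℂ)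

theorem Ah_mulVec_apply (y : Fin (N + 1) → ℂ) (c : Fin n → ℂ) (p : Fin n) :
    (Ah B0 B y *ᵥ c) p = ∑ k, y k * (Bc B0 B k *ᵥ c) p := by
  simp only [Ah, Matrix.mulVec, dotProduct, Matrix.sum_apply, Matrix.smul_apply, smul_eq_mul,
    Finset.sum_mul, Finset.mul_sum]
  rw [Finset.sum_comm]
  refine Finset.sum_congr rfl fun k _ => Finset.sum_congr rfl fun q _ => ?_
  ring

theorem pol_inl (z z' : Idx (dd N n) → ℂ) (r : Fin n) :
    pol (TT B0 B u Θ) z z' (.inl r) = (Ah B0 B (yv z) *ᵥ wv z') r := by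
  unfold pol
  simp only [sum_idx, TT]
  simp only [Matrix.mulVec, dotProduct, Ah, Matrix.sum_apply, Matrix.smul_apply, smul_eq_mul,
    yv, wv, zero_mul, Finset.sum_const_zero, add_zero, zero_add]
  rw [Finset.sum_comm]
  refine Finset.sum_congr rfl fun q _ => ?_
  rw [Finset.sum_mul]
  exact Finset.sum_congr rfl fun k _ => by ring

theorem pol_inrl (z z' : Idx (dd N n) → ℂ) (r : Fin (n - 1)) :
    pol (TT B0 B u Θ) z z' (.inr (.inl r)) = vv z' ⬝ᵥ (Ah B0 B (yv z) *ᵥ u r) := by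
  unfold pol
  simp only [sum_idx, TT]
  simp only [dotProduct, Ah_mulVec_apply, yv, vv, zero_mul, Finset.sum_const_zero, add_zero,
    zero_add, Finset.mul_sum]
  rw [Finset.sum_comm]
  refine Finset.sum_congr rfl fun p _ => Finset.sum_congr rfl fun k _ => ?_
  ring

theorem pol_inrr (z z' : Idx (dd N n) → ℂ) (r : Fin (N - 1)) :
    pol (TT B0 B u Θ) z z' (.inr (.inr r)) = vv z ⬝ᵥ (Θ r *ᵥ wv z') := by
  unfold pol
  simp only [sum_idx, TT]
  simp only [Matrix.mulVec, dotProduct,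
    vv, wv, zero_mul, Finset.sum_const_zero, add_zero, zero_add]
  refine Finset.sum_congr rfl fun p _ => ?_
  rw [Finset.mul_sum]
  exact Finset.sum_congr rfl fun q _ => by ring

end

end Crest.Agent.DetCrit
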